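import Vale.Agent.P284.H513.V11
import Mathlib.Analysis.Normed.Module.HahnBanach

/-!
# Mollification of vector valued functions: the distance to the mollified function is controlled by
the antilinear part of the differential
-/

open scoped ContDiff Topology ComplexConjugate
open MeasureTheory Set Filter Metric

noncomputable section

namespace Vale.Agent.P284.H366

open Vale.Agent.P272.K Vale.Agent.P272.K.INT Vale.Agent.P284.H513.V

variable {n : ℕ} {E : Type*} [NormedAddCommGroup E] [NormedSpace ℂ E]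

/-- multiplication by `i` on `ℂⁿ` -/
def mI : Cm n →L[ℝ] Cm n := (Complex.I • ContinuousLinearMap.id ℂ (Cm n)).restrictScalars ℝ

@[simp] lemma mI_apply (t : Cm n) : (mI : Cm n →L[ℝ] Cm n) t = Complex.I • t := rfl

/-- the antilinear part of a real linear map -/
def alp (L : Cm n →L[ℝ] E) : Cm n →L[ℝ] E := (1 / 2 : ℂ) • (L + Complex.I • L.comp mI)

lemma alp_apply (L : Cm n →L[ℝ] E) (t : Cm n) :
    alp L t = (1 / 2 : ℂ) • (L t + Complex.I • L (Complex.I • t)) := rfl

/-- the antilinear part of the differential -/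
def DB (g : Cm n → E) (y : Cm n) : Cm n →L[ℝ] E := alp (fderiv ℝ g y)

lemma DB_apply (g : Cm n → E) (y t : Cm n) :
    DB g y t = (1 / 2 : ℂ) • (fderiv ℝ g y t + Complex.I • fderiv ℝ g y (Complex.I • t)) := rfl

lemma DB_complex (g : Cm n → ℂ) (y t : Cm n) : DB g y t = ∑ j, conj (t j) * dzb j g y := by
  rw [DB_apply, fderiv_apply, fderiv_apply, smul_eq_mul, smul_eq_mul, Finset.mul_sum,
    ← Finset.sum_add_distrib, Finset.mul_sum]
  refine Finset.sum_congr rfl fun j _ => ?_
  simp only [Pi.smul_apply, smul_eq_mul, map_mul, Complex.conj_I]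
  linear_combination (1 / 2 * (t j) * dz j g y - 1 / 2 * conj (t j) * dzb j g y) * Complex.I_mul_I

lemma continuous_DB {g : Cm n → E} (hg : ContDiff ℝ 1 g) : Continuous (DB g) := by
  have h := hg.continuous_fderiv (by norm_num)
  unfold DB alp
  have h2 : Continuous fun y => (fderiv ℝ g y).comp (mI : Cm n →L[ℝ] Cm n) :=
    h.clm_comp continuous_const
  exact (h.add (h2.const_smul Complex.I)).const_smul (1 / 2 : ℂ)

lemma DB_congr {f g : Cm n → E} {z : Cm n} (h : f =ᶠ[𝓝 z] g) : DB f z = DB g z := by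
  unfold DB
  rw [h.fderiv_eq]

section
variable {F : Type*} [NormedAddCommGroup F] [NormedSpace ℂ F]

lemma fderiv_clm {g : Cm n → E} {y : Cm n} (hg : DifferentiableAt ℝ g y) (l : E →L[ℂ] F) (t : Cm n) :
    fderiv ℝ (fun z => l (g z)) y t = l (fderiv ℝ g y t) := by
  have h := ((l.restrictScalars ℝ).hasFDerivAt.comp y hg.hasFDerivAt).fderiv
  have h2 : (⇑(l.restrictScalars ℝ) ∘ g) = fun z => l (g z) := rfl
  rw [h2] at h
  rw [h]
  rfl

lemma DB_clm {g : Cm n → E} {y : Cm n} (hg : DifferentiableAt ℝ g y) (l : E →L[ℂ] F) (t : Cm n) :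
    DB (fun z => l (g z)) y t = l (DB g y t) := by
  rw [DB_apply, DB_apply, fderiv_clm hg, fderiv_clm hg, l.map_smul, l.map_add, l.map_smul]

end

section
variable {δ : ℝ} {η Θ : Cm n → ℝ} (m : Mol δ η Θ)
include m

lemma rad_eq {g : Cm n → ℂ} (hg : ContDiff ℝ 2 g) (z : Cm n) (s : ℝ) :
    ∫ t, (η t : ℂ) * fderiv ℝ g (z + s • t) t = ∫ t, (η t : ℂ) * (2 * DB g (z + s • t) t) := by
  have hg1 : ContDiff ℝ 1 g := hg.of_le (by norm_num)
  have c2 : ∀ j, Continuous (dzb j g) := fun j =>
    (contDiff_dzb (m := 0) hg1 (by norm_num) j).continuous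
  rw [m.radial hg1]
  have e : ∀ t : Cm n, (η t : ℂ) * (2 * DB g (z + s • t) t) =
      ∑ j, 2 * ((η t : ℂ) * (conj (t j) * dzb j g (z + s • t))) := by
    intro t
    rw [DB_complex, Finset.mul_sum, Finset.mul_sum]
    exact Finset.sum_congr rfl fun j _ => by ring
  simp only [e]
  have i2 : ∀ j, Integrable fun t : Cm n => (η t : ℂ) * (conj (t j) * dzb j g (z + s • t)) :=
    fun j => m.int_η ((Complex.continuous_conj.comp (continuous_apply j)).mul
      ((c2 j).comp (by fun_prop)))
  rw [integral_finsetSum _ fun j _ => (i2 j).const_mul 2]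
  refine Finset.sum_congr rfl fun j _ => ?_
  rw [integral_const_mul, m.ibp_b (contDiff_dz hg (by norm_num) j) z s j,
    m.ibp (contDiff_dzb hg (by norm_num) j) z s j]
  have h3 : ∀ y, dzb j (dz j g) y = dz j (dzb j g) y := fun y =>
    (INT.dz_dzb_comm hg.contDiffAt).symm
  simp only [h3]
  ring

lemma rep_complex {g : Cm n → ℂ} (hg : ContDiff ℝ 2 g) (z : Cm n) :
    mv η g z - g z = ∫ p in KK n δ, (η p.2 : ℂ) * (2 * DB g (z + p.1 • p.2) p.2) := by
  have hη : Continuous η := m.smooth.continuous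
  have hg1 : ContDiff ℝ 1 g := hg.of_le (by norm_num)
  have hg' : Continuous (fderiv ℝ g) := hg1.continuous_fderiv (by norm_num)
  have hd := continuous_DB hg1
  have hc : Continuous fun p : ℝ × Cm n => (η p.2 : ℂ) * fderiv ℝ g (z + p.1 • p.2) p.2 := by
    refine (Complex.continuous_ofReal.comp (hη.comp continuous_snd)).mul ?_
    exact (hg'.comp (by fun_prop)).clm_apply continuous_snd
  have hc' : Continuous fun p : ℝ × Cm n => (η p.2 : ℂ) * (2 * DB g (z + p.1 • p.2) p.2) := by
    refine (Complex.continuous_ofReal.comp (hη.comp continuous_snd)).mul (continuous_const.mul ?_)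
    exact (hd.comp (by fun_prop)).clm_apply continuous_snd
  rw [m.taylor hg1, KK_t hc fun s t ht => by rw [m.zero t ht]; simp,
    KK_t hc' fun s t ht => by rw [m.zero t ht]; simp]
  exact setIntegral_congr_fun measurableSet_Icc fun s _ => rad_eq m hg z s

variable [CompleteSpace E]

lemma mv_clm {F : Type*} [NormedAddCommGroup F] [NormedSpace ℂ F] [CompleteSpace F]
    {g : Cm n → E} (hg : Continuous g) (l : E →L[ℂ] F) (z : Cm n) :
    mv η (fun y => l (g y)) z = l (mv η g z) := by
  have hi : Integrable fun t => η t • g (z + t) :=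
    (m.smooth.continuous.smul (hg.comp (by fun_prop))).integrable_of_hasCompactSupport
      m.hcs.smul_right
  unfold mv
  rw [← l.integral_comp_comm hi]
  refine integral_congr_ae (Eventually.of_forall fun t => ?_)
  simp only
  have h : l ((η t : ℝ) • g (z + t)) = (η t : ℝ) • l (g (z + t)) := map_real_smul l l.continuous _ _
  exact h.symm

/-- the distance to the mollified function -/
lemma rep {g : Cm n → E} (hg : ContDiff ℝ 2 g) (z : Cm n) :
    mv η g z - g z = ∫ p in KK n δ, η p.2 • ((2 : ℂ) • DB g (z + p.1 • p.2) p.2) := by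
  have hη : Continuous η := m.smooth.continuous
  have hg1 : ContDiff ℝ 1 g := hg.of_le (by norm_num)
  have hd := continuous_DB hg1
  have hc' : Continuous fun p : ℝ × Cm n => η p.2 • ((2 : ℂ) • DB g (z + p.1 • p.2) p.2) := by
    refine (hη.comp continuous_snd).smul (Continuous.const_smul ?_ _)
    exact (hd.comp (by fun_prop)).clm_apply continuous_snd
  refine (SeparatingDual.eq_iff_forall_dual_eq (R := ℂ)).2 fun l => ?_
  rw [← l.integral_comp_comm (int_KK hc' δ), map_sub, ← mv_clm m hg.continuous l]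
  have h1 : ContDiff ℝ 2 fun y => l (g y) := (l.restrictScalars ℝ).contDiff.comp hg
  rw [rep_complex m h1]
  refine setIntegral_congr_fun (measurableSet_KK n δ) fun p _ => ?_
  have h : l ((η p.2 : ℝ) • ((2 : ℂ) • DB g (z + p.1 • p.2) p.2)) =
      (η p.2 : ℝ) • l ((2 : ℂ) • DB g (z + p.1 • p.2) p.2) := map_real_smul l l.continuous _ _
  simp only [DB_clm (hg.differentiable (by norm_num) _)]
  rw [h, map_smul]
  simp

end

/-- **basic estimate**, vector valued -/
lemma basicE [CompleteSpace E] {δ : ℝ} {q : Cm n → ℝ} (hq : Continuous q) (hq0 : ∀ t, 0 ≤ q t)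
    (hqz : ∀ t, δ ≤ ‖t‖ → q t = 0) {H : Cm n → ℝ} (hH : Continuous H) (hH0 : ∀ y, 0 ≤ H y)
    {A : Cm n → E} {G : Cm n → ℝ × Cm n → E}
    (hA : ∀ z, A z = ∫ p in KK n δ, q p.2 • G z p)
    (hG : ∀ z, ∀ p ∈ KK n δ, ‖G z p‖ ^ 2 ≤ H (z + p.1 • p.2)) {c : Cm n} {r R : ℝ}
    (hR : r + δ ≤ R) :
    ∫ z in ball c r, ‖A z‖ ^ 2 ≤ (∫ p in KK n δ, q p.2) ^ 2 * ∫ z in ball c R, H z := by
  set m : ℝ := ∫ p in KK n δ, q p.2 with hm
  have cz : ∀ z : Cm n, Continuous fun p : ℝ × Cm n => z + p.1 • p.2 := fun z => by fun_prop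
  have cq : Continuous fun p : ℝ × Cm n => q p.2 := hq.comp continuous_snd
  have hm0 : 0 ≤ m := integral_nonneg fun p => hq0 _
  -- pointwise
  have hpt : ∀ z, ‖A z‖ ^ 2 ≤ m * ∫ p in KK n δ, q p.2 * H (z + p.1 • p.2) := by
    intro z
    have h1 : ‖A z‖ ≤ ∫ p in KK n δ, q p.2 * Real.sqrt (H (z + p.1 • p.2)) := by
      rw [hA z]
      refine norm_integral_le_of_norm_le (int_KK (cq.mul ((hH.comp (cz z)).sqrt)) δ) ?_
      filter_upwards [ae_restrict_mem (measurableSet_KK n δ)] with p hp
      rw [norm_smul, Real.norm_of_nonneg (hq0 _)]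
      exact mul_le_mul_of_nonneg_left (Real.le_sqrt_of_sq_le (hG z p hp)) (hq0 _)
    have h2 := wcs (volume.restrict (KK n δ)) (fun p => q p.2)
      (fun p => Real.sqrt (H (z + p.1 • p.2))) (fun p => hq0 _) (int_KK cq δ)
      (int_KK (cq.mul ((hH.comp (cz z)).sqrt)) δ)
      (int_KK (cq.mul (((hH.comp (cz z)).sqrt).pow 2)) δ)
    have h3 : ∀ p : ℝ × Cm n, Real.sqrt (H (z + p.1 • p.2)) ^ 2 = H (z + p.1 • p.2) :=
      fun p => Real.sq_sqrt (hH0 _)
    simp only [h3] at h2
    calc ‖A z‖ ^ 2 ≤ (∫ p in KK n δ, q p.2 * Real.sqrt (H (z + p.1 • p.2))) ^ 2 := by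
          gcongr
      _ ≤ _ := h2
  -- integrability on the product
  have hcont : Continuous fun x : Cm n × (ℝ × Cm n) => q x.2.2 * H (x.1 + x.2.1 • x.2.2) :=
    (hq.comp (by fun_prop)).mul (hH.comp (by fun_prop))
  have hint : Integrable (fun x : Cm n × (ℝ × Cm n) => q x.2.2 * H (x.1 + x.2.1 • x.2.2))
      ((volume.restrict (ball c r)).prod (volume.restrict (KK n δ))) := by
    rw [Measure.prod_restrict, ← Measure.volume_eq_prod]
    exact (hcont.continuousOn.integrableOn_compact
      ((isCompact_closedBall c r).prod (isCompact_KK n δ))).mono_set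
      (prod_mono ball_subset_closedBall subset_rfl)
  have hHR : IntegrableOn H (ball c R) :=
    (hH.continuousOn.integrableOn_compact (isCompact_closedBall c R)).mono_set ball_subset_closedBall
  -- translation
  have htr : ∀ p ∈ KK n δ, q p.2 * ∫ z in ball c r, H (z + p.1 • p.2) ≤
      q p.2 * ∫ z in ball c R, H z := by
    intro p hp
    by_cases hp0 : δ ≤ ‖p.2‖
    · rw [hqz _ hp0]; simp
    push Not at hp0
    refine mul_le_mul_of_nonneg_left ?_ (hq0 _)
    have e : ∫ z in ball c r, H (z + p.1 • p.2) = ∫ z in (fun z => z + p.1 • p.2) '' ball c r, H z := by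
      have := (measurePreserving_add_right (volume : Measure (Cm n)) (p.1 • p.2)).setIntegral_image_emb
        (MeasurableEquiv.addRight (p.1 • p.2)).measurableEmbedding H (ball c r)
      exact this.symm
    rw [e]
    refine setIntegral_mono_set hHR (Eventually.of_forall fun z => hH0 z)
      (LE.le.eventuallyLE ?_)
    rintro _ ⟨y, hy, rfl⟩
    rw [mem_ball] at hy
    change dist (y + p.1 • p.2) c < R
    have h1 : ‖p.1 • p.2‖ ≤ δ := by
      have hs := hp.1
      rw [norm_smul, Real.norm_eq_abs, abs_of_nonneg hs.1]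
      nlinarith [norm_nonneg p.2, hs.1, hs.2]
    calc dist (y + p.1 • p.2) c ≤ dist (y + p.1 • p.2) y + dist y c := dist_triangle _ _ _
      _ < δ + r := by
          rw [dist_eq_norm, add_sub_cancel_left]; linarith
      _ ≤ R := by linarith
  calc ∫ z in ball c r, ‖A z‖ ^ 2
      ≤ ∫ z in ball c r, m * ∫ p in KK n δ, q p.2 * H (z + p.1 • p.2) := by
        refine integral_mono_of_nonneg (Eventually.of_forall fun z => by positivity) ?_
          (Eventually.of_forall hpt)
        exact hint.integral_prod_left.const_mul m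
    _ = m * ∫ p in KK n δ, ∫ z in ball c r, q p.2 * H (z + p.1 • p.2) := by
        rw [integral_const_mul, integral_integral_swap hint]
    _ ≤ m * ∫ p in KK n δ, q p.2 * ∫ z in ball c R, H z := by
        refine mul_le_mul_of_nonneg_left ?_ hm0
        refine setIntegral_mono_on hint.integral_prod_right ((int_KK cq δ).mul_const _)
          (measurableSet_KK n δ) fun p hp => ?_
        rw [integral_const_mul]
        exact htr p hp
    _ = m ^ 2 * ∫ z in ball c R, H z := by
        rw [integral_mul_const]; ring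

/-- the distance to the mollified function is controlled by `∂̄` -/
lemma dist_mol [CompleteSpace E] {δ : ℝ} {η Θ : Cm n → ℝ} (m : Mol δ η Θ) {g : Cm n → E}
    (hg : ContDiff ℝ 2 g) {c : Cm n} {r R : ℝ} (hR : r + δ ≤ R) :
    ∫ z in ball c r, ‖mv η g z - g z‖ ^ 2 ≤
      ((∫ p in KK n δ, η p.2) ^ 2 * (4 * δ ^ 2)) * ∫ z in ball c R, ‖DB g z‖ ^ 2 := by
  have hg1 : ContDiff ℝ 1 g := hg.of_le (by norm_num)
  have h := basicE (H := fun y => (4 * δ ^ 2) * ‖DB g y‖ ^ 2) (A := fun z => mv η g z - g z)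
    (G := fun z p => (2 : ℂ) • DB g (z + p.1 • p.2) p.2) m.smooth.continuous m.nonneg m.zero
    (continuous_const.mul ((continuous_DB hg1).norm.pow 2)) (fun y => by positivity)
    (fun z => rep m hg z) (fun z p hp => by
      have h1 : ‖p.2‖ ≤ δ := by simpa using hp.2
      have h2 : ‖DB g (z + p.1 • p.2) p.2‖ ≤ ‖DB g (z + p.1 • p.2)‖ * δ :=
        (ContinuousLinearMap.le_opNorm _ _).trans
          (mul_le_mul_of_nonneg_left h1 (norm_nonneg _))
      rw [norm_smul]
      have h3 : ‖(2 : ℂ)‖ = 2 := by simp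
      rw [h3, mul_pow]
      have h4 := pow_le_pow_left₀ (norm_nonneg _) h2 2
      nlinarith) (c := c) hR
  rw [integral_const_mul] at h
  rw [mul_assoc]
  exact h

end Vale.Agent.P284.H366
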