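import Vale.Agent.P284.H366.AF
import Vale.Agent.P284.H366.SL1
import Mathlib.Analysis.Calculus.FDeriv.Analytic

/-!
# The exterior product of `p` forms of type `(1,0)`, its derivatives
-/

open scoped Topology Matrix ContDiff ComplexConjugate
open Set Filter

noncomputable section

namespace Vale.Agent.P284.H366

open Vale.Agent.P272.K Vale.Agent.P272.K.INT

variable {n p : ℕ}

/-- the exterior product of the columns of the matrix `A` (forms of type `(1,0)`) -/
def wd (A : Matrix (Fin n) (Fin p) ℂ) : Cm n [⋀^Fin p]→L[ℂ] ℂ :=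
  { toMultilinearMap := ((Matrix.detRowAlternating (R := ℂ) (n := Fin p)).compLinearMap
      (Matrix.vecMulLinear A)).toMultilinearMap
    cont := by
      show Continuous fun ξ : Fin p → Cm n => Matrix.det (fun i => (ξ i) ᵥ* A)
      refine Continuous.matrix_det ?_
      refine continuous_pi fun i => ?_
      show Continuous fun ξ : Fin p → Cm n => (ξ i) ᵥ* A
      exact (Matrix.vecMulLinear A).continuous_of_finiteDimensional.comp (continuous_apply i)
    map_eq_zero_of_eq' := ((Matrix.detRowAlternating (R := ℂ) (n := Fin p)).compLinearMap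
      (Matrix.vecMulLinear A)).map_eq_zero_of_eq' }

/-- the values of the forms `A` on the vectors `ξ` -/
def vm (A : Matrix (Fin n) (Fin p) ℂ) {s : ℕ} (ξ : Fin s → Cm n) : Matrix (Fin s) (Fin p) ℂ :=
  Matrix.of fun i j => ∑ l, ξ i l * A l j

lemma wd_apply (A : Matrix (Fin n) (Fin p) ℂ) (ξ : Fin p → Cm n) : wd A ξ = (vm A ξ).det := rfl

lemma vm_eJ (A : Matrix (Fin n) (Fin p) ℂ) (J : Fin p → Fin n) :
    vm A (eJ J) = A.submatrix J id := by
  ext i j
  simp only [vm, Matrix.of_apply, eJ, Matrix.submatrix_apply, id_eq]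
  rw [Finset.sum_eq_single (J i)]
  · simp
  · intro l _ hl
    simp [Pi.single_eq_of_ne hl]
  · intro h
    exact absurd (Finset.mem_univ _) h

lemma wd_eJ (A : Matrix (Fin n) (Fin p) ℂ) (J : Fin p → Fin n) :
    wd A (eJ J) = (A.submatrix J id).det := by
  rw [wd_apply, vm_eJ]

/-- algebraic form of the closedness of the exterior product of closed forms -/
lemma closed_alg (A : Matrix (Fin n) (Fin p) ℂ) (B : Fin p → Fin n → Fin n → ℂ)
    (hB : ∀ r l m, B r l m = B r m l) (ξ : Fin (p + 1) → Cm n) :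
    ∑ i : Fin (p + 1), (-1 : ℂ) ^ (i : ℕ) * ∑ r, ((vm A (i.removeNth ξ)).updateCol r
      (fun s => ∑ l, i.removeNth ξ s l * ∑ m, ξ i m * B r m l)).det = 0 := by
  have h1 : ∀ (i : Fin (p + 1)) (r : Fin p), ((vm A (i.removeNth ξ)).updateCol r
      (fun s => ∑ l, i.removeNth ξ s l * ∑ m, ξ i m * B r m l)).det =
      ∑ l, ∑ m, B r m l * (ξ i m *
        ((vm A (i.removeNth ξ)).updateCol r (fun s => i.removeNth ξ s l)).det) := by
    intro i r
    have e : (fun s => ∑ l, i.removeNth ξ s l * ∑ m, ξ i m * B r m l) =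
        ∑ l, ∑ m, (ξ i m * B r m l) • (fun s => i.removeNth ξ s l) := by
      funext s
      rw [Finset.sum_apply]
      refine Finset.sum_congr rfl fun l _ => ?_
      rw [Finset.sum_apply, Finset.mul_sum]
      refine Finset.sum_congr rfl fun m _ => ?_
      simp only [Pi.smul_apply, smul_eq_mul]
      ring
    rw [e]
    have hlin : ∀ v : Fin p → ℂ, ((vm A (i.removeNth ξ)).updateCol r v).det =
        (Matrix.detRowAlternating (R := ℂ) (n := Fin p)).toMultilinearMap.toLinearMap
          (vm A (i.removeNth ξ))ᵀ r v := by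
      intro v
      rw [← Matrix.det_transpose, ← Matrix.updateRow_transpose]
      rfl
    rw [hlin, map_sum]
    refine Finset.sum_congr rfl fun l _ => ?_
    rw [map_sum]
    refine Finset.sum_congr rfl fun m _ => ?_
    rw [map_smul, ← hlin, smul_eq_mul]
    ring
  simp only [h1]
  -- the determinants of order `p + 1`
  let N : Fin p → Fin n → Fin n → Matrix (Fin (p + 1)) (Fin (p + 1)) ℂ := fun r l m =>
    Matrix.of fun i => Fin.cons (ξ i m) (Function.update (fun j => ∑ t, ξ i t * A t j) r (ξ i l))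
  have h2 : ∀ r l m, (N r l m).det = ∑ i : Fin (p + 1), (-1 : ℂ) ^ (i : ℕ) * (ξ i m *
      ((vm A (i.removeNth ξ)).updateCol r (fun s => i.removeNth ξ s l)).det) := by
    intro r l m
    rw [Matrix.det_succ_column_zero]
    refine Finset.sum_congr rfl fun i _ => ?_
    rw [mul_assoc]
    congr 3
  have h3 : ∀ r l m, (N r m l).det = -(N r l m).det := by
    intro r l m
    have : N r m l = (N r l m).submatrix id (Equiv.swap 0 r.succ) := by
      ext i j
      simp only [N, Matrix.submatrix_apply, Matrix.of_apply, id_eq]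
      rcases Fin.eq_zero_or_eq_succ j with rfl | ⟨j, rfl⟩
      · simp
      · by_cases hj : j = r
        · subst hj
          simp
        · have e1 : Equiv.swap (0 : Fin (p + 1)) r.succ j.succ = j.succ :=
            Equiv.swap_apply_of_ne_of_ne (Fin.succ_ne_zero j) fun h => hj (Fin.succ_injective _ h)
          rw [e1]
          simp [Function.update_of_ne hj]
    rw [this, Matrix.det_permute', Equiv.Perm.sign_swap (Fin.succ_ne_zero r).symm]
    simp
  have h4 : ∑ i : Fin (p + 1), (-1 : ℂ) ^ (i : ℕ) * ∑ r, ∑ l, ∑ m, B r m l * (ξ i m *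
      ((vm A (i.removeNth ξ)).updateCol r (fun s => i.removeNth ξ s l)).det) =
      ∑ r, ∑ l, ∑ m, B r m l * (N r l m).det := by
    simp only [h2, Finset.mul_sum]
    rw [Finset.sum_comm]
    refine Finset.sum_congr rfl fun r _ => ?_
    rw [Finset.sum_comm]
    refine Finset.sum_congr rfl fun l _ => ?_
    rw [Finset.sum_comm]
    refine Finset.sum_congr rfl fun m _ => ?_
    refine Finset.sum_congr rfl fun i _ => ?_
    ring
  rw [h4]
  refine Finset.sum_eq_zero fun r _ => ?_
  have h5 : ∑ l, ∑ m, B r m l * (N r l m).det = -∑ l, ∑ m, B r m l * (N r l m).det := by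
    conv_lhs => rw [Finset.sum_comm]
    rw [← Finset.sum_neg_distrib]
    refine Finset.sum_congr rfl fun l _ => ?_
    rw [← Finset.sum_neg_distrib]
    refine Finset.sum_congr rfl fun m _ => ?_
    rw [h3 r l m, hB r l m]
    ring
  have h6 : (2 : ℂ) * ∑ l, ∑ m, B r m l * (N r l m).det = 0 := by
    rw [two_mul]
    nth_rewrite 1 [h5]
    ring
  exact (mul_eq_zero.1 h6).resolve_left two_ne_zero

/-- `det` as a continuous multilinear map -/
def detC (p : ℕ) : ContinuousMultilinearMap ℂ (fun _ : Fin p => Fin p → ℂ) ℂ :=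
  { toMultilinearMap := (Matrix.detRowAlternating (R := ℂ) (n := Fin p)).toMultilinearMap
    cont := by
      show Continuous fun M : Fin p → Fin p → ℂ => Matrix.det (Matrix.of M)
      exact Continuous.matrix_det (continuous_id (X := Fin p → Fin p → ℂ)) }

lemma detC_apply (M : Fin p → Fin p → ℂ) : detC p M = Matrix.det (Matrix.of M) := rfl

lemma hasFDerivAt_det {M : Cm n → Matrix (Fin p) (Fin p) ℂ} {z : Cm n}
    (hM : ∀ i j, DifferentiableAt ℝ (fun y => M y i j) z) :
    DifferentiableAt ℝ (fun y => (M y).det) z ∧ ∀ t, fderiv ℝ (fun y => (M y).det) z t =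
      ∑ r, ((M z).updateCol r fun i => fderiv ℝ (fun y => M y i r) z t).det := by
  have hc : ∀ j, DifferentiableAt ℝ (fun y => fun i => M y i j) z := fun j =>
    differentiableAt_pi.2 fun i => hM i j
  have h := HasFDerivAt.multilinear_comp ((detC p).restrictScalars ℝ)
    (g := fun j y => fun i => M y i j) (fun j => (hc j).hasFDerivAt)
  have e : (fun y => ((detC p).restrictScalars ℝ) fun j => fun i => M y i j) =
      fun y => (M y).det := by
    funext y
    rw [← Matrix.det_transpose]
    rfl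
  rw [e] at h
  refine ⟨h.differentiableAt, fun t => ?_⟩
  rw [h.fderiv, sum_apply]
  refine Finset.sum_congr rfl fun r _ => ?_
  rw [← Matrix.det_transpose, ← Matrix.updateRow_transpose]
  have e2 : fderiv ℝ (fun y => fun i => M y i r) z t = fun i => fderiv ℝ (fun y => M y i r) z t := by
    funext i
    rw [fderiv_pi fun i => hM i r]
    rfl
  rw [← e2]
  rfl

lemma det_updateCol_comb (M : Matrix (Fin p) (Fin p) ℂ) (r : Fin p) (u v : Fin p → ℂ) (a b : ℂ) :
    (M.updateCol r fun i => a * u i + b * v i).det =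
      a * (M.updateCol r u).det + b * (M.updateCol r v).det := by
  have e : (fun i => a * u i + b * v i) = a • u + b • v := rfl
  rw [e, Matrix.det_updateCol_add, Matrix.det_updateCol_smul, Matrix.det_updateCol_smul]

/-- the antilinear part of the differential of a determinant -/
lemma DB_det {M : Cm n → Matrix (Fin p) (Fin p) ℂ} {z : Cm n}
    (hM : ∀ i j, DifferentiableAt ℝ (fun y => M y i j) z) (t : Cm n) :
    DB (fun y => (M y).det) z t =
      ∑ r, ((M z).updateCol r fun i => DB (fun y => M y i r) z t).det := by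
  rw [DB_apply, (hasFDerivAt_det hM).2, (hasFDerivAt_det hM).2, smul_eq_mul, smul_eq_mul,
    Finset.mul_sum, ← Finset.sum_add_distrib, Finset.mul_sum]
  refine Finset.sum_congr rfl fun r _ => ?_
  have e : (fun i => DB (fun y => M y i r) z t) = fun i => (1 / 2 : ℂ) *
      fderiv ℝ (fun y => M y i r) z t + (1 / 2 * Complex.I) *
        fderiv ℝ (fun y => M y i r) z (Complex.I • t) := by
    funext i
    rw [DB_apply, smul_eq_mul, smul_eq_mul]
    ring
  rw [e, det_updateCol_comb]
  ring

/-- the complex linear part of the differential -/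
def DH {E : Type*} [NormedAddCommGroup E] [NormedSpace ℂ E] (g : Cm n → E) (z t : Cm n) : E :=
  (1 / 2 : ℂ) • (fderiv ℝ g z t - Complex.I • fderiv ℝ g z (Complex.I • t))

lemma DH_add_DB {E : Type*} [NormedAddCommGroup E] [NormedSpace ℂ E] (g : Cm n → E) (z t : Cm n) :
    DH g z t + DB g z t = fderiv ℝ g z t := by
  rw [DH, DB_apply, ← smul_add]
  have : fderiv ℝ g z t - Complex.I • fderiv ℝ g z (Complex.I • t) +
      (fderiv ℝ g z t + Complex.I • fderiv ℝ g z (Complex.I • t)) =
      (2 : ℂ) • fderiv ℝ g z t := by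
    rw [two_smul]; abel
  rw [this, smul_smul]
  norm_num

lemma DH_complex (g : Cm n → ℂ) (y t : Cm n) : DH g y t = ∑ j, t j * dz j g y := by
  rw [DH, fderiv_apply, fderiv_apply, smul_eq_mul, smul_eq_mul, Finset.mul_sum,
    ← Finset.sum_sub_distrib, Finset.mul_sum]
  refine Finset.sum_congr rfl fun j _ => ?_
  simp only [Pi.smul_apply, smul_eq_mul, map_mul, Complex.conj_I]
  linear_combination (-1 / 2 * (t j) * dz j g y + 1 / 2 * conj (t j) * dzb j g y) * Complex.I_mul_I

lemma DH_det {M : Cm n → Matrix (Fin p) (Fin p) ℂ} {z : Cm n}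
    (hM : ∀ i j, DifferentiableAt ℝ (fun y => M y i j) z) (t : Cm n) :
    DH (fun y => (M y).det) z t =
      ∑ r, ((M z).updateCol r fun i => DH (fun y => M y i r) z t).det := by
  rw [DH, (hasFDerivAt_det hM).2, (hasFDerivAt_det hM).2, smul_eq_mul, smul_eq_mul,
    Finset.mul_sum, ← Finset.sum_sub_distrib, Finset.mul_sum]
  refine Finset.sum_congr rfl fun r _ => ?_
  have e : (fun i => DH (fun y => M y i r) z t) = fun i => (1 / 2 : ℂ) *
      fderiv ℝ (fun y => M y i r) z t + (-(1 / 2 * Complex.I)) *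
        fderiv ℝ (fun y => M y i r) z (Complex.I • t) := by
    funext i
    rw [DH, smul_eq_mul, smul_eq_mul]
    ring
  rw [e, det_updateCol_comb]
  ring

section
variable {A : Cm n → Matrix (Fin n) (Fin p) ℂ} {z : Cm n}

lemma fderiv_lin {ι : Type*} [Fintype ι] {a : ι → ℂ} {g : ι → Cm n → ℂ}
    (hg : ∀ l, DifferentiableAt ℝ (g l) z) : DifferentiableAt ℝ (fun y => ∑ l, a l * g l y) z ∧
    ∀ t, fderiv ℝ (fun y => ∑ l, a l * g l y) z t = ∑ l, a l * fderiv ℝ (g l) z t := by
  have h : HasFDerivAt (𝕜 := ℝ) (fun y => ∑ l, a l * g l y) (∑ l, a l • fderiv ℝ (g l) z) z :=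
    HasFDerivAt.fun_sum fun l _ => (hg l).hasFDerivAt.const_mul (a l)
  refine ⟨h.differentiableAt, fun t => ?_⟩
  rw [h.fderiv, sum_apply]
  rfl

lemma vm_diff (hA : ∀ l r, DifferentiableAt ℝ (fun y => A y l r) z) {s : ℕ} (ξ : Fin s → Cm n)
    (i : Fin s) (j : Fin p) : DifferentiableAt ℝ (fun y => vm (A y) ξ i j) z :=
  (fderiv_lin (fun l => hA l j)).1

lemma DB_wd (hA : ∀ l r, DifferentiableAt ℝ (fun y => A y l r) z) (ξ : Fin p → Cm n) (t : Cm n) :
    DB (fun y => wd (A y) ξ) z t =
      ∑ r, wd ((A z).updateCol r fun l => DB (fun y => A y l r) z t) ξ := by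
  simp only [wd_apply]
  rw [DB_det (M := fun y => vm (A y) ξ) fun i j => vm_diff hA ξ i j]
  refine Finset.sum_congr rfl fun r _ => ?_
  congr 1
  ext i j
  simp only [Matrix.updateCol_apply, vm, Matrix.of_apply]
  split_ifs with h
  · rw [DB_apply, (fderiv_lin fun l => hA l r).2, (fderiv_lin fun l => hA l r).2, smul_eq_mul,
      smul_eq_mul, Finset.mul_sum, ← Finset.sum_add_distrib, Finset.mul_sum]
    refine Finset.sum_congr rfl fun l _ => ?_
    rw [DB_apply, smul_eq_mul, smul_eq_mul]
    ring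
  · rfl

/-- **the exterior product of closed forms is closed** -/
lemma closed_wd (hA : ∀ l r, DifferentiableAt ℝ (fun y => A y l r) z)
    (hcl : ∀ r l m, dz m (fun y => A y l r) z = dz l (fun y => A y m r) z)
    (ξ : Fin (p + 1) → Cm n) :
    ∑ i : Fin (p + 1), (-1 : ℂ) ^ (i : ℕ) * DH (fun y => wd (A y) (i.removeNth ξ)) z (ξ i) = 0 := by
  have h := closed_alg (A z) (fun r m l => dz m (fun y => A y l r) z) (fun r l m => hcl r m l) ξ
  rw [← h]
  refine Finset.sum_congr rfl fun i _ => ?_
  congr 1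
  simp only [wd_apply]
  rw [DH_det (M := fun y => vm (A y) (i.removeNth ξ)) fun i' j => vm_diff hA _ i' j]
  refine Finset.sum_congr rfl fun r _ => ?_
  congr 2
  funext s
  rw [DH]
  have e : (fun y => vm (A y) (i.removeNth ξ) s r) = fun y => ∑ l, i.removeNth ξ s l * A y l r := rfl
  rw [e, (fderiv_lin fun l => hA l r).2, (fderiv_lin fun l => hA l r).2, smul_eq_mul,
    smul_eq_mul, Finset.mul_sum, ← Finset.sum_sub_distrib, Finset.mul_sum]
  refine Finset.sum_congr rfl fun l _ => ?_
  rw [← DH_complex, DH, smul_eq_mul, smul_eq_mul]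
  ring

end

end Vale.Agent.P284.H366
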