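import Vale.Agent.P284.H366.WD
import Mathlib.Analysis.Matrix.PosDef
import Mathlib.Analysis.Matrix.Order

/-!
# Cauchy–Binet, Gram determinants and exterior products
-/

open scoped Topology Matrix ComplexConjugate ComplexOrder MatrixOrder
open Set Filter

noncomputable section

namespace Vale.Agent.P284.H366

open Vale.Agent.P272.K

variable {n p : ℕ}

/-- square root -/
lemma exists_sq {Q : Matrix (Fin n) (Fin n) ℂ} (hQ : Q.PosSemidef) :
    ∃ B : Matrix (Fin n) (Fin n) ℂ, Q = Bᴴ * B := by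
  have h1 : (CFC.sqrt Q).PosSemidef := Matrix.nonneg_iff_posSemidef.1 (CFC.sqrt_nonneg Q)
  refine ⟨CFC.sqrt Q, ?_⟩
  rw [h1.isHermitian.eq]
  exact (CFC.sqrt_mul_sqrt_self Q hQ.nonneg).symm

lemma vm_mul (A : Matrix (Fin n) (Fin p) ℂ) (X : Matrix (Fin p) (Fin n) ℂ) :
    vm A (fun i => X i) = X * A := by
  ext i j
  simp [vm, Matrix.mul_apply]

/-- Cauchy–Binet -/
lemma cb (X : Matrix (Fin p) (Fin n) ℂ) (B : Matrix (Fin n) (Fin p) ℂ) :
    (X * B).det = (p.factorial : ℂ)⁻¹ *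
      ∑ J : Fin p → Fin n, (X.submatrix id J).det * (B.submatrix J id).det := by
  have h := expandL (wd B) (fun i => X i)
  rw [wd_apply, vm_mul] at h
  rw [← h, Finset.mul_sum]
  refine Finset.sum_congr rfl fun J _ => ?_
  rw [cJ, wd_eJ, smul_eq_mul, mul_assoc]
  rfl

lemma cb2 (A B : Matrix (Fin n) (Fin p) ℂ) (M : Matrix (Fin n) (Fin n) ℂ) :
    (Aᴴ * M * B).det = ((p.factorial : ℂ)⁻¹) ^ 2 * ∑ J : Fin p → Fin n, ∑ K : Fin p → Fin n,
      (M.submatrix J K).det * (conj (A.submatrix J id).det * (B.submatrix K id).det) := by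
  rw [Matrix.mul_assoc, cb, pow_two, mul_assoc]
  congr 1
  rw [Finset.mul_sum]
  refine Finset.sum_congr rfl fun J _ => ?_
  have h1 : (Aᴴ.submatrix id J).det = conj (A.submatrix J id).det := by
    rw [← Matrix.conjTranspose_submatrix, Matrix.det_conjTranspose]
    rfl
  have h2 : (M * B).submatrix J id = M.submatrix J id * B := by
    ext i j
    simp [Matrix.mul_apply]
  rw [h1, h2, cb, Finset.mul_sum, Finset.mul_sum, Finset.mul_sum]
  refine Finset.sum_congr rfl fun K _ => ?_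
  have h3 : (M.submatrix J id).submatrix id K = M.submatrix J K := rfl
  rw [h3]
  ring

lemma norm_sum_mul_sq {ι : Type*} (s : Finset ι) (a b : ι → ℂ) :
    ‖∑ i ∈ s, a i * b i‖ ^ 2 ≤ (∑ i ∈ s, ‖a i‖ ^ 2) * ∑ i ∈ s, ‖b i‖ ^ 2 := by
  calc ‖∑ i ∈ s, a i * b i‖ ^ 2 ≤ (∑ i ∈ s, ‖a i‖ * ‖b i‖) ^ 2 := by
        refine pow_le_pow_left₀ (norm_nonneg _) ((norm_sum_le _ _).trans (le_of_eq ?_)) 2
        exact Finset.sum_congr rfl fun i _ => norm_mul _ _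
    _ ≤ _ := Finset.sum_mul_sq_le_sq_mul_sq s _ _

/-- `det (Aᴴ A)` is the sum of the squares of the minors -/
lemma cb_self (A : Matrix (Fin n) (Fin p) ℂ) :
    (Aᴴ * A).det = (((p.factorial : ℝ)⁻¹ * ∑ J : Fin p → Fin n, ‖(A.submatrix J id).det‖ ^ 2 : ℝ) : ℂ)
    := by
  rw [cb]
  push_cast
  congr 1
  refine Finset.sum_congr rfl fun J _ => ?_
  rw [← Matrix.conjTranspose_submatrix, Matrix.det_conjTranspose]
  have : (star (A.submatrix J id).det) * (A.submatrix J id).det =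
      ((‖(A.submatrix J id).det‖ ^ 2 : ℝ) : ℂ) := by
    rw [← Complex.normSq_eq_norm_sq, Complex.normSq_eq_conj_mul_self]
    rfl
  rw [this]
  push_cast
  rfl

lemma cb_self' (X : Matrix (Fin p) (Fin n) ℂ) :
    (X * Xᴴ).det = (((p.factorial : ℝ)⁻¹ * ∑ J : Fin p → Fin n, ‖(X.submatrix id J).det‖ ^ 2 : ℝ) : ℂ)
    := by
  have h := cb_self Xᴴ
  rw [Matrix.conjTranspose_conjTranspose] at h
  rw [h]
  congr 2
  refine Finset.sum_congr rfl fun J _ => ?_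
  rw [← Matrix.conjTranspose_submatrix, Matrix.det_conjTranspose, norm_star]

/-- Cauchy–Schwarz inequality for determinants -/
lemma det_cs {w : Matrix (Fin n) (Fin n) ℂ} (hw : w.PosDef) (X : Matrix (Fin p) (Fin n) ℂ)
    (A : Matrix (Fin n) (Fin p) ℂ) :
    ‖(X * A).det‖ ^ 2 ≤ (X * w * Xᴴ).det.re * (Aᴴ * w⁻¹ * A).det.re := by
  obtain ⟨B, hB⟩ := exists_sq hw.posSemidef
  have hu : IsUnit w.det := hw.det_pos.ne'.isUnit
  have hBd : IsUnit B.det := by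
    have : w.det = Bᴴ.det * B.det := by rw [hB, Matrix.det_mul]
    rw [this] at hu
    exact isUnit_of_mul_isUnit_right hu
  have hBd' : IsUnit Bᴴ.det := by
    rw [Matrix.det_conjTranspose]
    exact hBd.star
  set N := (Bᴴ)⁻¹ with hN
  have e1 : X * A = (X * Bᴴ) * (N * A) := by
    rw [Matrix.mul_assoc, ← Matrix.mul_assoc Bᴴ, hN, Matrix.mul_nonsing_inv _ hBd', Matrix.one_mul]
  have e2 : (X * w * Xᴴ) = (X * Bᴴ) * (X * Bᴴ)ᴴ := by
    rw [hB, Matrix.conjTranspose_mul, Matrix.conjTranspose_conjTranspose]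
    simp only [Matrix.mul_assoc]
  have e3 : (Aᴴ * w⁻¹ * A) = (N * A)ᴴ * (N * A) := by
    have : w⁻¹ = Nᴴ * N := by
      rw [hB, Matrix.mul_inv_rev, hN, Matrix.conjTranspose_nonsing_inv,
        Matrix.conjTranspose_conjTranspose]
    rw [this, Matrix.conjTranspose_mul]
    simp only [Matrix.mul_assoc]
  rw [e2, e3, cb_self, cb_self', Complex.ofReal_re, Complex.ofReal_re, e1, cb, norm_mul, mul_pow]
  have h1 : ‖(p.factorial : ℂ)⁻¹‖ = (p.factorial : ℝ)⁻¹ := by simp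
  rw [h1]
  have h2 := norm_sum_mul_sq Finset.univ (fun J : Fin p → Fin n => ((X * Bᴴ).submatrix id J).det)
    fun J => ((N * A).submatrix J id).det
  have h3 : 0 ≤ ((p.factorial : ℝ)⁻¹) ^ 2 := by positivity
  calc _ ≤ ((p.factorial : ℝ)⁻¹) ^ 2 * ((∑ J : Fin p → Fin n,
        ‖((X * Bᴴ).submatrix id J).det‖ ^ 2) * ∑ J : Fin p → Fin n,
          ‖((N * A).submatrix J id).det‖ ^ 2) := mul_le_mul_of_nonneg_left h2 h3
    _ = _ := by ring

lemma wd_bound {w : Matrix (Fin n) (Fin n) ℂ} (hw : w.PosDef) (A : Matrix (Fin n) (Fin p) ℂ)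
    (ξ : Fin p → Cm n) :
    ‖wd A ξ‖ ^ 2 ≤ (Matrix.of ξ * w * (Matrix.of ξ)ᴴ).det.re * (Aᴴ * w⁻¹ * A).det.re := by
  have h := det_cs hw (Matrix.of ξ) A
  rwa [← vm_mul] at h

/-- the `w`-norm of a form in terms of its coefficients -/
def hN {E : Type*} [NormedAddCommGroup E] [InnerProductSpace ℂ E] (M : Matrix (Fin n) (Fin n) ℂ)
    (c : (Fin p → Fin n) → E) : ℝ :=
  (((p.factorial : ℂ)⁻¹) ^ 2 * ∑ J : Fin p → Fin n, ∑ K : Fin p → Fin n,
      (M.submatrix J K).det * inner ℂ (c J) (c K)).re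

lemma hN_wd (A : Matrix (Fin n) (Fin p) ℂ) (M : Matrix (Fin n) (Fin n) ℂ) :
    (Aᴴ * M * A).det.re = hN M fun J => wd A (eJ J) := by
  rw [cb2, hN]
  congr 2
  refine Finset.sum_congr rfl fun J _ => Finset.sum_congr rfl fun K _ => ?_
  rw [wd_eJ, wd_eJ]
  congr 1
  show _ = (A.submatrix K id).det * conj (A.submatrix J id).det
  ring

lemma hN_le {E : Type*} [NormedAddCommGroup E] [InnerProductSpace ℂ E]
    (M : Matrix (Fin n) (Fin n) ℂ) (c : (Fin p → Fin n) → E) :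
    hN M c ≤ (∑ J : Fin p → Fin n, ∑ K : Fin p → Fin n, ‖(M.submatrix J K).det‖) *
      ∑ J, ‖c J‖ ^ 2 := by
  have hf : ‖((p.factorial : ℂ)⁻¹) ^ 2‖ ≤ 1 := by
    rw [norm_pow, norm_inv, Complex.norm_natCast]
    refine pow_le_one₀ (by positivity) (inv_le_one_of_one_le₀ ?_)
    exact_mod_cast Nat.one_le_iff_ne_zero.2 p.factorial_ne_zero
  have h1 : hN M c ≤ ‖∑ J : Fin p → Fin n, ∑ K : Fin p → Fin n,
      (M.submatrix J K).det * inner ℂ (c J) (c K)‖ := by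
    refine (Complex.re_le_norm _).trans ?_
    rw [norm_mul]
    exact mul_le_of_le_one_left (norm_nonneg _) hf
  refine h1.trans ((norm_sum_le _ _).trans ?_)
  rw [Finset.sum_mul]
  refine Finset.sum_le_sum fun J _ => (norm_sum_le _ _).trans ?_
  rw [Finset.sum_mul]
  refine Finset.sum_le_sum fun K _ => ?_
  rw [norm_mul]
  refine mul_le_mul_of_nonneg_left ((norm_inner_le_norm _ _).trans ?_) (norm_nonneg _)
  have hJ : ‖c J‖ ^ 2 ≤ ∑ J, ‖c J‖ ^ 2 :=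
    Finset.single_le_sum (f := fun J => ‖c J‖ ^ 2) (fun _ _ => sq_nonneg _) (Finset.mem_univ J)
  have hK : ‖c K‖ ^ 2 ≤ ∑ J, ‖c J‖ ^ 2 :=
    Finset.single_le_sum (f := fun J => ‖c J‖ ^ 2) (fun _ _ => sq_nonneg _) (Finset.mem_univ K)
  nlinarith [sq_nonneg (‖c J‖ - ‖c K‖)]

lemma quad_self (Q : Matrix (Fin n) (Fin n) ℂ) (B : Matrix (Fin n) (Fin n) ℂ) (hQ : Q = Bᴴ * B)
    (v : Fin n → ℂ) : (star v ⬝ᵥ Q *ᵥ v).re = ∑ i, ‖(B *ᵥ v) i‖ ^ 2 := by
  have h : star v ⬝ᵥ Q *ᵥ v = star (B *ᵥ v) ⬝ᵥ (B *ᵥ v) := by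
    rw [hQ, ← Matrix.mulVec_mulVec, Matrix.dotProduct_mulVec, Matrix.star_mulVec]
  rw [h, dotProduct, Complex.re_sum]
  refine Finset.sum_congr rfl fun i _ => ?_
  have : star (B *ᵥ v) i * (B *ᵥ v) i = ((‖(B *ᵥ v) i‖ ^ 2 : ℝ) : ℂ) := by
    rw [← Complex.normSq_eq_norm_sq, Complex.normSq_eq_conj_mul_self]
    rfl
  rw [this, Complex.ofReal_re]

lemma trace_self (Y : Matrix (Fin n) (Fin n) ℂ) :
    (Y * Yᴴ).trace.re = ∑ i, ∑ j, ‖Y i j‖ ^ 2 := by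
  rw [Matrix.trace, Complex.re_sum]
  refine Finset.sum_congr rfl fun i _ => ?_
  rw [Matrix.diag_apply, Matrix.mul_apply, Complex.re_sum]
  refine Finset.sum_congr rfl fun j _ => ?_
  have : Y i j * Yᴴ j i = ((‖Y i j‖ ^ 2 : ℝ) : ℂ) := by
    rw [← Complex.normSq_eq_norm_sq, Complex.normSq_eq_conj_mul_self, mul_comm]
    rfl
  rw [this, Complex.ofReal_re]

lemma quad_hess {Q w : Matrix (Fin n) (Fin n) ℂ} (hQ : Q.PosSemidef) (hw : w.PosDef)
    (x : Matrix (Fin n) (Fin n) ℂ) (τ : Fin n → ℂ) :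
    (star (x *ᵥ τ) ⬝ᵥ Q *ᵥ (x *ᵥ τ)).re ≤
      (star τ ⬝ᵥ w *ᵥ τ).re * (Q * x * w⁻¹ * xᴴ).trace.re := by
  obtain ⟨G, hG⟩ := exists_sq hQ
  obtain ⟨B, hB⟩ := exists_sq hw.posSemidef
  have hu : IsUnit w.det := hw.det_pos.ne'.isUnit
  have hBd : IsUnit B.det := by
    have : w.det = Bᴴ.det * B.det := by rw [hB, Matrix.det_mul]
    rw [this] at hu
    exact isUnit_of_mul_isUnit_right hu
  rw [quad_self Q G hG, quad_self w B hB]
  have e1 : G *ᵥ (x *ᵥ τ) = (G * x * B⁻¹) *ᵥ (B *ᵥ τ) := by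
    rw [Matrix.mulVec_mulVec, Matrix.mulVec_mulVec, Matrix.mul_assoc (G * x),
      Matrix.nonsing_inv_mul _ hBd, Matrix.mul_one]
  have e2 : (Q * x * w⁻¹ * xᴴ).trace = ((G * x * B⁻¹) * (G * x * B⁻¹)ᴴ).trace := by
    have hwi : w⁻¹ = B⁻¹ * (B⁻¹)ᴴ := by
      rw [hB, Matrix.mul_inv_rev, Matrix.conjTranspose_nonsing_inv]
    rw [hwi, hG, Matrix.conjTranspose_mul, Matrix.conjTranspose_mul]
    have : Gᴴ * G * x * (B⁻¹ * (B⁻¹)ᴴ) * xᴴ = Gᴴ * (G * x * B⁻¹ * ((B⁻¹)ᴴ * xᴴ)) := by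
      simp only [Matrix.mul_assoc]
    rw [this, Matrix.trace_mul_comm]
    simp only [Matrix.mul_assoc]
  rw [e1, e2, trace_self, mul_comm, Finset.sum_mul]
  refine Finset.sum_le_sum fun i _ => ?_
  exact norm_sum_mul_sq Finset.univ _ _

end Vale.Agent.P284.H366
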