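import Vale.Agent.P284.H366.LS2
import Vale.Agent.P284.H366.LA1
import Vale.Agent.P284.H402.A.Alg
import Vale.Agent.P284.H402.A.Spec2

/-!
# The test forms `θ_1 ∧ … ∧ θ_q ∧ ∂f`
-/

open scoped Manifold ContDiff Topology Pointwise ComplexConjugate ComplexOrder Matrix
open Filter Set Metric MeasureTheory

noncomputable section

set_option linter.unusedSectionVars false

namespace Vale.Agent.P284.H366

open Vale.Agent.P272.K Vale.Agent.P272.K.INT Vale.Agent.P284.H513.V Vale.Agent.P284.H894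
  Vale.Agent.P284.H894.V Vale.Agent.P284.H402.A

variable {n q : ℕ} {Γ : Type} [Group Γ] {C : Coc n Γ}

/-- the bordered matrix `[θ | α]` -/
def bm (θ : Matrix (Fin n) (Fin q) ℂ) (α : Fin n → ℂ) : Matrix (Fin n) (Fin (q + 1)) ℂ :=
  Matrix.of fun i => Fin.snoc (θ i) (α i)

lemma bm_castSucc (θ : Matrix (Fin n) (Fin q) ℂ) (α : Fin n → ℂ) (i : Fin n) (j : Fin q) :
    bm θ α i j.castSucc = θ i j := by simp [bm]

lemma bm_last (θ : Matrix (Fin n) (Fin q) ℂ) (α : Fin n → ℂ) (i : Fin n) :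
    bm θ α i (Fin.last q) = α i := by simp [bm]

lemma bm_mul (J : Matrix (Fin n) (Fin n) ℂ) (θ : Matrix (Fin n) (Fin q) ℂ) (α : Fin n → ℂ) :
    bm (J * θ) (J *ᵥ α) = J * bm θ α := by
  ext i j
  refine Fin.lastCases ?_ (fun j => ?_) j
  · rw [bm_last, Matrix.mul_apply]
    simp only [bm_last]
    rfl
  · rw [bm_castSucc, Matrix.mul_apply, Matrix.mul_apply]
    simp only [bm_castSucc]

lemma bm_updateCol (θ : Matrix (Fin n) (Fin q) ℂ) (α β : Fin n → ℂ) :
    (bm θ α).updateCol (Fin.last q) β = bm θ β := by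
  ext i j
  refine Fin.lastCases ?_ (fun j => ?_) j
  · rw [Matrix.updateCol_self, bm_last]
  · rw [Matrix.updateCol_ne (Fin.castSucc_lt_last j).ne, bm_castSucc, bm_castSucc]

lemma wd_mul (J : Matrix (Fin n) (Fin n) ℂ) {p : ℕ} (A : Matrix (Fin n) (Fin p) ℂ)
    (ξ : Fin p → Cm n) : wd (J * A) ξ = wd A fun i => Jᵀ *ᵥ ξ i := by
  rw [wd_apply, wd_apply]
  congr 1
  ext i j
  simp only [vm, Matrix.of_apply, Matrix.mul_apply, Matrix.mulVec, dotProduct,
    Matrix.transpose_apply, Finset.mul_sum, Finset.sum_mul]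
  rw [Finset.sum_comm]
  refine Finset.sum_congr rfl fun l _ => Finset.sum_congr rfl fun m _ => ?_
  ring

lemma wd_zero_col {p : ℕ} {A : Matrix (Fin n) (Fin p) ℂ} {r : Fin p} (h : ∀ i, A i r = 0)
    (ξ : Fin p → Cm n) : wd A ξ = 0 := by
  rw [wd_apply]
  refine Matrix.det_eq_zero_of_column_eq_zero r fun i => ?_
  simp [vm, h]

/-- the determinant vanishes if two of the vectors are vertical -/
lemma wd_bm_zero {θ : Matrix (Fin n) (Fin q) ℂ} {α : Fin n → ℂ} {ξ : Fin (q + 1) → Cm n}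
    {i j : Fin (q + 1)} (hij : i ≠ j) (hi : ∀ l, ∑ k, ξ i k * θ k l = 0)
    (hj : ∀ l, ∑ k, ξ j k * θ k l = 0) : wd (bm θ α) ξ = 0 := by
  rw [wd_apply]
  have e : ∀ (k : Fin (q + 1)) (l : Fin q), vm (bm θ α) ξ k l.castSucc = ∑ m, ξ k m * θ m l := by
    intro k l
    simp only [vm, Matrix.of_apply, bm_castSucc]
  set a := vm (bm θ α) ξ i (Fin.last q)
  set b := vm (bm θ α) ξ j (Fin.last q)
  have hrow : ∀ k, b * vm (bm θ α) ξ i k = a * vm (bm θ α) ξ j k := by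
    intro k
    refine Fin.lastCases ?_ (fun k => ?_) k
    · show b * a = a * b
      ring
    · rw [e, e, hi, hj, mul_zero, mul_zero]
  by_cases ha : a = 0
  · refine Matrix.det_eq_zero_of_row_eq_zero i fun k => ?_
    refine Fin.lastCases ha (fun k => ?_) k
    rw [e, hi]
  · -- the row `j` is a multiple of the row `i`
    have h1 : (vm (bm θ α) ξ).det = ((vm (bm θ α) ξ).updateRow j
        ((b / a) • vm (bm θ α) ξ i)).det := by
      congr 1
      ext k l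
      by_cases hk : k = j
      · subst hk
        rw [Matrix.updateRow_self, Pi.smul_apply, smul_eq_mul]
        field_simp
        linear_combination -(hrow l)
      · rw [Matrix.updateRow_ne hk]
    rw [h1, Matrix.det_updateRow_smul]
    have h2 : ((vm (bm θ α) ξ).updateRow j (vm (bm θ α) ξ i)).det = 0 := by
      refine Matrix.det_zero_of_row_eq hij ?_
      rw [Matrix.updateRow_self, Matrix.updateRow_ne hij]
    rw [h2, mul_zero]

lemma bord_eq (h2 : H402.A.A2Stmt) {w : Matrix (Fin n) (Fin n) ℂ} (hw : w.PosDef)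
    (θ : Matrix (Fin n) (Fin q) ℂ) (α : Fin n → ℂ) :
    qf (AA w θ 0) α α = ((bm θ α)ᴴ * w⁻¹ * bm θ α).det.re := by
  rw [qf, h2.bord w θ hw α α]
  rfl

/-! ### the form `θ_1 ∧ … ∧ θ_q ∧ ∂f` -/

section
variable {f : Γ → C.I → Cm n → ℝ} {θ : HF C q}

lemma pd_diff (hf : IsTst C f) (γ : Γ) {a : C.I} {z : Cm n} (hz : z ∈ C.Ω a) (l : Fin n) :
    ContDiffAt ℝ ∞ (fun y => pd (f γ a) y l) z :=
  smooth_pd (hf.smooth γ a z hz) l

lemma bm_smooth (hf : IsTst C f) (θ : HF C q) (γ : Γ) {a : C.I} {z : Cm n} (hz : z ∈ C.Ω a)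
    (l : Fin n) (r : Fin (q + 1)) :
    ContDiffAt ℝ ∞ (fun y => bm (θ.th a y) (pd (f γ a) y) l r) z := by
  refine Fin.lastCases ?_ (fun r => ?_) r
  · simp only [bm_last]
    exact pd_diff hf γ hz l
  · simp only [bm_castSucc]
    exact th_mc θ hz l r

lemma wd_smooth {p : ℕ} {A : Cm n → Matrix (Fin n) (Fin p) ℂ} {z : Cm n} {k : WithTop ℕ∞}
    (hA : ∀ l r, ContDiffAt ℝ k (fun y => A y l r) z) (ξ : Fin p → Cm n) :
    ContDiffAt ℝ k (fun y => wd (A y) ξ) z := by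
  simp only [wd_apply, Matrix.det_apply']
  refine ContDiffAt.sum fun τ _ => contDiffAt_const.mul ?_
  refine contDiffAt_prod fun i _ => ?_
  simp only [vm, Matrix.of_apply]
  exact ContDiffAt.sum fun l _ => contDiffAt_const.mul (hA l i)

/-- **the test form** of a test function -/
def tfm (θ : HF C q) (hf : IsTst C f) : TForm C (q + 1) where
  s γ a z := (wd (bm (θ.th a z) (pd (f γ a) z))).toAlternatingMap
  S := hf.fin.toFinset
  out γ hγ a z hz := by
    have h1 : f γ a =ᶠ[𝓝 z] fun _ => 0 := by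
      filter_upwards [isOpen_ball.mem_nhds hz] with y hy
      by_contra hne
      exact hγ (hf.fin.mem_toFinset.2 ⟨a, y, hy, hne⟩)
    ext ξ
    show wd (bm (θ.th a z) (pd (f γ a) z)) ξ = 0
    refine wd_zero_col (r := Fin.last q) (fun i => ?_) ξ
    rw [bm_last, pd_zero h1]
    rfl
  smooth γ a ξ z hz := wd_smooth (bm_smooth hf θ γ hz) ξ
  compat γ a b z hz _ _ ξ := by
    show wd (bm (θ.th a z) (pd (f γ a) z)) ξ = wd (bm (θ.th b (C.T a b z))
      (pd (f (γ * C.κ a b z) b) (C.T a b z))) fun i => fderiv ℂ (C.T a b) z (ξ i)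
    rw [θ.change a b z hz, pd_law hf γ hz, bm_mul, wd_mul]
    congr 1
    funext i
    ext m
    have hT := (T_hol C hz).self_of_nhds
    rw [jmat_mulVec hT (ξ i) m, Matrix.transpose_transpose]
    rfl

lemma tfm_s (θ : HF C q) (hf : IsTst C f) (γ : Γ) (a : C.I) (z : Cm n) (ξ : Fin (q + 1) → Cm n) :
    (tfm θ hf).s γ a z ξ = wd (bm (θ.th a z) (pd (f γ a) z)) ξ := rfl

lemma tfm_closed (θ : HF C q) (hf : IsTst C f) : (tfm θ hf).Closed := by
  intro γ a y hy ξ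
  refine closed_wd (A := fun y => bm (θ.th a y) (pd (f γ a) y))
    (fun l r => (bm_smooth hf θ γ hy l r).differentiableAt (by simp)) (fun r l m => ?_) ξ
  refine Fin.lastCases ?_ (fun r => ?_) r
  · simp only [bm_last, pd]
    have h1 : ContDiffAt ℝ 2 (fun y => ((f γ a y : ℝ) : ℂ)) y :=
      (C2.contDiffAt_ofReal (hf.smooth γ a y hy)).of_le
        (WithTop.coe_le_coe.2 le_top : ((2 : ℕ∞) : WithTop ℕ∞) ≤ ((⊤ : ℕ∞) : WithTop ℕ∞))
    exact INT.dz_dz_comm h1
  · simp only [bm_castSucc]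
    exact θ.closed a y hy l r m

/-- pointwise bound of the form -/
lemma tfm_bound (h2 : H402.A.A2Stmt) (K : KM C) (θ : HF C q) (hf : IsTst C f) (γ : Γ) {a : C.I} {z : Cm n}
    (hz : z ∈ C.Ω a) (ξ : Fin (q + 1) → Cm n) :
    ‖(tfm θ hf).s γ a z ξ‖ ^ 2 ≤ (Matrix.of ξ * K.w a z * (Matrix.of ξ)ᴴ).det.re *
      vA K θ 0 f f γ a z := by
  rw [tfm_s, vA, bord_eq h2 (w_pos K hz)]
  exact wd_bound (w_pos K hz) _ ξ

lemma vA_eq (h2 : H402.A.A2Stmt) (K : KM C) (θ : HF C q) (hf : IsTst C f) (γ : Γ) {a : C.I} {z : Cm n}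
    (hz : z ∈ C.Ω a) :
    vA K θ 0 f f γ a z = hN (K.w a z)⁻¹ fun J => (tfm θ hf).s γ a z (eJ J) := by
  rw [vA, bord_eq h2 (w_pos K hz), hN_wd]
  rfl

lemma DB_pd (hf : IsTst C f) (γ : Γ) {a : C.I} {z : Cm n} (hz : z ∈ C.Ω a) (l : Fin n)
    (t : Cm n) : DB (fun y => pd (f γ a) y l) z t = (cHess (f γ a) z *ᵥ fun m => conj (t m)) l := by
  rw [DB_complex]
  simp only [Matrix.mulVec, dotProduct]
  refine Finset.sum_congr rfl fun m _ => ?_
  have h1 : ContDiffAt ℝ 2 (fun y => ((f γ a y : ℝ) : ℂ)) z :=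
    (C2.contDiffAt_ofReal (hf.smooth γ a z hz)).of_le
      (WithTop.coe_le_coe.2 le_top : ((2 : ℕ∞) : WithTop ℕ∞) ≤ ((⊤ : ℕ∞) : WithTop ℕ∞))
  have h3 : dzb m (fun y => pd (f γ a) y l) z = cHess (f γ a) z l m := by
    show dzb m (dz l fun y => ((f γ a y : ℝ) : ℂ)) z = dz l (dzb m fun y => ((f γ a y : ℝ) : ℂ)) z
    exact (INT.dz_dzb_comm h1).symm
  rw [h3, mul_comm]

lemma DB_th (θ : HF C q) {a : C.I} {z : Cm n} (hz : z ∈ C.Ω a) (l : Fin n) (r : Fin q)
    (t : Cm n) : DB (fun y => θ.th a y l r) z t = 0 := by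
  have h1 : DifferentiableAt ℂ (fun y => θ.th a y l r) z :=
    (θ.holo a l r).differentiableAt (isOpen_ball.mem_nhds hz)
  rw [DB_complex]
  refine Finset.sum_eq_zero fun m _ => ?_
  rw [Vale.Agent.P272.K.dzb_of_holo h1, mul_zero]

lemma cHess_herm (hf : IsTst C f) (γ : Γ) {a : C.I} {z : Cm n} (hz : z ∈ C.Ω a) :
    (cHess (f γ a) z).IsHermitian :=
  C2.cHess_isHermitian ((hf.smooth γ a z hz).of_le
      (WithTop.coe_le_coe.2 le_top : ((2 : ℕ∞) : WithTop ℕ∞) ≤ ((⊤ : ℕ∞) : WithTop ℕ∞)))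

lemma DB_tfm (θ : HF C q) (hf : IsTst C f) (γ : Γ) {a : C.I} {z : Cm n} (hz : z ∈ C.Ω a)
    (ξ : Fin (q + 1) → Cm n) (t : Cm n) :
    DB (fun y => (tfm θ hf).s γ a y ξ) z t =
      wd (bm (θ.th a z) (cHess (f γ a) z *ᵥ fun m => conj (t m))) ξ := by
  have h := DB_wd (A := fun y => bm (θ.th a y) (pd (f γ a) y)) (z := z)
    (fun l r => (bm_smooth hf θ γ hz l r).differentiableAt (by simp)) ξ t
  have h0 : DB (fun y => (tfm θ hf).s γ a y ξ) z t =
      DB (fun y => wd (bm (θ.th a y) (pd (f γ a) y)) ξ) z t := rfl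
  rw [h0, h, Fin.sum_univ_castSucc, Finset.sum_eq_zero, zero_add]
  · have e : (fun l => DB (fun y => bm (θ.th a y) (pd (f γ a) y) l (Fin.last q)) z t) =
        cHess (f γ a) z *ᵥ fun m => conj (t m) := by
      funext l
      simp only [bm_last]
      exact DB_pd hf γ hz l t
    rw [e, bm_updateCol]
  · intro r _
    refine wd_zero_col (r := r.castSucc) (fun i => ?_) ξ
    rw [Matrix.updateCol_self]
    simp only [bm_castSucc]
    exact DB_th θ hz i r t

/-- pointwise bound of the antilinear part -/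
lemma tfm_DB (h2 : H402.A.A2Stmt) (K : KM C) (θ : HF C q) (hf : IsTst C f) (γ : Γ) {a : C.I}
    {z : Cm n} (hz : z ∈ C.Ω a) (ξ : Fin (q + 1) → Cm n) :
    ‖DB (fun y => (tfm θ hf).s γ a y ξ) z‖ ^ 2 ≤
      (Matrix.of ξ * K.w a z * (Matrix.of ξ)ᴴ).det.re * (|K.Lam| * n) * oA K θ f γ a z := by
  have hw := w_pos K hz
  set X := Matrix.of ξ with hX
  set D := (X * K.w a z * Xᴴ).det.re with hD
  have hD0 : 0 ≤ D := by
    have h1 := (hw.posSemidef.mul_mul_conjTranspose_same X).det_nonneg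
    exact (Complex.le_def.1 h1).1
  have hAA := h2.herm (K.w a z) (θ.th a z) 0 hw le_rfl
  have hx := cHess_herm hf γ hz
  set x := cHess (f γ a) z with hxd
  have hoA : oA K θ f γ a z = (AA (K.w a z) (θ.th a z) 0 * x * (K.w a z)⁻¹ * xᴴ).trace.re := by
    rw [oA, tr2, hx.eq]
    simp only [Matrix.mul_assoc]
    rfl
  have key : ∀ t : Cm n, ‖DB (fun y => (tfm θ hf).s γ a y ξ) z t‖ ^ 2 ≤
      D * (|K.Lam| * n) * oA K θ f γ a z * ‖t‖ ^ 2 := by
    intro t
    rw [DB_tfm θ hf γ hz]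
    have h3 := wd_bound hw (bm (θ.th a z) (x *ᵥ fun m => conj (t m))) ξ
    rw [← bord_eq h2 hw, qf] at h3
    have h4 := quad_hess hAA hw x fun m => conj (t m)
    have h5 : (star (fun m => conj (t m)) ⬝ᵥ K.w a z *ᵥ fun m => conj (t m)).re ≤
        |K.Lam| * n * ‖t‖ ^ 2 := by
      have e1 : (star (fun m => conj (t m)) ⬝ᵥ K.w a z *ᵥ fun m => conj (t m)) =
          ∑ j, ∑ k, K.w a z j k * t j * conj (t k) := by
        simp only [dotProduct, Matrix.mulVec, Pi.star_apply, RCLike.star_def, Complex.conj_conj,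
          Finset.mul_sum]
        refine Finset.sum_congr rfl fun j _ => Finset.sum_congr rfl fun k _ => ?_
        ring
      rw [e1]
      refine (K.up a z hz t).trans ?_
      have h6 : ∑ j, ‖t j‖ ^ 2 ≤ n * ‖t‖ ^ 2 := by
        have : ∑ j, ‖t j‖ ^ 2 ≤ ∑ _j : Fin n, ‖t‖ ^ 2 :=
          Finset.sum_le_sum fun j _ => pow_le_pow_left₀ (norm_nonneg _) (norm_le_pi_norm t j) 2
        simpa using this
      have h7 : 0 ≤ ∑ j, ‖t j‖ ^ 2 := Finset.sum_nonneg fun _ _ => sq_nonneg _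
      calc K.Lam * ∑ j, ‖t j‖ ^ 2 ≤ |K.Lam| * ∑ j, ‖t j‖ ^ 2 :=
            mul_le_mul_of_nonneg_right (le_abs_self _) h7
        _ ≤ |K.Lam| * (n * ‖t‖ ^ 2) := mul_le_mul_of_nonneg_left h6 (abs_nonneg _)
        _ = _ := by ring
    have h8 : 0 ≤ (AA (K.w a z) (θ.th a z) 0 * x * (K.w a z)⁻¹ * xᴴ).trace.re := by
      obtain ⟨G, hG⟩ := exists_sq hAA
      obtain ⟨B, hB⟩ := exists_sq hw.inv.posSemidef
      have e2 : (AA (K.w a z) (θ.th a z) 0 * x * (K.w a z)⁻¹ * xᴴ).trace =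
          ((G * x * Bᴴ) * (G * x * Bᴴ)ᴴ).trace := by
        rw [hG, hB, Matrix.conjTranspose_mul, Matrix.conjTranspose_mul,
          Matrix.conjTranspose_conjTranspose]
        have : Gᴴ * G * x * (Bᴴ * B) * xᴴ = Gᴴ * (G * x * Bᴴ * (B * xᴴ)) := by
          simp only [Matrix.mul_assoc]
        rw [this, Matrix.trace_mul_comm]
        simp only [Matrix.mul_assoc]
      rw [e2, trace_self]
      exact Finset.sum_nonneg fun _ _ => Finset.sum_nonneg fun _ _ => sq_nonneg _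
    calc _ ≤ D * ((star (x *ᵥ fun m => conj (t m)) ⬝ᵥ AA (K.w a z) (θ.th a z) 0 *ᵥ
          (x *ᵥ fun m => conj (t m))).re) := h3
      _ ≤ D * ((|K.Lam| * n * ‖t‖ ^ 2) * oA K θ f γ a z) := by
          refine mul_le_mul_of_nonneg_left (h4.trans ?_) hD0
          rw [hoA]
          exact mul_le_mul_of_nonneg_right h5 h8
      _ = _ := by ring
  have h9 : ‖DB (fun y => (tfm θ hf).s γ a y ξ) z‖ ≤
      Real.sqrt (D * (|K.Lam| * n) * oA K θ f γ a z) := by
    refine ContinuousLinearMap.opNorm_le_bound _ (Real.sqrt_nonneg _) fun t => ?_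
    rw [← Real.sqrt_sq (norm_nonneg t), ← Real.sqrt_mul' _ (sq_nonneg _)]
    exact Real.le_sqrt_of_sq_le (key t)
  have h10 : 0 ≤ D * (|K.Lam| * n) * oA K θ f γ a z := by
    by_cases hn : ∃ t : Cm n, t ≠ 0
    · obtain ⟨t, ht⟩ := hn
      have h1 := key t
      have h2 : 0 < ‖t‖ ^ 2 := by have := norm_pos_iff.2 ht; positivity
      by_contra hneg
      push Not at hneg
      have := mul_neg_of_neg_of_pos hneg h2
      linarith [sq_nonneg ‖DB (fun y => (tfm θ hf).s γ a y ξ) z t‖]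
    · have hn0 : n = 0 := by
        by_contra h0
        exact hn ⟨fun _ => 1, fun h => one_ne_zero (congrFun h ⟨0, Nat.pos_of_ne_zero h0⟩)⟩
      subst hn0
      simp
  calc _ ≤ (Real.sqrt (D * (|K.Lam| * n) * oA K θ f γ a z)) ^ 2 :=
        pow_le_pow_left₀ (norm_nonneg _) h9 2
    _ = _ := Real.sq_sqrt h10

end

end Vale.Agent.P284.H366
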