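import Vale.Agent.P284.H402.B.TF2
import Vale.Agent.P284.H366.LS3

/-!
# The limit form vanishes on two vertical vectors
-/

open scoped Manifold ContDiff Topology Pointwise ComplexConjugate ComplexOrder Matrix
open Filter Set Metric MeasureTheory

noncomputable section

set_option linter.unusedSectionVars false

namespace Vale.Agent.P284.H366

open Vale.Agent.P272.K Vale.Agent.P272.K.INT Vale.Agent.P284.H513.V Vale.Agent.P284.H894
  Vale.Agent.P284.H894.V Vale.Agent.P284.H402.A Vale.Agent.P284.H402.B Vale.Agent.P272.K.C2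

variable {n q : ℕ} {Γ : Type} [Group Γ] {C : Coc n Γ}

/-- projections onto the vertical vectors, near a point of maximal rank -/
lemma exists_frame {M : Cm n → Matrix (Fin n) (Fin q) ℂ} {z : Cm n} (hM : C2.MC ∞ M z)
    (hinj : Function.Injective (M z).mulVec) :
    ∃ P : Cm n → Matrix (Fin n) (Fin n) ℂ, C2.MC ∞ P z ∧ (∀ᶠ y in 𝓝 z, (M y)ᵀ * P y = 0) ∧
      ∀ v, (M z)ᵀ *ᵥ v = 0 → P z *ᵥ v = v := by
  obtain ⟨g, hg⟩ := LinearMap.exists_leftInverse_of_injective (Matrix.toLin' (M z))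
    (LinearMap.ker_eq_bot.2 hinj)
  set N : Matrix (Fin q) (Fin n) ℂ := LinearMap.toMatrix' g with hN
  have hNM : N * M z = 1 := by
    have h1 := congrArg LinearMap.toMatrix' hg
    rw [LinearMap.toMatrix'_comp, LinearMap.toMatrix'_toLin', LinearMap.toMatrix'_id] at h1
    exact h1
  have hS : C2.MC ∞ (fun y => N * M y) z := C2.MC.mul (mc_const N) hM
  have h0 : (N * M z).det ≠ 0 := by rw [hNM, Matrix.det_one]; exact one_ne_zero
  have hev : ∀ᶠ y in 𝓝 z, (N * M y).det ≠ 0 :=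
    C2.det_ne_zero_eventually (A := fun y => N * M y) (hS.mono (by simp)) h0
  have hT : ∀ {ι κ : Type} {A : Cm n → Matrix ι κ ℂ}, C2.MC ∞ A z →
      C2.MC ∞ (fun y => (A y)ᵀ) z := fun hA i j => hA j i
  refine ⟨fun y => 1 - Nᵀ * ((N * M y)⁻¹)ᵀ * (M y)ᵀ, ?_, ?_, fun v hv => ?_⟩
  · exact C2.MC.sub (mc_const _) (((mc_const Nᵀ).mul (hT (hS.inv h0))).mul (hT hM))
  · filter_upwards [hev] with y hy
    have hu : IsUnit (N * M y).det := isUnit_iff_ne_zero.2 hy
    have e : (M y)ᵀ * Nᵀ * ((N * M y)⁻¹)ᵀ = 1 := by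
      rw [← Matrix.transpose_mul, ← Matrix.transpose_mul, Matrix.nonsing_inv_mul _ hu,
        Matrix.transpose_one]
    rw [Matrix.mul_sub, Matrix.mul_one, ← Matrix.mul_assoc, ← Matrix.mul_assoc, e, Matrix.one_mul,
      sub_self]
  · rw [Matrix.sub_mulVec, Matrix.one_mulVec, ← Matrix.mulVec_mulVec, hv, Matrix.mulVec_zero,
      sub_zero]

/-- **Relation.** The limit vanishes if two arguments are vertical (at points of maximal rank). -/
theorem LimS_rel (D : MD C) {U : Ultrafilter ℕ} (θ : HF C q) {f : ℕ → Γ → C.I → Cm n → ℝ}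
    (hf : ∀ k, IsTst C (f k)) (h : TSeq U fun k => tf θ (hf k)) (γ : Γ) (a : C.I) {z : Cm n}
    (hz : z ∈ D.Q a) (hinj : Function.Injective (θ.th a z).mulVec) {ξ : Fin (q + 1) → Cm n}
    {i j : Fin (q + 1)} (hij : i ≠ j) (hi : ∀ r, ∑ l, ξ i l * θ.th a z l r = 0)
    (hj : ∀ r, ∑ l, ξ j l * θ.th a z l r = 0) :
    LimS D U (fun k => tf θ (hf k)) γ a z ξ = 0 := by
  have hzΩ : z ∈ C.Ω a := V_sub_Ω C a (D.Q_sub a hz)
  obtain ⟨P, hP, hP0, hPz⟩ := exists_frame (th_mc θ hzΩ) hinj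
  classical
  -- the frame
  let Ξ : Fin (q + 1) → Cm n → Cm n := fun m y => if m = i ∨ m = j then P y *ᵥ ξ m else ξ m
  have hΞ : ∀ m, ContDiffAt ℝ 1 (Ξ m) z := by
    intro m
    by_cases hm : m = i ∨ m = j
    · have : Ξ m = fun y => P y *ᵥ ξ m := by funext y; simp [Ξ, hm]
      rw [this]
      refine contDiffAt_pi.2 fun l => ?_
      simp only [Matrix.mulVec, dotProduct]
      exact ContDiffAt.sum fun s _ => ((hP l s).of_le (by
        exact_mod_cast le_top)).mul contDiffAt_const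
    · have : Ξ m = fun _ => ξ m := by funext y; simp [Ξ, hm]
      rw [this]
      exact contDiffAt_const
  have hvert : ∀ m, m = i ∨ m = j → (θ.th a z)ᵀ *ᵥ ξ m = 0 := by
    intro m hm
    funext r
    have : ∀ x : Fin (q + 1), (∀ r, ∑ l, ξ x l * θ.th a z l r = 0) →
        ((θ.th a z)ᵀ *ᵥ ξ x) r = 0 := by
      intro x hx
      simp only [Matrix.mulVec, dotProduct, Matrix.transpose_apply]
      rw [← hx r]
      exact Finset.sum_congr rfl fun l _ => mul_comm _ _
    rcases hm with rfl | rfl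
    · exact this _ hi
    · exact this _ hj
  have hΞz : (fun m => Ξ m z) = ξ := by
    funext m
    by_cases hm : m = i ∨ m = j
    · simp only [Ξ, hm, if_true]
      exact hPz _ (hvert m hm)
    · simp [Ξ, hm]
  have key := SF_rel_frame (h.fseq D γ a) D.mol D.pos.le le_rfl hz Ξ hΞ ?_
  · rw [hΞz] at key
    exact key
  filter_upwards [hP0] with y hy k
  rw [(tf θ (hf k)).Φ_apply]
  have h0 : ∀ g, (tf θ (hf k)).s g a y (fun m => Ξ m y) = 0 := by
    intro g
    have hv : ∀ m, m = i ∨ m = j → ∀ r, ∑ l, Ξ m y l * θ.th a y l r = 0 := by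
      intro m hm r
      have e1 : Ξ m y = P y *ᵥ ξ m := by simp [Ξ, hm]
      have e2 : (θ.th a y)ᵀ *ᵥ Ξ m y = 0 := by
        rw [e1, Matrix.mulVec_mulVec, hy, Matrix.zero_mulVec]
      have e3 := congrFun e2 r
      simp only [Matrix.mulVec, dotProduct, Matrix.transpose_apply, Pi.zero_apply] at e3
      rw [← e3]
      exact Finset.sum_congr rfl fun l _ => mul_comm _ _
    exact wd_bm_zero (ξ := fun m => Ξ m y) hij (hv i (Or.inl rfl)) (hv j (Or.inr rfl))
  have e : (fun g => (tf θ (hf k)).s g a y fun m => Ξ m y) = fun _ => 0 := funext h0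
  rw [e]
  unfold vec
  simp

end Vale.Agent.P284.H366
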