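import Vale.Agent.P284.H366.LS1

/-!
# Test forms on the covering and the Hilbert valued limit of a sequence of test forms
-/

open scoped ContDiff Topology ComplexConjugate
open MeasureTheory Set Filter Metric

noncomputable section

set_option linter.unusedSectionVars false

namespace Vale.Agent.P284.H366

open Vale.Agent.P272.K Vale.Agent.P272.K.INT Vale.Agent.P284.H513.V Vale.Agent.P284.H894
  Vale.Agent.P284.H894.V

variable {n p : ℕ} {Γ : Type} [Group Γ]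

/-- A form of type `(p,0)` with compact support on the covering. -/
structure TForm (C : Coc n Γ) (p : ℕ) where
  s : Γ → C.I → Cm n → (Cm n [⋀^Fin p]→ₗ[ℂ] ℂ)
  S : Finset Γ
  out : ∀ γ ∉ S, ∀ a, ∀ z ∈ C.V a, s γ a z = 0
  smooth : ∀ γ a ξ, ∀ z ∈ C.Ω a, ContDiffAt ℝ ∞ (fun y => s γ a y ξ) z
  compat : ∀ γ a b, ∀ z ∈ C.O a b, z ∈ C.V a → C.T a b z ∈ C.V b → ∀ ξ,
    s γ a z ξ = s (γ * C.κ a b z) b (C.T a b z) fun i => fderiv ℂ (C.T a b) z (ξ i)

variable {C : Coc n Γ}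

/-- the lift of a test form: a form with values in `ℓ²(Γ)` -/
def TForm.Φ (F : TForm C p) (γ : Γ) (a : C.I) (z : Cm n) : Cm n [⋀^Fin p]→ₗ[ℂ] L2 Γ :=
  ∑ g ∈ F.S, (sg (γ * g⁻¹) : ℂ →ₗ[ℂ] L2 Γ).compAlternatingMap (F.s g a z)

lemma alt_sum_apply {W ι : Type*} [AddCommGroup W] [Module ℂ W] (s : Finset ι)
    (f : ι → Cm n [⋀^Fin p]→ₗ[ℂ] W) (ξ : Fin p → Cm n) : (∑ i ∈ s, f i) ξ = ∑ i ∈ s, f i ξ := by
  classical
  induction s using Finset.induction_on with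
  | empty => simp
  | insert i s hi ih => rw [Finset.sum_insert hi, Finset.sum_insert hi, AlternatingMap.add_apply, ih]

lemma TForm.Φ_apply (F : TForm C p) (γ : Γ) (a : C.I) (z : Cm n) (ξ : Fin p → Cm n) :
    F.Φ γ a z ξ = vec F.S γ fun g => F.s g a z ξ := by
  rw [TForm.Φ, alt_sum_apply]
  rfl

lemma TForm.Φ_equiv (F : TForm C p) (h γ : Γ) (a : C.I) (z : Cm n) (ξ : Fin p → Cm n) :
    F.Φ (h * γ) a z ξ = lam Γ h (F.Φ γ a z ξ) := by
  rw [F.Φ_apply, F.Φ_apply, lam_vec]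

lemma TForm.Φ_compat (F : TForm C p) (γ : Γ) (a b : C.I) {z : Cm n} (hz : z ∈ C.O a b)
    (ha : z ∈ C.V a) (hb : C.T a b z ∈ C.V b) (ξ : Fin p → Cm n) :
    F.Φ γ a z ξ = F.Φ (γ * C.κ a b z) b (C.T a b z) fun i => fderiv ℂ (C.T a b) z (ξ i) := by
  rw [F.Φ_apply, F.Φ_apply]
  refine vec_shift F.S γ (C.κ a b z) (fun g hg => ?_) (fun g hg => ?_) fun g => ?_
  · rw [F.out g hg a z ha]; rfl
  · rw [F.out g hg b _ hb]; rfl
  · exact F.compat g a b z hz ha hb ξ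

lemma TForm.Φ_inner (F F' : TForm C p) (hS : F.S = F'.S) (γ : Γ) (a : C.I) (z : Cm n)
    (ξ ξ' : Fin p → Cm n) :
    inner ℂ (F.Φ γ a z ξ) (F'.Φ γ a z ξ') = ∑ g ∈ F.S, conj (F.s g a z ξ) * F'.s g a z ξ' := by
  rw [F.Φ_apply, F'.Φ_apply, ← hS, inner_vec]

lemma TForm.Φ_norm (F : TForm C p) (γ : Γ) (a : C.I) (z : Cm n) (ξ : Fin p → Cm n) :
    ‖F.Φ γ a z ξ‖ ^ 2 = ∑ g ∈ F.S, ‖F.s g a z ξ‖ ^ 2 := by
  rw [F.Φ_apply, norm_vec]

lemma TForm.Φ_smooth (F : TForm C p) (γ : Γ) (a : C.I) (ξ : Fin p → Cm n) {z : Cm n}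
    (hz : z ∈ C.Ω a) : ContDiffAt ℝ ∞ (fun y => F.Φ γ a y ξ) z := by
  simp only [F.Φ_apply]
  exact vec_contDiffAt γ fun g _ => F.smooth g a ξ z hz

lemma TForm.diff (F : TForm C p) (γ : Γ) (a : C.I) (ξ : Fin p → Cm n) {z : Cm n}
    (hz : z ∈ C.Ω a) : DifferentiableAt ℝ (fun y => F.s γ a y ξ) z :=
  (F.smooth γ a ξ z hz).differentiableAt (by simp)

lemma TForm.Φ_DH (F : TForm C p) (γ : Γ) (a : C.I) (ξ : Fin p → Cm n) {z : Cm n}
    (hz : z ∈ C.Ω a) (t : Cm n) :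
    DH (fun y => F.Φ γ a y ξ) z t = vec F.S γ fun g => DH (fun y => F.s g a y ξ) z t := by
  simp only [F.Φ_apply]
  exact vec_DH γ (fun g _ => F.diff g a ξ hz) t

lemma TForm.Φ_DB (F : TForm C p) (γ : Γ) (a : C.I) (ξ : Fin p → Cm n) {z : Cm n}
    (hz : z ∈ C.Ω a) :
    ‖DB (fun y => F.Φ γ a y ξ) z‖ ^ 2 ≤ ∑ g ∈ F.S, ‖DB (fun y => F.s g a y ξ) z‖ ^ 2 := by
  simp only [F.Φ_apply]
  exact norm_DB_vec γ fun g _ => F.diff g a ξ hz

/-- the form is closed -/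
def TForm.Closed (F : TForm C p) : Prop :=
  ∀ γ a, ∀ y ∈ C.Ω a, ∀ ξ : Fin (p + 1) → Cm n,
    ∑ i : Fin (p + 1), (-1 : ℂ) ^ (i : ℕ) * DH (fun y => F.s γ a y (i.removeNth ξ)) y (ξ i) = 0

lemma TForm.Φ_closed {F : TForm C p} (h : F.Closed) (γ : Γ) (a : C.I) {y : Cm n}
    (hy : y ∈ C.Ω a) (ξ : Fin (p + 1) → Cm n) :
    ∑ i : Fin (p + 1), (-1 : ℂ) ^ (i : ℕ) • DH (fun y => F.Φ γ a y (i.removeNth ξ)) y (ξ i) = 0 := by
  have e : ∀ i : Fin (p + 1), (-1 : ℂ) ^ (i : ℕ) • DH (fun y => F.Φ γ a y (i.removeNth ξ)) y (ξ i) =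
      vec F.S γ fun g => (-1 : ℂ) ^ (i : ℕ) * DH (fun y => F.s g a y (i.removeNth ξ)) y (ξ i) := by
    intro i
    rw [F.Φ_DH γ a _ hy, vec_smul]
  simp only [e]
  have e2 : ∀ (s : Finset (Fin (p + 1))) (c : Fin (p + 1) → Γ → ℂ),
      ∑ i ∈ s, vec F.S γ (c i) = vec F.S γ fun g => ∑ i ∈ s, c i g := by
    intro s c
    unfold vec
    rw [Finset.sum_comm]
    refine Finset.sum_congr rfl fun g _ => ?_
    rw [map_sum]
  rw [e2]
  have e3 : (fun g => ∑ i : Fin (p + 1), (-1 : ℂ) ^ (i : ℕ) *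
      DH (fun y => F.s g a y (i.removeNth ξ)) y (ξ i)) = fun _ => 0 := by
    funext g
    exact h g a y hy ξ
  rw [e3]
  unfold vec
  simp

/-- Mollification data for the covering. -/
structure MD (C : Coc n Γ) where
  δ : ℝ
  pos : 0 < δ
  η : Cm n → ℝ
  Θ : Cm n → ℝ
  mol : Mol δ η Θ
  ρ : C.I → ℝ
  low : ∀ a, 5 / 2 * C.r a ≤ ρ a
  up : ∀ a, ρ a + 2 * δ ≤ 3 * C.r a

/-- the ball number `a`, slightly smaller than `V a` -/
def MD.Q (D : MD C) (a : C.I) : Set (Cm n) := ball (C.c a) (D.ρ a)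

lemma MD.Q_open (D : MD C) (a : C.I) : IsOpen (D.Q a) := isOpen_ball

lemma MD.Q_sub (D : MD C) (a : C.I) : D.Q a ⊆ C.V a :=
  ball_subset_ball (by linarith [D.up a, D.pos])

lemma MD.sub_Q (D : MD C) (a : C.I) : ball (C.c a) (5 / 2 * C.r a) ⊆ D.Q a :=
  ball_subset_ball (D.low a)

lemma MD.W_sub (D : MD C) (a : C.I) : C.W a ⊆ D.Q a :=
  ball_subset_ball (by linarith [D.low a, C.r_pos a])

lemma MD.cb_sub (D : MD C) (a : C.I) : closedBall (C.c a) (D.ρ a + D.δ) ⊆ C.V a :=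
  closedBall_subset_ball (by linarith [D.up a, D.pos])

lemma V_sub_Ω (C : Coc n Γ) (a : C.I) : C.V a ⊆ C.Ω a :=
  ball_subset_ball (by linarith [C.r_pos a])

/-- `ρ` can be chosen such that given compact subsets of the balls `V a` are contained in `Q a` -/
lemma exists_MD (C : Coc n Γ) (K : C.I → Set (Cm n)) (hK : ∀ a, IsCompact (K a))
    (hKV : ∀ a, K a ⊆ C.V a) : ∃ D : MD C, ∀ a, K a ⊆ D.Q a := by
  have h1 : ∀ a, ∃ ρ, 5 / 2 * C.r a ≤ ρ ∧ ρ < 3 * C.r a ∧ K a ⊆ ball (C.c a) ρ := by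
    intro a
    have hr := C.r_pos a
    obtain ⟨ρ, hρ, hs⟩ : ∃ ρ < 3 * C.r a, K a ⊆ closedBall (C.c a) ρ := by
      rcases (K a).eq_empty_or_nonempty with h0 | h0
      · exact ⟨0, by linarith, by rw [h0]; exact empty_subset _⟩
      · obtain ⟨x, hx, hmax⟩ := (hK a).exists_isMaxOn h0 (f := fun y => dist y (C.c a))
          (by fun_prop)
        exact ⟨dist x (C.c a), hKV a hx, fun y hy => hmax hy⟩
    refine ⟨max (5 / 2 * C.r a) ((ρ + 3 * C.r a) / 2), le_max_left _ _,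
      max_lt (by linarith) (by linarith), hs.trans (closedBall_subset_ball ?_)⟩
    exact lt_of_lt_of_le (by linarith) (le_max_right _ _)
  choose ρ h2 h3 h4 using h1
  obtain ⟨a₀, -, ha₀⟩ := Finset.exists_min_image Finset.univ (fun a => (3 * C.r a - ρ a) / 2)
    ⟨Classical.arbitrary C.I, Finset.mem_univ _⟩
  have hδ : 0 < (3 * C.r a₀ - ρ a₀) / 2 := by have := h3 a₀; linarith
  obtain ⟨η, Θ, m⟩ := exists_mol (n := n) hδ
  exact ⟨⟨_, hδ, η, Θ, m, ρ, h2, fun a => by have := ha₀ a (Finset.mem_univ a); linarith⟩, h4⟩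

/-- a sequence of test forms, bounded in `L²`, almost holomorphic, closed -/
structure TSeq (U : Ultrafilter ℕ) (F : ℕ → TForm C p) : Prop where
  bd : ∀ a ξ, ∃ B : ℝ, ∀ k, ∑ g ∈ (F k).S, ∫ z in C.V a, ‖(F k).s g a z ξ‖ ^ 2 ≤ B
  dbar : ∀ a ξ, Tendsto (fun k => ∑ g ∈ (F k).S,
    ∫ z in C.V a, ‖DB (fun y => (F k).s g a y ξ) z‖ ^ 2) U (𝓝 0)

section
variable {U : Ultrafilter ℕ} {F : ℕ → TForm C p}

lemma cb_sub_Ω (C : Coc n Γ) (a : C.I) : closedBall (C.c a) (3 * C.r a) ⊆ C.Ω a :=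
  closedBall_subset_ball (by linarith [C.r_pos a])

lemma TForm.int1 (F : TForm C p) (g : Γ) (a : C.I) (ξ : Fin p → Cm n) :
    IntegrableOn (fun z => ‖F.s g a z ξ‖ ^ 2) (C.V a) := by
  refine intOn ?_
  intro z hz
  exact (((F.smooth g a ξ z (cb_sub_Ω C a hz)).continuousAt.norm).pow 2).continuousWithinAt

lemma TForm.int2 (F : TForm C p) (g : Γ) (a : C.I) (ξ : Fin p → Cm n) :
    IntegrableOn (fun z => ‖DB (fun y => F.s g a y ξ) z‖ ^ 2) (C.V a) := by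
  refine intOn ?_
  intro z hz
  have h1 := F.smooth g a ξ z (cb_sub_Ω C a hz)
  have h2 : ContinuousAt (fderiv ℝ (fun y => F.s g a y ξ)) z :=
    (h1.fderiv_right (m := 0) (by simp)).continuousAt
  have h3 : ContinuousAt (DB fun y => F.s g a y ξ) z := by
    unfold DB alp
    exact (h2.add ((h2.clm_comp continuousAt_const).const_smul Complex.I)).const_smul (1 / 2 : ℂ)
  exact ((h3.norm).pow 2).continuousWithinAt

/-- the lifts form almost holomorphic sequences -/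
lemma TSeq.fseq (h : TSeq U F) (D : MD C) (γ : Γ) (a : C.I) :
    FSeq U (C.c a) (D.ρ a + D.δ) fun k => (F k).Φ γ a := by
  intro ξ
  have hV : closedBall (C.c a) (D.ρ a + D.δ) ⊆ C.V a := D.cb_sub a
  have hV' : ball (C.c a) (D.ρ a + D.δ) ⊆ C.V a := ball_subset_closedBall.trans hV
  have hpos : 0 < D.ρ a + D.δ := by have := D.low a; have := D.pos; have := C.r_pos a; linarith
  refine ⟨hpos, fun k z hz => (F k).Φ_smooth γ a ξ (V_sub_Ω C a (hV hz)), ?_, ?_⟩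
  · obtain ⟨B, hB⟩ := h.bd a ξ
    refine ⟨B, fun k => le_trans ?_ (hB k)⟩
    simp only [(F k).Φ_norm]
    rw [integral_finsetSum _ fun g _ => ((F k).int1 g a ξ).mono_set hV']
    refine Finset.sum_le_sum fun g _ => ?_
    exact setIntegral_mono_set ((F k).int1 g a ξ) (Eventually.of_forall fun z => sq_nonneg _)
      hV'.eventuallyLE
  · refine squeeze_zero (fun k => integral_nonneg fun z => sq_nonneg _) (fun k => ?_) (h.dbar a ξ)
    have i1 : ∀ g ∈ (F k).S, IntegrableOn (fun z => ‖DB (fun y => (F k).s g a y ξ) z‖ ^ 2)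
        (ball (C.c a) (D.ρ a + D.δ)) := fun g _ => ((F k).int2 g a ξ).mono_set hV'
    have h1 : ∫ z in ball (C.c a) (D.ρ a + D.δ), ‖DB (fun y => (F k).Φ γ a y ξ) z‖ ^ 2 ≤
        ∫ z in ball (C.c a) (D.ρ a + D.δ), ∑ g ∈ (F k).S,
          ‖DB (fun y => (F k).s g a y ξ) z‖ ^ 2 := by
      refine setIntegral_mono_on ?_ (integrable_finsetSum _ i1) measurableSet_ball fun z hz =>
        (F k).Φ_DB γ a ξ (V_sub_Ω C a (hV' hz))
      refine intOn fun z hz => ?_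
      have h1 := (F k).Φ_smooth γ a ξ (V_sub_Ω C a (hV hz))
      have h2 : ContinuousAt (fderiv ℝ (fun y => (F k).Φ γ a y ξ)) z :=
        (h1.fderiv_right (m := 0) (by simp)).continuousAt
      have h3 : ContinuousAt (DB fun y => (F k).Φ γ a y ξ) z := by
        unfold DB alp
        exact (h2.add ((h2.clm_comp continuousAt_const).const_smul Complex.I)).const_smul
          (1 / 2 : ℂ)
      exact ((h3.norm).pow 2).continuousWithinAt
    refine h1.trans ?_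
    rw [integral_finsetSum _ i1]
    refine Finset.sum_le_sum fun g _ => ?_
    exact setIntegral_mono_set ((F k).int2 g a ξ) (Eventually.of_forall fun z => sq_nonneg _)
      hV'.eventuallyLE

/-- the Hilbert space of the limit -/
abbrev WU (Γ : Type) (U : Ultrafilter ℕ) : Type := UP (fun _ => L2 Γ) U

/-- the unitary representation -/
def piU (Γ : Type) [Group Γ] (U : Ultrafilter ℕ) : Γ →* (WU Γ U ≃ₗᵢ[ℂ] WU Γ U) :=
  upRep U fun _ => lam Γ

/-- **the limit form** -/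
def LimS (D : MD C) (U : Ultrafilter ℕ) (F : ℕ → TForm C p) (γ : Γ) (a : C.I) (z : Cm n) :
    Cm n [⋀^Fin p]→L[ℂ] WU Γ U :=
  SF U D.η (fun k => (F k).Φ γ a) z

variable (D : MD C)

lemma LimS_apply (h : TSeq U F) (γ : Γ) (a : C.I) {z : Cm n} (hz : z ∈ D.Q a)
    (ξ : Fin p → Cm n) :
    LimS D U F γ a z ξ = slim U D.η (fun k y => (F k).Φ γ a y ξ) z :=
  SF_apply (h.fseq D γ a) D.mol D.pos.le le_rfl hz ξ

lemma LimS_analyticAt (h : TSeq U F) (γ : Γ) (a : C.I) {z : Cm n} (hz : z ∈ D.Q a) :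
    AnalyticAt ℂ (LimS D U F γ a) z :=
  SF_analyticAt (h.fseq D γ a) D.mol le_rfl hz

lemma LimS_closed (h : TSeq U F) (hcl : ∀ k, (F k).Closed) (γ : Γ) (a : C.I) {z : Cm n}
    (hz : z ∈ D.Q a) : extDeriv (LimS D U F γ a) z = 0 := by
  refine SF_closed (h.fseq D γ a) D.mol D.pos.le le_rfl (fun k y hy ξ => ?_) hz
  exact TForm.Φ_closed (hcl k) γ a (V_sub_Ω C a (D.cb_sub a (ball_subset_closedBall hy))) ξ

lemma LimS_change (h : TSeq U F) (γ : Γ) (a b : C.I) {z : Cm n} (hO : z ∈ C.O a b)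
    (hz : z ∈ D.Q a) (hz' : C.T a b z ∈ D.Q b) :
    LimS D U F γ a z = (LimS D U F (γ * C.κ a b z) b (C.T a b z)).compContinuousLinearMap
      (fderiv ℂ (C.T a b) z) := by
  refine SF_change C (h.fseq D γ a) (h.fseq D (γ * C.κ a b z) b) D.mol D.pos.le le_rfl le_rfl hz hO
    (D.Q_sub a hz) (D.Q_sub b hz') hz' ?_
  have hc : ContinuousAt (C.T a b) z :=
    ((C.T_holo a b).differentiableAt ((C.O_open a b).mem_nhds hO)).continuousAt
  filter_upwards [(C.O_open a b).mem_nhds hO, (D.Q_open a).mem_nhds hz,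
    hc.eventually ((D.Q_open b).mem_nhds hz'), C.κ_loc a b z hO] with y h1 h2 h3 h4 k ξ
  rw [← h4]
  exact (F k).Φ_compat γ a b h1 (D.Q_sub a h2) (D.Q_sub b h3) ξ

lemma mv_clm_loc {E E' : Type*} [NormedAddCommGroup E] [NormedSpace ℂ E] [CompleteSpace E]
    [NormedAddCommGroup E'] [NormedSpace ℂ E'] [CompleteSpace E'] {c : Cm n} {R r δ : ℝ}
    {η Θ : Cm n → ℝ} (m : Mol δ η Θ) (hR : r + δ ≤ R) {z : Cm n} (hz : z ∈ ball c r) {g : Cm n → E}
    (hg : ContinuousOn g (ball c R)) (l : E →L[ℂ] E') :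
    mv η (fun y => l (g y)) z = l (mv η g z) := by
  unfold mv
  rw [← l.integral_comp_comm (mv_integrable m hR hz hg)]
  refine integral_congr_ae (Eventually.of_forall fun t => ?_)
  simp only
  have : (η t) • g (z + t) = (η t : ℂ) • g (z + t) := (Complex.coe_smul _ _).symm
  rw [this, l.map_smul]
  exact (Complex.coe_smul _ _).symm

lemma LimS_equiv (h : TSeq U F) (g γ : Γ) (a : C.I) {z : Cm n} (hz : z ∈ D.Q a)
    (ξ : Fin p → Cm n) :
    LimS D U F (g * γ) a z ξ = piU Γ U g (LimS D U F γ a z ξ) := by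
  rw [LimS_apply D h _ a hz, LimS_apply D h _ a hz, slim, slim, piU,
    upRep_mk _ _ (slim_bd (h.fseq D γ a) D.mol D.pos.le le_rfl hz ξ)]
  congr 1
  funext k
  simp only [(F k).Φ_equiv g γ a _ ξ]
  refine mv_clm_loc D.mol le_rfl hz (g := fun y => (F k).Φ γ a y ξ) ?_
    ((lam Γ g).toContinuousLinearEquiv : L2 Γ →L[ℂ] L2 Γ)
  exact ((h.fseq D γ a ξ).contOn k).mono ball_subset_closedBall

/-- **quadratic convergence** -/
lemma LimS_quad (h : TSeq U F) (γ : Γ) (a : C.I) {ψ : Cm n → ℂ}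
    (hψ : ContinuousOn ψ (closedBall (C.c a) (D.ρ a))) (ξ ξ' : Fin p → Cm n) :
    Tendsto (fun k => ∑ g ∈ (F k).S, ∫ z in D.Q a, ψ z *
      (conj ((F k).s g a z ξ) * (F k).s g a z ξ')) U
      (𝓝 (∫ z in D.Q a, ψ z * inner ℂ (LimS D U F γ a z ξ) (LimS D U F γ a z ξ'))) := by
  have h1 := quad (h.fseq D γ a ξ) (h.fseq D γ a ξ') D.mol D.pos.le le_rfl hψ
  have e1 : ∫ z in D.Q a, ψ z * inner ℂ (LimS D U F γ a z ξ) (LimS D U F γ a z ξ') =
      ∫ z in ball (C.c a) (D.ρ a), ψ z * inner ℂ (slim U D.η (fun k y => (F k).Φ γ a y ξ) z)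
        (slim U D.η (fun k y => (F k).Φ γ a y ξ') z) := by
    refine setIntegral_congr_fun measurableSet_ball fun z hz => ?_
    rw [LimS_apply D h γ a hz, LimS_apply D h γ a hz]
  rw [e1]
  refine h1.congr fun k => ?_
  have e2 : ∀ z, ψ z * inner ℂ ((F k).Φ γ a z ξ) ((F k).Φ γ a z ξ') =
      ∑ g ∈ (F k).S, ψ z * (conj ((F k).s g a z ξ) * (F k).s g a z ξ') := by
    intro z
    rw [(F k).Φ_inner (F k) rfl, Finset.mul_sum]
  rw [setIntegral_congr_fun measurableSet_ball fun z _ => e2 z]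
  refine integral_finsetSum _ fun g _ => ?_
  have hsub : closedBall (C.c a) (D.ρ a) ⊆ C.Ω a :=
    closedBall_subset_ball (by linarith [D.up a, D.pos, C.r_pos a])
  have hc : ∀ ξ, ContinuousOn (fun z => (F k).s g a z ξ) (closedBall (C.c a) (D.ρ a)) :=
    fun ξ z hz => ((F k).smooth g a ξ z (hsub hz)).continuousAt.continuousWithinAt
  exact ((hψ.mul ((Complex.continuous_conj.comp_continuousOn (hc ξ)).mul (hc ξ'))).integrableOn_compact
    (isCompact_closedBall _ _)).mono_set ball_subset_closedBall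

/-- if the limit vanishes on the ball number `a`, the sequence tends to `0` in `L²` -/
lemma LimS_zero (h : TSeq U F) (γ : Γ) (a : C.I) (h0 : ∀ z ∈ D.Q a, LimS D U F γ a z = 0)
    (ξ : Fin p → Cm n) :
    Tendsto (fun k => ∑ g ∈ (F k).S, ∫ z in D.Q a, ‖(F k).s g a z ξ‖ ^ 2) U (𝓝 0) := by
  have h1 := tendsto_zero_of_slim (h.fseq D γ a ξ) D.mol D.pos.le le_rfl (fun z hz => by
    have := h0 z hz
    rw [← LimS_apply D h γ a hz, this]
    rfl)
  refine h1.congr fun k => ?_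
  simp only [(F k).Φ_norm]
  exact integral_finsetSum _ fun g _ => ((F k).int1 g a ξ).mono_set (D.Q_sub a)

end

end Vale.Agent.P284.H366
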