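import Vale.Agent.P284.H366.ThE
import Vale.Agent.P284.H366.LS4
import Vale.Agent.P284.H402.B.TF3
import Vale.Agent.P284.H551.VNE
import Vale.Agent.P284.H551.LE2
import Vale.Agent.P284.H275.ResE
import Vale.Agent.P284.H275.Gen

/-!
# Assembly of the limit: `LimEStmt` (helper501, `Core/Spec`)
-/

open scoped Manifold ContDiff Topology InnerProductSpace ComplexConjugate ENNReal Matrix
open Filter Set MeasureTheory

noncomputable section

set_option linter.unusedSectionVars false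

namespace Vale.Agent.P284.H366

open Vale.Agent.P272.K Vale.Agent.P284.H894 Vale.Agent.P284.H894.G Vale.Agent.P284.H894.V
  Vale.Agent.P284.H894.W Vale.Agent.P284.H501 Vale.Agent.P284.H501.Core Vale.Agent.P284.H619
  Vale.Agent.P284.H402.A Vale.Agent.P284.H402.B Vale.Agent.P284.H551 Vale.Agent.P284.H494
  Vale.Agent.P284.H213.Grp

section
variable {n q : ℕ} {Γ : Type} [Group Γ] {C : Coc n Γ} {P : PU C} {K : KM C} {θ : HF C q}
  {ι : Type} [Fintype ι] {c : ι → Γ}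

/-- what is used of the normalised sequence (helper402) -/
structure AOut (A : ASeq K θ P c) (U : Ultrafilter ℕ) (D : MD C) : Prop where
  tseq : TSeq U fun k => tf θ (A.tst k)
  closed : ∀ k, (tf θ (A.tst k)).Closed
  ne : ∃ γ a, ∃ z ∈ D.Q a, LimS D U (fun k => tf θ (A.tst k)) γ a z ≠ 0
  central : ∀ i γ a, ∀ z ∈ D.Q a, LimS D U (fun k => tf θ (A.tst k)) (c i * γ) a z =
    LimS D U (fun k => tf θ (A.tst k)) γ a z

end

/-- helper402 -/
def AOutStmt : Prop := ∀ (n q : ℕ) (Γ : Type) [Group Γ] (C : Coc n Γ) (P : PU C) (K : KM C)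
  (θ : HF C q) (ι : Type) [Fintype ι] (c : ι → Γ), (∀ i g, c i * g = g * c i) →
  ∀ (A : ASeq K θ P c) (U : Ultrafilter ℕ), (U : Filter ℕ) ≤ atTop → ∀ D : MD C, AOut A U D

/-- helper15 -/
def PushStmt : Prop := ∀ (n q : ℕ) (Γ : Type) [Group Γ] (C : Coc n Γ) (P : PU C) (K : KM C)
  (θ : HF C q) (F : Γ → C.I → Cm n → Cm q) (c : Γ → Cm q), H650.HolF C F →
  (∀ g γ a, ∀ z ∈ C.Ω a, F (g * γ) a z = F γ a z + c g) →
  (∀ R : ℝ, {v : Cm q | (∃ g, c g = v) ∧ ‖v‖ ≤ R}.Finite) →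
  (∃ R : ℝ, ∀ t : Cm q, ∃ g, ‖t - c g‖ ≤ R) →
  ∀ (f : ℕ → Γ → C.I → Cm n → ℝ) (hf : ∀ k, IsTst C (f k)),
  (∀ k, en P K θ 0 (f k) (f k) = 1) → ∀ (U : Ultrafilter ℕ), H15.FL.FlatSeq P K θ F U f →
  TSeq U (fun k => tf θ (hf k)) → ∀ D : MD C, (∀ a, P.K a ⊆ D.Q a) →
  ∃ A : ℝ≥0∞, A ≠ ⊤ ∧ ∀ (γ : Γ) (a : C.I) (s : Cm q → ℝ≥0∞), Measurable s →
    ∫⁻ z in D.Q a, s (F γ a z) * ‖LimS D U (fun k => tf θ (hf k)) γ a z‖ₑ ^ 2 ≤ A * ∫⁻ y, s y

/-- helper619 -/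
def PotS : Prop :=
  ∀ (n : ℕ) (X : Type) [TopologicalSpace X] [T2Space X] [CompactSpace X] [ConnectedSpace X]
    [ChartedSpace (Cm n) X] [IsManifold 𝓘(ℂ, Cm n) ω X]
    (w : Chart n X → Cm n → Matrix (Fin n) (Fin n) ℂ), IsKahler w →
    ∀ (E Γ : Type) [TopologicalSpace E] [ConnectedSpace E] [Group Γ] [MulAction Γ E]
      (p : E → X) (hG : IsGalois Γ p) (C : Coc n Γ) (D : ECoc p C) (K : KM C)
      (hKw : ∀ a, K.w a = w (D.e a)) (q : ℕ) (F : E → Cm q) (c : Γ → Cm q) (B : ℝ)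
      (hF : HolB p w F B) (hc : Eqv F c) (hreg : ∃ y, Reg (n := n) p F y)
      (f : ℕ → Γ → C.I → Cm n → ℝ) (hf : ∀ k, IsTst C (f k)) (U : Ultrafilter ℕ)
      (_ : TSeq U fun k => tf (hfF hG D K hKw hF hc hreg) (hf k)) (Dm : MD C) (t : Cm q),
      IsConnected (F ⁻¹' {t}) → (∀ y, F y = t → Reg (n := n) p F y) →
      ∃ u : E → WU Γ U,
        (∀ y e, F y = t → At e (p y) → ∀ x : WU Γ U, ∃ g h : Cm n → ℂ,
          AnalyticAt ℂ g (e (p y)) ∧ AnalyticAt ℂ h (e (p y)) ∧ ∀ᶠ y' in 𝓝 y, F y' = t →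
            ⟪x, u y'⟫_ℂ = g (e (p y')) + conj (h (e (p y'))) ∧
            ∀ ξ ∈ VS p F y' e, fderiv ℂ g (e (p y')) ξ = ⟪x, ThE p F (SE hG D (LimS Dm U
              fun k => tf (hfF hG D K hKw hF hc hreg) (hf k))) y' e ξ⟫_ℂ) ∧
        ∀ k : Γ, c k = 0 → ∃ b : WU Γ U, ∀ y, F y = t → u (k • y) = piU Γ U k (u y) + b

/-- the periods are cocompact -/
theorem lat_co {Γ : Type} [Group Γ] {q : ℕ} {c : Γ → Cm q} (h : LatChar Γ q c) :
    ∃ R : ℝ, ∀ t : Cm q, ∃ g, ‖t - c g‖ ≤ R := by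
  classical
  have hc1 : c 1 = 0 := h.map_one
  have hpow : ∀ (g : Γ) (m : ℕ), c (g ^ m) = (m : ℝ) • c g := by
    intro g m
    induction m with
    | zero => simp [hc1]
    | succ m ih => rw [pow_succ, h.add, ih, Nat.cast_succ, add_smul, one_smul]
  have hinv : ∀ g, c g⁻¹ = -c g := by
    intro g
    have h1 := h.add g g⁻¹
    rw [mul_inv_cancel, hc1] at h1
    exact (neg_eq_of_add_eq_zero_right h1.symm).symm
  have hz : ∀ (g : Γ) (m : ℤ), c (g ^ m) = (m : ℝ) • c g := by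
    intro g m
    cases m with
    | ofNat m => simpa using hpow g m
    | negSucc m =>
      rw [zpow_negSucc, hinv, hpow, Int.cast_negSucc, neg_smul]
  obtain ⟨s, hs1, hs2⟩ : ∃ s : Finset Γ, Submodule.span ℝ (c '' (s : Set Γ)) = ⊤ ∧ True := by
    obtain ⟨b, hb1, hb2, hb3⟩ := exists_linearIndependent ℝ (Set.range c)
    have hbf : b.Finite := hb3.setFinite
    have h3 : ∀ x ∈ b, ∃ g, c g = x := fun x hx => hb1 hx
    choose! γ hγ using h3
    refine ⟨(hbf.toFinset).image γ, ?_, trivial⟩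
    have : c '' (((hbf.toFinset).image γ : Finset Γ) : Set Γ) = b := by
      ext x
      simp only [Finset.coe_image, Set.Finite.coe_toFinset, Set.mem_image, exists_exists_and_eq_and]
      constructor
      · rintro ⟨a, ha, rfl⟩
        rwa [hγ a ha]
      · intro hx
        exact ⟨x, hx, hγ x hx⟩
    rw [this, hb2, h.span]
  refine ⟨∑ g : s, ‖c g‖, fun t => ?_⟩
  have ht : t ∈ Submodule.span ℝ (c '' (s : Set Γ)) := by rw [hs1]; trivial
  rw [Submodule.mem_span_image_finset_iff_exists_fun] at ht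
  obtain ⟨a, ha⟩ := ht
  have key : ∀ (s' : Finset s), ∃ g, c g = ∑ x ∈ s', ((⌊a x⌋ : ℤ) : ℝ) • c x := by
    intro s'
    induction s' using Finset.induction_on with
    | empty => exact ⟨1, by simp [hc1]⟩
    | insert x s' hx ih =>
      obtain ⟨g, hg⟩ := ih
      refine ⟨(x : Γ) ^ ⌊a x⌋ * g, ?_⟩
      rw [h.add, hz, hg, Finset.sum_insert hx]
  obtain ⟨g, hg⟩ := key Finset.univ
  refine ⟨g, ?_⟩
  rw [← ha, hg, ← Finset.sum_sub_distrib]
  refine (norm_sum_le _ _).trans (Finset.sum_le_sum fun x _ => ?_)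
  rw [← sub_smul, norm_smul]
  have h1 : ‖a x - ((⌊a x⌋ : ℤ) : ℝ)‖ ≤ 1 := by
    rw [Real.norm_eq_abs, abs_of_nonneg (sub_nonneg.2 (Int.floor_le _))]
    linarith [Int.lt_floor_add_one (a x)]
  nlinarith [norm_nonneg (c x)]

/-- **The assembly.** -/
theorem limEStmt_of (h402 : AOutStmt) (h15 : PushStmt) (h619 : PotS) : LimEStmt := by
  intro n X _ _ _ _ _ _ w hw E Γ _ _ _ _ p hG hFol q hq F c K hBB hc hreg hconn hNP
  obtain ⟨B, hB⟩ := hBB
  obtain ⟨C, D, KK, ⟨P⟩, hKw⟩ := exists_eCoc hw hG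
  have hP : Per p w F c := ⟨⟨B, hB⟩, hc, hNP.lat.disc⟩
  have hinf : (K : Set Γ).Infinite := Set.infinite_coe_iff.1 hNP.inf
  set θ := hfF hG D KK hKw hB hc hreg with hθ
  have hE : Esc P KK θ := esc_E hG D P KK hKw hB hP hq hreg (conn_of_genConn hconn) hNP.sub hinf
  obtain ⟨m, z, hz1, hz2⟩ := H275.exists_gens hNP
  obtain ⟨A⟩ := exists_aseq KK θ P (by omega) hFol hE z hz1
  set U : Ultrafilter ℕ := hyperfilter ℕ with hUd
  have hU : (U : Filter ℕ) ≤ atTop := Nat.hyperfilter_le_atTop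
  obtain ⟨Dm, hDm⟩ := exists_MD C P.K P.compactK P.K_sub
  have hA := h402 n q Γ C P KK θ (Fin m) z hz1 A U hU Dm
  set s := LimS Dm U (fun k => tf θ (A.tst k)) with hs
  have hcf : CForm C Dm.Q s := cform_lim Dm hA.tseq
  have hHolE : HolE n p F := fun y e he => by
    obtain ⟨f, hf⟩ := rep_of_holB hG D hB y e he
    exact ⟨f, hf.2, hf.1⟩
  -- `q < n`
  have hqn : q < n := by
    obtain ⟨γ, a, y, hy, hne⟩ := hA.ne
    by_contra hcon
    apply hne
    ext ξ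
    refine (LimS Dm U (fun k => tf θ (A.tst k)) γ a y).toAlternatingMap.map_linearDependent ξ ?_
    intro hli
    have := hli.fintype_card_le_finrank
    simp [Cm] at this
    omega
  have hHol : H650.HolF C (Fc D F) :=
    ⟨fun γ a z hz => (Fc_hol hG D hB γ hz).1.differentiableWithinAt, (tMap hG D hB).compat⟩
  have hθJ : ∀ γ a, ∀ z ∈ C.Ω a, θ.th a z = (H66.S7.JF (Fc D F γ a) z)ᵀ := by
    intro γ a z hz
    ext j i
    have h1 := (Fc_hol hG D hB γ hz).1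
    rw [Matrix.transpose_apply, H66.S7.JF, Matrix.of_apply,
      INT.dz_of_holo ((differentiableAt_pi.1 h1) i), fderiv_apply h1]
    show thF D F a z j i = fderiv ℂ (Fc D F γ a) z (Pi.single j 1) i
    rw [Fc_fderiv D hc γ a z]
    rfl
  have hflat := A.flatSeq hHol hθJ hqn hU
  obtain ⟨Ac, hAc, hpush⟩ := h15 n q Γ C P KK θ (Fc D F) c hHol
    (fun g γ a z _ => by rw [Fc, Fc, mul_smul, hc]) hNP.lat.disc (lat_co hNP.lat) A.f A.tst A.one U
    hflat hA.tseq Dm hDm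
  set S := SE hG D s with hS
  have hrel : ∀ γ a, ∀ z ∈ Dm.Q a, Function.Surjective (fderiv ℂ (Fc D F γ a) z) →
      ∀ (ξ : Fin (q + 1) → Cm n) (i j : Fin (q + 1)), i ≠ j →
        fderiv ℂ (Fc D F γ a) z (ξ i) = 0 → fderiv ℂ (Fc D F γ a) z (ξ j) = 0 →
        s γ a z ξ = 0 := by
    intro γ a z hz hsur ξ i j hij hi hj
    exact LimS_rel Dm θ A.tst hA.tseq γ a hz (inj_of_surj (thF_apply D hc γ a z) hsur) hij
      ((vert_iff hc γ a z (ξ i)).1 hi) ((vert_iff hc γ a z (ξ j)).1 hj)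
  have hRel : RelS p F S := relS_of hG D hcf hB hrel ⟨Ac, hAc, hpush⟩
  obtain ⟨-, hcl, heq, y₀, e₀, ξ₀, he₀, hne₀⟩ := limE hG D Dm hA.tseq hA.closed hA.ne
  have hRE : RelE p F S := relE_of hG.cov hHolE hRel.rel
  have hpg : ∀ (g : Γ) y, p (g • y) = p y := fun g y => ECoc.p_smul hG g y
  obtain ⟨W₀, i1, i2, i3, Pr, J, π₀, hR⟩ := H275.exists_res hpg (piU Γ U) S heq
  have hTh : H275.mapT Pr (ThE p F S) = ThE p F (H275.mapF Pr S) := by
    funext y e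
    ext v
    rw [H275.mapT_apply, ThE, ThE, sl_apply, sl_apply, H275.mapF_apply]
  obtain ⟨T, hT, hTi, hTc⟩ := hconn
  refine ⟨W₀, i1, i2, i3, π₀, H275.mapF Pr S, H275.mapT Pr (ThE p F S), T,
    ⟨H275.relS_map hG.cov Pr hRel, ?_, H275.equi_map hR heq, ?_, ?_⟩, ?_, ?_, ?_⟩
  · exact fun y e s' he hs' hev => H275.closed_map hG.cov Pr hRel.form hcl y e s' he hev
  · refine ⟨y₀, e₀, he₀, ξ₀, fun h0 => hne₀ ?_⟩
    exact (H275.map_ne hR he₀).1 h0
  · rw [hTh]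
    exact ThE_isTh hG.cov
  · intro g hg
    refine hR.triv_gens heq z (fun i y e he ξ => ?_) (hz2 g hg)
    exact SE_inv hG D hcf (fun γ a z hz => hA.central i γ a z hz) y he ξ
  · exact (hT.isNowhereDense_iff.2 hTi).isMeagre
  · intro t ht
    obtain ⟨hcon, hregt⟩ := hTc t ht
    obtain ⟨u, hu1, hu2⟩ := h619 n X w hw E Γ p hG C D KK hKw q F c B hB hc hreg A.f A.tst U
      hA.tseq Dm t hcon hregt
    refine ⟨fun y => Pr (u y), H275.vpot_map hR ⟨?_, ?_, hu1⟩, H275.vequi_map hR ⟨?_, ?_⟩⟩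
    · intro y e hy he
      obtain ⟨A', h1, h2⟩ := ThE_hol hG.cov hHolE hRE hRel.form he
        (reg_dFe hG.cov hHolE he (hregt y hy))
      exact ⟨A', h1, h2.mono fun y' h3 _ => h3⟩
    · intro y e e' hy he he' ξ hξ
      exact ThE_change hG.cov hHolE hRE hRel.form he he' (hregt y hy) hξ
    · intro k hk y e hy he ξ hξ
      exact ThE_equi hG hHolE hc heq k he ξ
    · intro k hk
      exact hu2 k (hNP.sub k hk)

end Vale.Agent.P284.H366
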