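import Vale.Agent.P284.H366.LimE
import Vale.Agent.P284.H402.B.TF5
import Vale.Agent.P284.H15.FL.NSc

/-!
# `LimEStmt` from the potentials
-/

noncomputable section

namespace Vale.Agent.P284.H366

open Vale.Agent.P284.H402.B

theorem aOutStmt : AOutStmt := by
  intro n q Γ _ C P K θ ι _ c hc A U hU D
  refine ⟨A.tseq hU, fun k => tf_closed θ (A.tst k), ?_, fun i γ a z hz => A.central hU D i (hc i) γ hz⟩
  obtain ⟨a, z, hz, h⟩ := A.nonvan hU D 1
  exact ⟨1, a, z, hz, h⟩

theorem pushStmt : PushStmt := by
  intro n q Γ _ C P K θ F c hF heq hfin hco f hf hone U hS hT D hD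
  exact H15.FL.push_lim D hf hT hF heq hfin hco hS hone hD

/-- everything but the potentials -/
theorem limEStmt_of_pot (h : PotS) : H501.Core.LimEStmt := limEStmt_of aOutStmt pushStmt h

end Vale.Agent.P284.H366
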