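import Vale.Agent.P272.K.Stmt
import Mathlib.Analysis.Calculus.DifferentialForm.Basic
import Mathlib.LinearAlgebra.Matrix.Determinant.Basic
import Mathlib.Analysis.Calculus.ContDiff.Operations

/-!
# Alternating maps on `ℂⁿ` from their coefficients
-/

open scoped Topology Matrix
open Set Filter

noncomputable section

namespace Vale.Agent.P284.H366

open Vale.Agent.P272.K

variable {n p : ℕ} {W : Type*} [NormedAddCommGroup W] [NormedSpace ℂ W]

/-- the frame of the basis vectors `J` -/
def eJ (J : Fin p → Fin n) : Fin p → Cm n := fun i => Pi.single (J i) 1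

/-- the determinant of the coordinates `J` -/
def dJ (J : Fin p → Fin n) : Cm n [⋀^Fin p]→L[ℂ] ℂ :=
  { toMultilinearMap := ((Matrix.detRowAlternating (R := ℂ) (n := Fin p)).compLinearMap
      (LinearMap.funLeft ℂ ℂ J)).toMultilinearMap
    cont := by
      show Continuous fun ξ : Fin p → Cm n => Matrix.det (fun i j => ξ i (J j))
      refine Continuous.matrix_det ?_
      refine continuous_pi fun i => continuous_pi fun j => ?_
      exact (continuous_apply (J j)).comp (continuous_apply i)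
    map_eq_zero_of_eq' := ((Matrix.detRowAlternating (R := ℂ) (n := Fin p)).compLinearMap
      (LinearMap.funLeft ℂ ℂ J)).map_eq_zero_of_eq' }

lemma dJ_apply (J : Fin p → Fin n) (ξ : Fin p → Cm n) :
    dJ J ξ = Matrix.det (Matrix.of fun i j => ξ i (J j)) := rfl

/-- the alternating map with the coefficients `c` -/
def AF : ((Fin p → Fin n) → W) →L[ℂ] (Cm n [⋀^Fin p]→L[ℂ] W) :=
  LinearMap.mkContinuous
    { toFun := fun c => ((p.factorial : ℂ))⁻¹ • ∑ J, (dJ J).smulRight (c J)
      map_add' := fun c d => by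
        have : ∀ J : Fin p → Fin n, (dJ J).smulRight ((c + d) J) =
            (dJ J).smulRight (c J) + (dJ J).smulRight (d J) := fun J => by
          ext ξ
          simp [smul_add]
        simp only [this]
        rw [Finset.sum_add_distrib, smul_add]
      map_smul' := fun a c => by
        have : ∀ J : Fin p → Fin n, (dJ J).smulRight ((a • c) J) =
            a • (dJ J).smulRight (c J) := fun J => by
          ext ξ
          simp [smul_comm a]
        simp only [this]
        rw [← Finset.smul_sum, smul_comm, RingHom.id_apply] }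
    (‖((p.factorial : ℂ))⁻¹‖ * ∑ J : Fin p → Fin n, ‖dJ J‖) fun c => by
      show ‖((p.factorial : ℂ))⁻¹ • ∑ J, (dJ J).smulRight (c J)‖ ≤ _
      rw [norm_smul, mul_assoc]
      refine mul_le_mul_of_nonneg_left ?_ (norm_nonneg _)
      rw [Finset.sum_mul]
      refine (norm_sum_le _ _).trans (Finset.sum_le_sum fun J _ => ?_)
      refine ContinuousAlternatingMap.opNorm_le_bound _ (by positivity) fun ξ => ?_
      rw [ContinuousAlternatingMap.smulRight_apply, norm_smul]
      calc ‖dJ J ξ‖ * ‖c J‖ ≤ (‖dJ J‖ * ∏ i, ‖ξ i‖) * ‖c‖ :=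
            mul_le_mul ((dJ J).le_opNorm ξ) (norm_le_pi_norm c J) (norm_nonneg _) (by positivity)
        _ = _ := by ring

lemma AF_apply (c : (Fin p → Fin n) → W) (ξ : Fin p → Cm n) :
    AF c ξ = ((p.factorial : ℂ))⁻¹ • ∑ J, Matrix.det (Matrix.of fun i j => ξ i (J j)) • c J := by
  show (((p.factorial : ℂ))⁻¹ • ∑ J, (dJ J).smulRight (c J)) ξ = _
  rw [ContinuousAlternatingMap.smul_apply, ContinuousAlternatingMap.sum_apply]
  rfl

/-- expansion of a multilinear map -/
lemma expand (f : MultilinearMap ℂ (fun _ : Fin p => Cm n) W) (ξ : Fin p → Cm n) :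
    f ξ = ∑ J : Fin p → Fin n, (∏ i, ξ i (J i)) • f (eJ J) := by
  have e : ξ = fun i => ∑ j, ξ i j • (Pi.single j 1 : Cm n) := by
    funext i
    exact pi_eq_sum_univ' (ξ i)
  conv_lhs => rw [e]
  rw [f.map_sum]
  refine Finset.sum_congr rfl fun J _ => ?_
  exact f.map_smul_univ (fun i => ξ i (J i)) (eJ J)

/-- Cauchy–Binet type identity: sums over the frames can be antisymmetrised -/
lemma antisymm (f : Cm n [⋀^Fin p]→ₗ[ℂ] W) (ξ : Fin p → Cm n) :
    ∑ J : Fin p → Fin n, Matrix.det (Matrix.of fun i j => ξ i (J j)) • f (eJ J) =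
      (p.factorial : ℂ) • f ξ := by
  have h1 : ∀ J : Fin p → Fin n, Matrix.det (Matrix.of fun i j => ξ i (J j)) • f (eJ J) =
      ∑ τ : Equiv.Perm (Fin p), ((Equiv.Perm.sign τ : ℤ) : ℂ) • (∏ i, ξ i (J (τ i))) • f (eJ J) := by
    intro J
    rw [← Matrix.det_transpose, Matrix.det_apply', Finset.sum_smul]
    refine Finset.sum_congr rfl fun τ _ => ?_
    rw [mul_smul]
    rfl
  simp only [h1]
  rw [Finset.sum_comm]
  have h2 : ∀ τ : Equiv.Perm (Fin p), ∑ J : Fin p → Fin n,
      ((Equiv.Perm.sign τ : ℤ) : ℂ) • (∏ i, ξ i (J (τ i))) • f (eJ J) = f ξ := by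
    intro τ
    have h3 := expand f.toMultilinearMap ξ
    rw [AlternatingMap.coe_multilinearMap] at h3
    rw [h3]
    refine Fintype.sum_equiv (Equiv.arrowCongr τ.symm (Equiv.refl (Fin n))) _ _ fun J => ?_
    have e1 : (Equiv.arrowCongr τ.symm (Equiv.refl (Fin n))) J = J ∘ τ := by
      funext i
      simp [Equiv.arrowCongr]
    rw [e1]
    have e2 : f (eJ (J ∘ τ)) = Equiv.Perm.sign τ • f (eJ J) := by
      have := f.map_perm (eJ J) τ
      exact this
    rw [e2, smul_comm]
    congr 1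
    rw [Units.smul_def, ← Int.cast_smul_eq_zsmul ℂ]
  simp only [h2]
  rw [Finset.sum_const, Finset.card_univ, Fintype.card_perm, Fintype.card_fin]
  simp [Nat.cast_smul_eq_nsmul]

lemma AF_eq (f : Cm n [⋀^Fin p]→ₗ[ℂ] W) (ξ : Fin p → Cm n) :
    AF (fun J => f (eJ J)) ξ = f ξ := by
  rw [AF_apply, antisymm, smul_smul, inv_mul_cancel₀ (by exact_mod_cast p.factorial_ne_zero),
    one_smul]

/-- the coefficient of the frame `J` in the expansion of alternating maps -/
def cJ (ξ : Fin p → Cm n) (J : Fin p → Fin n) : ℂ :=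
  (p.factorial : ℂ)⁻¹ * (Matrix.of fun i j => ξ i (J j)).det

lemma expandA (f : Cm n [⋀^Fin p]→ₗ[ℂ] W) (ξ : Fin p → Cm n) :
    ∑ J : Fin p → Fin n, cJ ξ J • f (eJ J) = f ξ := by
  have h := AF_eq f ξ
  rw [AF_apply, Finset.smul_sum] at h
  rw [← h]
  exact Finset.sum_congr rfl fun J _ => by rw [cJ, mul_smul]

lemma expandL (f : Cm n [⋀^Fin p]→L[ℂ] W) (ξ : Fin p → Cm n) :
    ∑ J : Fin p → Fin n, cJ ξ J • f (eJ J) = f ξ :=
  expandA f.toAlternatingMap ξ

lemma AF_apply' (c : (Fin p → Fin n) → W) (ξ : Fin p → Cm n) :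
    AF c ξ = ∑ J, cJ ξ J • c J := by
  rw [AF_apply, Finset.smul_sum]
  exact Finset.sum_congr rfl fun J _ => by rw [cJ, mul_smul]

lemma contDiffAt_cJ {z : Cm n} {ξ : Fin p → Cm n → Cm n} {k : WithTop ℕ∞}
    (hξ : ∀ i, ContDiffAt ℝ k (ξ i) z) (J : Fin p → Fin n) :
    ContDiffAt ℝ k (fun y => cJ (fun i => ξ i y) J) z := by
  unfold cJ
  refine contDiffAt_const.mul ?_
  simp only [Matrix.det_apply']
  refine ContDiffAt.sum fun τ _ => contDiffAt_const.mul ?_
  refine contDiffAt_prod fun i _ => ?_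
  exact contDiffAt_pi.1 (hξ (τ i)) (J i)

/-- an alternating map is determined by its coefficients -/
lemma ext_J {f g : Cm n [⋀^Fin p]→L[ℂ] W} (h : ∀ J, f (eJ J) = g (eJ J)) : f = g := by
  ext ξ
  have h1 := AF_eq f.toAlternatingMap ξ
  have h2 := AF_eq g.toAlternatingMap ξ
  have h3 : (fun J => f.toAlternatingMap (eJ J)) = fun J => g.toAlternatingMap (eJ J) := by
    funext J
    exact h J
  rw [h3, h2] at h1
  exact h1.symm

/-- analyticity of forms -/
lemma AF_analyticAt {c : Cm n → (Fin p → Fin n) → W} {z : Cm n}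
    (h : ∀ J, AnalyticAt ℂ (fun y => c y J) z) : AnalyticAt ℂ (fun y => AF (c y)) z := by
  have h1 : AnalyticAt ℂ c z := analyticAt_pi_iff.2 h
  exact (AF.analyticAt _).comp h1

end Vale.Agent.P284.H366
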