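import Vale.Agent.P284.H366.SL4

/-!
# Limits of almost holomorphic sequences: calculus of approximations
-/

open scoped ContDiff Topology ComplexConjugate
open MeasureTheory Set Filter Metric

noncomputable section

set_option linter.unusedSectionVars false

namespace Vale.Agent.P284.H366

open Vale.Agent.P272.K Vale.Agent.P272.K.INT Vale.Agent.P284.H513.V Vale.Agent.P284.H894
  Vale.Agent.P284.H894.V Vale.Agent.P284.H35.V

variable {n : ℕ} {H : ℕ → Type} [∀ k, NormedAddCommGroup (H k)] [∀ k, InnerProductSpace ℂ (H k)]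
  {U : Ultrafilter ℕ}

/-- the bounds of `Appr` on the ball of radius `ρ` -/
structure ApprOn (U : Ultrafilter ℕ) (z₀ : Cm n) (v φ : ∀ k, Cm n → H k) (ρ C : ℝ) : Prop where
  pos : 0 < ρ
  nn : 0 ≤ C
  bd : ∀ k, ∀ z ∈ ball z₀ ρ, ‖v k z‖ ≤ C
  lip : ∀ k, ∀ z ∈ ball z₀ ρ, ∀ z' ∈ ball z₀ ρ, ‖v k z - v k z'‖ ≤ C * ‖z - z'‖
  cont : ∀ k, ContinuousOn (φ k) (ball z₀ ρ)
  int : ∀ k, IntegrableOn (fun z => ‖v k z - φ k z‖ ^ 2) (ball z₀ ρ)
  lim : Tendsto (fun k => ∫ z in ball z₀ ρ, ‖v k z - φ k z‖ ^ 2) U (𝓝 0)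

/-- the sequence `v` is equicontinuous and `L²`-close to the sequence `φ` near `z₀` -/
def Appr (U : Ultrafilter ℕ) (z₀ : Cm n) (v φ : ∀ k, Cm n → H k) : Prop :=
  ∃ ρ C, ApprOn U z₀ v φ ρ C

lemma ApprOn.contv {z₀ : Cm n} {v φ : ∀ k, Cm n → H k} {ρ C : ℝ} (h : ApprOn U z₀ v φ ρ C) (k : ℕ) :
    ContinuousOn (v k) (ball z₀ ρ) := by
  have hl : LipschitzOnWith (Real.toNNReal C) (v k) (ball z₀ ρ) :=
    LipschitzOnWith.of_dist_le_mul fun z hz z' hz' => by
      rw [dist_eq_norm, dist_eq_norm, Real.coe_toNNReal _ h.nn]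
      exact h.lip k z hz z' hz'
  exact hl.continuousOn

lemma ApprOn.mono {z₀ : Cm n} {v φ : ∀ k, Cm n → H k} {ρ C ρ' C' : ℝ} (h : ApprOn U z₀ v φ ρ C)
    (h0 : 0 < ρ') (h1 : ρ' ≤ ρ) (h2 : C ≤ C') : ApprOn U z₀ v φ ρ' C' := by
  have hs : ball z₀ ρ' ⊆ ball z₀ ρ := ball_subset_ball h1
  refine ⟨h0, h.nn.trans h2, fun k z hz => (h.bd k z (hs hz)).trans h2, fun k z hz z' hz' =>
    (h.lip k z (hs hz) z' (hs hz')).trans (mul_le_mul_of_nonneg_right h2 (norm_nonneg _)),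
    fun k => (h.cont k).mono hs, fun k => (h.int k).mono_set hs, ?_⟩
  refine squeeze_zero (fun k => integral_nonneg fun z => sq_nonneg _) (fun k => ?_) h.lim
  exact setIntegral_mono_set (h.int k) (Eventually.of_forall fun z => sq_nonneg _) hs.eventuallyLE

/-- two approximations, on a common ball -/
lemma ApprOn.both {z₀ : Cm n} {v φ v' φ' : ∀ k, Cm n → H k} (h : Appr U z₀ v φ)
    (h' : Appr U z₀ v' φ') : ∃ ρ C, ApprOn U z₀ v φ ρ C ∧ ApprOn U z₀ v' φ' ρ C := by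
  obtain ⟨ρ, C, h⟩ := h
  obtain ⟨ρ', C', h'⟩ := h'
  exact ⟨min ρ ρ', max C C', h.mono (lt_min h.pos h'.pos) (min_le_left _ _) (le_max_left _ _),
    h'.mono (lt_min h.pos h'.pos) (min_le_right _ _) (le_max_right _ _)⟩

lemma int_bound {z₀ : Cm n} {ρ : ℝ} {f : Cm n → ℝ} {g : Cm n → ℝ} (hf : ContinuousOn f (ball z₀ ρ))
    (hg : IntegrableOn g (ball z₀ ρ)) (h : ∀ z ∈ ball z₀ ρ, ‖f z‖ ≤ g z) :
    IntegrableOn f (ball z₀ ρ) :=
  Integrable.mono' hg (hf.aestronglyMeasurable measurableSet_ball)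
    ((ae_restrict_mem measurableSet_ball).mono h)

lemma Appr.add {z₀ : Cm n} {v φ v' φ' : ∀ k, Cm n → H k} (h : Appr U z₀ v φ)
    (h' : Appr U z₀ v' φ') : Appr U z₀ (fun k z => v k z + v' k z) (fun k z => φ k z + φ' k z) := by
  obtain ⟨ρ, C, h, h'⟩ := ApprOn.both h h'
  have e : ∀ k z, ‖v k z + v' k z - (φ k z + φ' k z)‖ ^ 2 ≤
      2 * ‖v k z - φ k z‖ ^ 2 + 2 * ‖v' k z - φ' k z‖ ^ 2 := by
    intro k z
    have e1 : v k z + v' k z - (φ k z + φ' k z) = (v k z - φ k z) + (v' k z - φ' k z) := by abel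
    rw [e1]
    have := norm_add_le (v k z - φ k z) (v' k z - φ' k z)
    nlinarith [sq_nonneg (‖v k z - φ k z‖ - ‖v' k z - φ' k z‖), norm_nonneg (v k z - φ k z),
      norm_nonneg (v' k z - φ' k z), norm_nonneg ((v k z - φ k z) + (v' k z - φ' k z))]
  have i2 : ∀ k, IntegrableOn (fun z => 2 * ‖v k z - φ k z‖ ^ 2 + 2 * ‖v' k z - φ' k z‖ ^ 2)
      (ball z₀ ρ) := fun k => ((h.int k).const_mul 2).add ((h'.int k).const_mul 2)
  have i1 : ∀ k, IntegrableOn (fun z => ‖v k z + v' k z - (φ k z + φ' k z)‖ ^ 2) (ball z₀ ρ) :=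
    fun k => int_bound (((((h.contv k).add (h'.contv k)).sub ((h.cont k).add (h'.cont k))).norm).pow
      2) (i2 k) fun z _ => by
        rw [Real.norm_of_nonneg (sq_nonneg _)]
        exact e k z
  refine ⟨ρ, 2 * C, h.pos, by linarith [h.nn], fun k z hz => ?_, fun k z hz z' hz' => ?_,
    fun k => (h.cont k).add (h'.cont k), i1, ?_⟩
  · exact (norm_add_le _ _).trans (by linarith [h.bd k z hz, h'.bd k z hz])
  · have e1 : v k z + v' k z - (v k z' + v' k z') = (v k z - v k z') + (v' k z - v' k z') := by abel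
    rw [e1]
    exact (norm_add_le _ _).trans (by linarith [h.lip k z hz z' hz', h'.lip k z hz z' hz'])
  · refine squeeze_zero (fun k => integral_nonneg fun z => sq_nonneg _) (fun k => ?_)
      (by simpa using (h.lim.const_mul 2).add (h'.lim.const_mul 2))
    rw [← integral_const_mul, ← integral_const_mul,
      ← integral_add ((h.int k).const_mul 2) ((h'.int k).const_mul 2)]
    exact setIntegral_mono_on (i1 k) (i2 k) measurableSet_ball fun z _ => e k z

lemma Appr.zero (z₀ : Cm n) : Appr U z₀ (fun k _ => (0 : H k)) (fun _ _ => 0) :=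
  ⟨1, 0, one_pos, le_rfl, fun k z _ => by simp, fun k z _ z' _ => by simp,
    fun k => continuousOn_const, fun k => by simp, by simp⟩

lemma Appr.sum {ι : Type*} {z₀ : Cm n} (s : Finset ι) {v φ : ι → ∀ k, Cm n → H k}
    (h : ∀ i ∈ s, Appr U z₀ (v i) (φ i)) :
    Appr U z₀ (fun k z => ∑ i ∈ s, v i k z) (fun k z => ∑ i ∈ s, φ i k z) := by
  classical
  induction s using Finset.induction_on with
  | empty => simpa using Appr.zero z₀
  | insert i s hi ih =>
    simp only [Finset.sum_insert hi]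
    exact (h i (by simp)).add (ih fun j hj => h j (by simp [hj]))

/-- multiplication by a scalar function of class `C¹` -/
lemma Appr.smul {z₀ : Cm n} {v φ : ∀ k, Cm n → H k} (h : Appr U z₀ v φ) {a : Cm n → ℂ}
    (ha : ContDiffAt ℝ 1 a z₀) : Appr U z₀ (fun k z => a z • v k z) (fun k z => a z • φ k z) := by
  obtain ⟨K, t, ht, hK⟩ := ha.exists_lipschitzOnWith
  obtain ⟨ρ', hρ', hb⟩ := Metric.mem_nhds_iff.1 ht
  obtain ⟨ρ, C, h⟩ := h
  set σ := min ρ ρ' with hσ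
  have hσ0 : 0 < σ := lt_min h.pos hρ'
  set A := ‖a z₀‖ + K * σ with hA
  have hA0 : 0 ≤ A := by positivity
  have hst : ball z₀ σ ⊆ t := (ball_subset_ball (min_le_right _ _)).trans hb
  have haA : ∀ z ∈ ball z₀ σ, ‖a z‖ ≤ A := by
    intro z hz
    have h1 := hK.dist_le_mul z (hst hz) z₀ (hst (mem_ball_self hσ0))
    have h2 : (K : ℝ) * dist z z₀ ≤ K * σ :=
      mul_le_mul_of_nonneg_left (mem_ball.1 hz).le K.coe_nonneg
    rw [dist_eq_norm] at h1
    calc ‖a z‖ = ‖a z₀ + (a z - a z₀)‖ := by congr 1; abel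
      _ ≤ ‖a z₀‖ + ‖a z - a z₀‖ := norm_add_le _ _
      _ ≤ A := by rw [hA]; linarith
  have ca : ContinuousOn a (ball z₀ σ) := hK.continuousOn.mono hst
  have h' := h.mono hσ0 (min_le_left _ _) le_rfl
  have e : ∀ k, ∀ z ∈ ball z₀ σ, ‖a z • v k z - a z • φ k z‖ ^ 2 ≤ A ^ 2 * ‖v k z - φ k z‖ ^ 2 := by
    intro k z hz
    rw [← smul_sub, norm_smul, mul_pow]
    exact mul_le_mul_of_nonneg_right (pow_le_pow_left₀ (norm_nonneg _) (haA z hz) 2) (sq_nonneg _)
  have i2 : ∀ k, IntegrableOn (fun z => A ^ 2 * ‖v k z - φ k z‖ ^ 2) (ball z₀ σ) := fun k =>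
    (h'.int k).const_mul _
  have i1 : ∀ k, IntegrableOn (fun z => ‖a z • v k z - a z • φ k z‖ ^ 2) (ball z₀ σ) :=
    fun k => int_bound ((((ca.smul (h'.contv k)).sub (ca.smul (h'.cont k))).norm).pow 2) (i2 k)
      fun z hz => by
        rw [Real.norm_of_nonneg (sq_nonneg _)]
        exact e k z hz
  refine ⟨σ, A * C + K * C, hσ0, by have := h.nn; positivity, fun k z hz => ?_,
    fun k z hz z' hz' => ?_, fun k => ca.smul (h'.cont k), i1, ?_⟩
  · rw [norm_smul]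
    have h1 := mul_le_mul (haA z hz) (h'.bd k z hz) (norm_nonneg _) hA0
    have h2 : 0 ≤ (K : ℝ) * C := mul_nonneg K.coe_nonneg h.nn
    linarith
  · have e1 : a z • v k z - a z' • v k z' = a z • (v k z - v k z') + (a z - a z') • v k z' := by
      rw [smul_sub, sub_smul]; abel
    rw [e1]
    refine (norm_add_le _ _).trans ?_
    rw [norm_smul, norm_smul]
    have h1 : ‖a z‖ * ‖v k z - v k z'‖ ≤ A * (C * ‖z - z'‖) :=
      mul_le_mul (haA z hz) (h'.lip k z hz z' hz') (norm_nonneg _) hA0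
    have h3 := hK.dist_le_mul z (hst hz) z' (hst hz')
    rw [dist_eq_norm, dist_eq_norm] at h3
    have h2 : ‖a z - a z'‖ * ‖v k z'‖ ≤ (K * ‖z - z'‖) * C :=
      mul_le_mul h3 (h'.bd k z' hz') (norm_nonneg _) (by positivity)
    linarith
  · refine squeeze_zero (fun k => integral_nonneg fun z => sq_nonneg _) (fun k => ?_)
      (by simpa using h'.lim.const_mul (A ^ 2))
    rw [← integral_const_mul]
    exact setIntegral_mono_on (i1 k) (i2 k) measurableSet_ball fun z hz => e k z hz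

lemma Appr.congr {z₀ : Cm n} {v φ v' φ' : ∀ k, Cm n → H k} (h : Appr U z₀ v φ)
    (hv : ∀ᶠ z in 𝓝 z₀, ∀ k, v k z = v' k z) (hφ : ∀ᶠ z in 𝓝 z₀, ∀ k, φ k z = φ' k z) :
    Appr U z₀ v' φ' := by
  obtain ⟨ρ', hρ', hb⟩ := Metric.eventually_nhds_iff_ball.1 (hv.and hφ)
  obtain ⟨ρ, C, h⟩ := h
  have h' := h.mono (lt_min h.pos hρ') (min_le_left ρ ρ') le_rfl
  have hb' : ∀ z ∈ ball z₀ (min ρ ρ'), ∀ k, v k z = v' k z ∧ φ k z = φ' k z := fun z hz k => by
    have := hb z (ball_subset_ball (min_le_right _ _) hz)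
    exact ⟨this.1 k, this.2 k⟩
  refine ⟨min ρ ρ', C, h'.pos, h'.nn, fun k z hz => ?_, fun k z hz z' hz' => ?_, fun k => ?_,
    fun k => ?_, ?_⟩
  · rw [← (hb' z hz k).1]; exact h'.bd k z hz
  · rw [← (hb' z hz k).1, ← (hb' z' hz' k).1]; exact h'.lip k z hz z' hz'
  · exact (h'.cont k).congr fun z hz => (hb' z hz k).2.symm
  · refine (h'.int k).congr_fun (fun z hz => ?_) measurableSet_ball
    simp only [(hb' z hz k).1, (hb' z hz k).2]
  · refine h'.lim.congr fun k => ?_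
    refine setIntegral_congr_fun measurableSet_ball fun z hz => ?_
    simp only [(hb' z hz k).1, (hb' z hz k).2]

lemma Appr.neg {z₀ : Cm n} {v φ : ∀ k, Cm n → H k} (h : Appr U z₀ v φ) :
    Appr U z₀ (fun k z => -v k z) (fun k z => -φ k z) := by
  have := h.smul (a := fun _ => -1) contDiffAt_const
  simpa using this

lemma Appr.sub {z₀ : Cm n} {v φ v' φ' : ∀ k, Cm n → H k} (h : Appr U z₀ v φ)
    (h' : Appr U z₀ v' φ') : Appr U z₀ (fun k z => v k z - v' k z) (fun k z => φ k z - φ' k z) := by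
  simpa [sub_eq_add_neg] using h.add h'.neg

/-- **uniqueness** -/
lemma Appr.tendsto_zero {z₀ : Cm n} {v : ∀ k, Cm n → H k} (h : Appr U z₀ v (fun _ _ => 0)) :
    Tendsto (fun k => ‖v k z₀‖) U (𝓝 0) := by
  obtain ⟨ρ, C, h⟩ := h
  have hl := h.lim
  have hi := h.int
  simp only [sub_zero] at hl hi
  exact uniq (C := C) h.pos (fun k z hz => h.lip k z hz z₀ (mem_ball_self h.pos)) hi hl

lemma Appr.bdd {z₀ : Cm n} {v φ : ∀ k, Cm n → H k} (h : Appr U z₀ v φ) : Bd fun k => v k z₀ := by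
  obtain ⟨ρ, C, h⟩ := h
  exact ⟨C, fun k => h.bd k z₀ (mem_ball_self h.pos)⟩

lemma Appr.mk_eq_zero {z₀ : Cm n} {v : ∀ k, Cm n → H k} (h : Appr U z₀ v (fun _ _ => 0)) :
    mk U (fun k => v k z₀) = 0 :=
  (mk_eq_zero_iff h.bdd).2 h.tendsto_zero

lemma Appr.mk_eq {z₀ : Cm n} {v v' φ : ∀ k, Cm n → H k} (h : Appr U z₀ v φ) (h' : Appr U z₀ v' φ) :
    mk U (fun k => v k z₀) = mk U (fun k => v' k z₀) := by
  rw [mk_eq_iff h.bdd h'.bdd]
  have := h.sub h'
  simp only [sub_self] at this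
  exact this.tendsto_zero

/-- change of charts -/
lemma Appr.comp_T {Γ : Type} [Group Γ] (C : Coc n Γ) {a b : C.I} {z₀ : Cm n} (hz : z₀ ∈ C.O a b)
    (ha : z₀ ∈ C.V a) (hb : C.T a b z₀ ∈ C.V b) {v φ : ∀ k, Cm n → H k}
    (h : Appr U (C.T a b z₀) v φ) :
    Appr U z₀ (fun k z => v k (C.T a b z)) (fun k z => φ k (C.T a b z)) := by
  obtain ⟨D, hD0, hD⟩ := change C
  obtain ⟨ρ, A, h⟩ := h
  have hT : AnalyticAt ℂ (C.T a b) z₀ :=
    Vale.Agent.P281.MF.analyticAt_of_differentiableOn (C.O_open a b) (C.T_holo a b) hz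
  have hT1 : ContDiffAt ℝ 1 (C.T a b) z₀ := hT.contDiffAt.restrict_scalars ℝ
  obtain ⟨K, t, ht, hK⟩ := hT1.exists_lipschitzOnWith
  have e1 : ∀ᶠ y in 𝓝 z₀, y ∈ C.O a b := (C.O_open a b).mem_nhds hz
  have e2 : ∀ᶠ y in 𝓝 z₀, y ∈ C.V a := isOpen_ball.mem_nhds ha
  have e3 : ∀ᶠ y in 𝓝 z₀, C.T a b y ∈ C.V b :=
    hT1.continuousAt.eventually (isOpen_ball.mem_nhds hb)
  have e4 : ∀ᶠ y in 𝓝 z₀, C.T a b y ∈ ball (C.T a b z₀) ρ :=
    hT1.continuousAt.eventually (isOpen_ball.mem_nhds (mem_ball_self h.pos))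
  obtain ⟨s, hs, hall⟩ := Metric.nhds_basis_closedBall.mem_iff.1
    (Filter.inter_mem (Filter.inter_mem (Filter.inter_mem (Filter.inter_mem e1 e2) e3) e4) ht)
  have hsub : ball z₀ s ⊆ closedBall z₀ s := ball_subset_closedBall
  have hO : closedBall z₀ s ⊆ C.O a b := fun y hy => (hall hy).1.1.1.1
  have hV : closedBall z₀ s ⊆ C.V a := fun y hy => (hall hy).1.1.1.2
  have hTV : ∀ y ∈ closedBall z₀ s, C.T a b y ∈ C.V b := fun y hy => (hall hy).1.1.2
  have hTb : ∀ y ∈ closedBall z₀ s, C.T a b y ∈ ball (C.T a b z₀) ρ := fun y hy => (hall hy).1.2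
  have hst : closedBall z₀ s ⊆ t := fun y hy => (hall hy).2
  have cT : ContinuousOn (C.T a b) (closedBall z₀ s) := (C.T_holo a b).continuousOn.mono hO
  have cv : ∀ k, ContinuousOn (fun z => v k (C.T a b z)) (closedBall z₀ s) := fun k =>
    (h.contv k).comp cT hTb
  have cφ : ∀ k, ContinuousOn (fun z => φ k (C.T a b z)) (closedBall z₀ s) := fun k =>
    (h.cont k).comp cT hTb
  have hi : ∀ k, IntegrableOn (fun z => ‖v k (C.T a b z) - φ k (C.T a b z)‖ ^ 2) (ball z₀ s) :=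
    fun k => intOn (((cv k).sub (cφ k)).norm.pow 2)
  refine ⟨s, A + A * K, hs, add_nonneg h.nn (mul_nonneg h.nn K.coe_nonneg), fun k z hz => ?_,
    fun k z hz z' hz' => ?_, fun k => (cφ k).mono hsub, hi, ?_⟩
  · exact (h.bd k _ (hTb z (hsub hz))).trans (le_add_of_nonneg_right
      (mul_nonneg h.nn K.coe_nonneg))
  · refine (h.lip k _ (hTb z (hsub hz)) _ (hTb z' (hsub hz'))).trans ?_
    have h3 := hK.dist_le_mul z (hst (hsub hz)) z' (hst (hsub hz'))
    rw [dist_eq_norm, dist_eq_norm] at h3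
    have h4 := mul_le_mul_of_nonneg_left h3 h.nn
    have h5 : 0 ≤ A * ‖z - z'‖ := mul_nonneg h.nn (norm_nonneg _)
    nlinarith
  · refine squeeze_zero (fun k => integral_nonneg fun z => sq_nonneg _) (fun k => ?_)
      (by simpa using h.lim.const_mul D)
    exact hD a b (ball z₀ s) isOpen_ball (hsub.trans hO) (hsub.trans hV)
      (fun y hy => hTV y (hsub hy)) (fun y => ‖v k y - φ k y‖ ^ 2) (fun y => sq_nonneg _) (hi k)
      (ball (C.T a b z₀) ρ) measurableSet_ball (fun y hy => hTb y (hsub hy)) (h.int k)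

section
variable [∀ k, CompleteSpace (H k)] {c : Cm n} {R r δ : ℝ} {η Θ : Cm n → ℝ} {φ : ∀ k, Cm n → H k}

lemma LSeq.appr (h : LSeq U c R φ) (m : Mol δ η Θ) (hδ : 0 ≤ δ) (hR : r + δ ≤ R) {z₀ : Cm n}
    (hz : z₀ ∈ ball c r) : Appr U z₀ (fun k => mv η (φ k)) φ := by
  obtain ⟨C, hv⟩ := h.vb m hR
  obtain ⟨ρ, hρ, hb⟩ := Metric.isOpen_iff.1 isOpen_ball z₀ hz
  have hc : ball c r ⊆ closedBall c R := fun z hz => by
    rw [mem_ball] at hz
    rw [mem_closedBall]
    linarith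
  have i1 : ∀ k, IntegrableOn (fun z => ‖mv η (φ k) z - φ k z‖ ^ 2) (ball c r) := fun k =>
    intOn ((((hv.contOn k).sub ((h.contOn k).mono
      (closedBall_subset_closedBall (by linarith)))).norm).pow 2)
  refine ⟨ρ, C, hρ, hv.nn, fun k z hz => hv.bd k z (ball_subset_closedBall (hb hz)),
    fun k z hz z' hz' => hv.lip k z (ball_subset_closedBall (hb hz)) z'
      (ball_subset_closedBall (hb hz')), fun k => (h.contOn k).mono (hb.trans hc),
    fun k => (i1 k).mono_set hb, ?_⟩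
  refine squeeze_zero (fun k => integral_nonneg fun z => sq_nonneg _) (fun k => ?_) (h.close m hR)
  exact setIntegral_mono_set (i1 k) (Eventually.of_forall fun z => sq_nonneg _) hb.eventuallyLE

/-- mollification commutes with the differential -/
lemma LSeq.fderiv_mv (h : LSeq U c R φ) (m : Mol δ η Θ) (hR : r + δ ≤ R) (k : ℕ)
    {z : Cm n} (hz : z ∈ ball c r) (t : Cm n) :
    fderiv ℝ (mv η (φ k)) z t = mv η (fun y => fderiv ℝ (φ k) y t) z := by
  obtain ⟨g, h1, h2, h3, -, -⟩ := h.ext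
  have e1 : mv η (φ k) =ᶠ[𝓝 z] mv η (g k) :=
    mem_of_superset (isOpen_ball.mem_nhds hz) fun y hy =>
      mv_eq_of_ext m.zero (h3 k) hR (ball_subset_closedBall hy)
  rw [e1.fderiv_eq, mv_fderiv m.smooth.continuous m.hcs ((h1 k).of_le (by norm_num)) (h2 k)]
  refine mv_congr m.zero (ball_subset_closedBall hz) hR fun y hy => ?_
  rw [(h3 k y (ball_subset_closedBall hy)).fderiv_eq]

lemma LSeq.mono {R' : ℝ} (h : LSeq U c R φ) (h0 : 0 < R') (h1 : R' ≤ R) : LSeq U c R' φ := by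
  have hs : ball c R' ⊆ ball c R := ball_subset_ball h1
  have hcs : closedBall c R' ⊆ closedBall c R := closedBall_subset_closedBall h1
  refine ⟨h0, fun k z hz => h.smooth k z (hcs hz), ?_, ?_⟩
  · obtain ⟨B, hB⟩ := h.bd
    refine ⟨B, fun k => le_trans ?_ (hB k)⟩
    exact setIntegral_mono_set (intOn ((h.contOn k).norm.pow 2))
      (Eventually.of_forall fun z => sq_nonneg _) hs.eventuallyLE
  · refine squeeze_zero (fun k => integral_nonneg fun z => sq_nonneg _) (fun k => ?_) h.dbar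
    obtain ⟨g, h1, h2, h3, -, -⟩ := h.ext
    have i1 : IntegrableOn (fun z => ‖DB (g k) z‖ ^ 2) (ball c R) :=
      intOn ((continuous_DB ((h1 k).of_le (by norm_num))).norm.pow 2).continuousOn
    have i2 : IntegrableOn (fun z => ‖DB (φ k) z‖ ^ 2) (ball c R) :=
      i1.congr_fun (fun z hz => by rw [DB_congr (h3 k z (ball_subset_closedBall hz))])
        measurableSet_ball
    exact setIntegral_mono_set i2 (Eventually.of_forall fun z => sq_nonneg _) hs.eventuallyLE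

end

end Vale.Agent.P284.H366
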