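import Vale.Agent.P284.H366.SF
import Mathlib.Analysis.InnerProductSpace.l2Space

/-!
# The space `ℓ²(Γ)` and the vectors `Σ_g c(g) δ_{γ g⁻¹}`
-/

open scoped ContDiff Topology ComplexConjugate ENNReal
open MeasureTheory Set Filter Metric

noncomputable section

set_option linter.unusedSectionVars false

namespace Vale.Agent.P284.H366

open Vale.Agent.P272.K

/-- `ℓ²(Γ)` -/
def L2 (Γ : Type) : Type := lp (fun _ : Γ => ℂ) 2

section
variable {Γ : Type}

instance : NormedAddCommGroup (L2 Γ) := inferInstanceAs (NormedAddCommGroup (lp (fun _ : Γ => ℂ) 2))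
instance : InnerProductSpace ℂ (L2 Γ) :=
  inferInstanceAs (InnerProductSpace ℂ (lp (fun _ : Γ => ℂ) 2))
instance : CompleteSpace (L2 Γ) := inferInstanceAs (CompleteSpace (lp (fun _ : Γ => ℂ) 2))

/-- the coordinates -/
def co (u : L2 Γ) (x : Γ) : ℂ := (show lp (fun _ : Γ => ℂ) 2 from u) x

lemma co_ext {u v : L2 Γ} (h : ∀ x, co u x = co v x) : u = v := lp.ext (funext h)

lemma memℓp_comp (e : Equiv.Perm Γ) (u : lp (fun _ : Γ => ℂ) 2) :
    Memℓp (fun x => u (e x)) 2 := by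
  have h := lp.memℓp u
  rw [memℓp_gen_iff (by norm_num)] at h ⊢
  exact h.comp_injective e.injective

/-- composition with a permutation of `Γ` -/
def pm0 (e : Equiv.Perm Γ) : lp (fun _ : Γ => ℂ) 2 ≃ₗᵢ[ℂ] lp (fun _ : Γ => ℂ) 2 :=
  { toLinearEquiv :=
      { toFun := fun u => ⟨fun x => u (e x), memℓp_comp e u⟩
        invFun := fun u => ⟨fun x => u (e.symm x), memℓp_comp e.symm u⟩
        map_add' := fun _ _ => rfl
        map_smul' := fun _ _ => rfl
        left_inv := fun u => by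
          apply Subtype.ext
          funext x
          show u (e (e.symm x)) = u x
          rw [e.apply_symm_apply]
        right_inv := fun u => by
          apply Subtype.ext
          funext x
          show u (e.symm (e x)) = u x
          rw [e.symm_apply_apply] }
    norm_map' := fun u => by
      rw [lp.norm_eq_tsum_rpow (by norm_num), lp.norm_eq_tsum_rpow (by norm_num)]
      congr 1
      exact e.tsum_eq fun x => ‖u x‖ ^ (2 : ℝ≥0∞).toReal }

/-- composition with a permutation of `Γ` -/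
def pm (e : Equiv.Perm Γ) : L2 Γ ≃ₗᵢ[ℂ] L2 Γ := pm0 e

lemma pm_apply (e : Equiv.Perm Γ) (u : L2 Γ) (x : Γ) : co (pm e u) x = co u (e x) := rfl

variable [Group Γ]

/-- the left regular representation: `(lam g u)(x) = u(g⁻¹ x)` -/
def lam (Γ : Type) [Group Γ] : Γ →* (L2 Γ ≃ₗᵢ[ℂ] L2 Γ) where
  toFun g := pm (Equiv.mulLeft g⁻¹)
  map_one' := by
    ext u
    refine co_ext fun x => ?_
    show co u ((1 : Γ)⁻¹ * x) = co u x
    simp
  map_mul' g h := by
    ext u
    refine co_ext fun x => ?_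
    show co u ((g * h)⁻¹ * x) = co u (h⁻¹ * (g⁻¹ * x))
    rw [mul_inv_rev, mul_assoc]

lemma lam_apply (g : Γ) (u : L2 Γ) (x : Γ) : co (lam Γ g u) x = co u (g⁻¹ * x) := rfl

open Classical in
/-- `c ↦ c δ_x` -/
def sg0 (x : Γ) : ℂ →L[ℂ] lp (fun _ : Γ => ℂ) 2 :=
  lp.singleContinuousLinearMap ℂ (fun _ : Γ => ℂ) 2 x

/-- `c ↦ c δ_x` -/
def sg (x : Γ) : ℂ →L[ℂ] L2 Γ := sg0 x

lemma co_sg_same (x : Γ) (c : ℂ) : co (sg x c) x = c := by
  classical
  exact lp.single_apply_self (E := fun _ : Γ => ℂ) 2 x c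

lemma co_sg_ne {x y : Γ} (h : y ≠ x) (c : ℂ) : co (sg x c) y = 0 := by
  classical
  exact lp.single_apply_ne (E := fun _ : Γ => ℂ) 2 x c h

lemma inner_sg (x : Γ) (c : ℂ) (u : L2 Γ) : inner ℂ (sg x c) u = conj c * co u x := by
  classical
  have h := lp.inner_single_left (𝕜 := ℂ) (G := fun _ : Γ => ℂ) x c
    (show lp (fun _ : Γ => ℂ) 2 from u)
  have h2 : inner ℂ c (co u x) = conj c * co u x := by simp [mul_comm]
  rw [← h2]
  exact h

lemma lam_sg (g x : Γ) (c : ℂ) : lam Γ g (sg x c) = sg (g * x) c := by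
  refine co_ext fun y => ?_
  rw [lam_apply]
  by_cases h : y = g * x
  · subst h
    rw [inv_mul_cancel_left, co_sg_same, co_sg_same]
  · rw [co_sg_ne h, co_sg_ne]
    intro h2
    apply h
    rw [← h2, mul_inv_cancel_left]

/-- `Σ_{g ∈ S} c(g) δ_{γ g⁻¹}` -/
def vec (S : Finset Γ) (γ : Γ) (c : Γ → ℂ) : L2 Γ := ∑ g ∈ S, sg (γ * g⁻¹) (c g)

lemma lam_vec (S : Finset Γ) (γ h : Γ) (c : Γ → ℂ) : lam Γ h (vec S γ c) = vec S (h * γ) c := by
  unfold vec
  rw [map_sum]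
  refine Finset.sum_congr rfl fun g _ => ?_
  rw [lam_sg, mul_assoc]

lemma inner_vec (S : Finset Γ) (γ : Γ) (c d : Γ → ℂ) :
    inner ℂ (vec S γ c) (vec S γ d) = ∑ g ∈ S, conj (c g) * d g := by
  unfold vec
  rw [sum_inner]
  refine Finset.sum_congr rfl fun g hg => ?_
  rw [inner_sum, Finset.sum_eq_single g]
  · rw [inner_sg, co_sg_same]
  · intro h _ hne
    rw [inner_sg, co_sg_ne, mul_zero]
    intro h2
    apply hne
    exact (inv_injective (mul_left_cancel h2)).symm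
  · intro h
    exact absurd hg h

lemma norm_vec (S : Finset Γ) (γ : Γ) (c : Γ → ℂ) : ‖vec S γ c‖ ^ 2 = ∑ g ∈ S, ‖c g‖ ^ 2 := by
  have h := inner_vec S γ c c
  have h1 : inner ℂ (vec S γ c) (vec S γ c) = ((‖vec S γ c‖ ^ 2 : ℝ) : ℂ) := by
    rw [inner_self_eq_norm_sq_to_K]
    norm_cast
  rw [h1] at h
  have h2 : ∑ g ∈ S, conj (c g) * c g = ((∑ g ∈ S, ‖c g‖ ^ 2 : ℝ) : ℂ) := by
    push_cast
    refine Finset.sum_congr rfl fun g _ => ?_
    rw [← Complex.normSq_eq_conj_mul_self, Complex.normSq_eq_norm_sq]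
    push_cast
    rfl
  rw [h2] at h
  exact_mod_cast h

lemma vec_add (S : Finset Γ) (γ : Γ) (c d : Γ → ℂ) :
    vec S γ (fun g => c g + d g) = vec S γ c + vec S γ d := by
  unfold vec
  rw [← Finset.sum_add_distrib]
  exact Finset.sum_congr rfl fun g _ => map_add _ _ _

lemma vec_smul (S : Finset Γ) (γ : Γ) (a : ℂ) (c : Γ → ℂ) :
    vec S γ (fun g => a * c g) = a • vec S γ c := by
  unfold vec
  rw [Finset.smul_sum]
  exact Finset.sum_congr rfl fun g _ => (sg (γ * g⁻¹)).map_smul a (c g)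

lemma vec_congr (S : Finset Γ) (γ : Γ) {c d : Γ → ℂ} (h : ∀ g ∈ S, c g = d g) :
    vec S γ c = vec S γ d :=
  Finset.sum_congr rfl fun g hg => by rw [h g hg]

lemma vec_mono {S S' : Finset Γ} (γ : Γ) {c : Γ → ℂ} (hs : S ⊆ S') (h : ∀ g ∉ S, c g = 0) :
    vec S γ c = vec S' γ c := by
  unfold vec
  refine Finset.sum_subset hs fun g _ hg => ?_
  rw [h g hg, map_zero]

/-- change of the base point -/
lemma vec_shift (S : Finset Γ) (γ κ : Γ) {c d : Γ → ℂ} (hc : ∀ g ∉ S, c g = 0)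
    (hd : ∀ g ∉ S, d g = 0) (h : ∀ g, c g = d (g * κ)) : vec S γ c = vec S (γ * κ) d := by
  have e1 : vec S γ c = ∑ᶠ g, sg (γ * g⁻¹) (c g) := by
    refine (finsum_eq_sum_of_support_subset _ fun g hg => ?_).symm
    by_contra hn
    exact hg (by simp only; rw [hc g (by simpa using hn), map_zero])
  have e2 : vec S (γ * κ) d = ∑ᶠ g, sg (γ * κ * g⁻¹) (d g) := by
    refine (finsum_eq_sum_of_support_subset _ fun g hg => ?_).symm
    by_contra hn
    exact hg (by simp only; rw [hd g (by simpa using hn), map_zero])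
  rw [e1, e2, ← finsum_comp_equiv (Equiv.mulRight κ) (f := fun g => sg (γ * κ * g⁻¹) (d g))]
  refine finsum_congr fun g => ?_
  simp only [Equiv.coe_mulRight]
  rw [h g]
  congr 2
  group

section deriv
variable {n : ℕ} {f : Γ → Cm n → ℂ} {z : Cm n} {S : Finset Γ}

lemma vec_contDiffAt {k : WithTop ℕ∞} (γ : Γ) (hf : ∀ g ∈ S, ContDiffAt ℝ k (f g) z) :
    ContDiffAt ℝ k (fun y => vec S γ fun g => f g y) z := by
  unfold vec
  refine ContDiffAt.sum fun g hg => ?_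
  exact ((sg (γ * g⁻¹)).restrictScalars ℝ).contDiff.contDiffAt.comp z (hf g hg)

lemma vec_fderiv (γ : Γ) (hf : ∀ g ∈ S, DifferentiableAt ℝ (f g) z) (t : Cm n) :
    fderiv ℝ (fun y => vec S γ fun g => f g y) z t = vec S γ fun g => fderiv ℝ (f g) z t := by
  unfold vec
  have h : HasFDerivAt (𝕜 := ℝ) (fun y => ∑ g ∈ S, sg (γ * g⁻¹) (f g y))
      (∑ g ∈ S, ((sg (γ * g⁻¹)).restrictScalars ℝ).comp (fderiv ℝ (f g) z)) z :=
    HasFDerivAt.fun_sum fun g hg =>
      ((sg (γ * g⁻¹)).restrictScalars ℝ).hasFDerivAt.comp z (hf g hg).hasFDerivAt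
  rw [h.fderiv, sum_apply]
  rfl

lemma vec_DB (γ : Γ) (hf : ∀ g ∈ S, DifferentiableAt ℝ (f g) z) (t : Cm n) :
    DB (fun y => vec S γ fun g => f g y) z t = vec S γ fun g => DB (f g) z t := by
  rw [DB_apply, vec_fderiv γ hf, vec_fderiv γ hf, ← vec_smul, ← vec_add, ← vec_smul]
  rfl

lemma vec_DH (γ : Γ) (hf : ∀ g ∈ S, DifferentiableAt ℝ (f g) z) (t : Cm n) :
    DH (fun y => vec S γ fun g => f g y) z t = vec S γ fun g => DH (f g) z t := by
  rw [DH, vec_fderiv γ hf, vec_fderiv γ hf, ← vec_smul, sub_eq_add_neg, ← neg_one_smul ℂ,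
    ← vec_smul, ← vec_add, ← vec_smul]
  refine vec_congr S γ fun g _ => ?_
  rw [DH, smul_eq_mul, smul_eq_mul]
  ring

lemma norm_DB_vec (γ : Γ) (hf : ∀ g ∈ S, DifferentiableAt ℝ (f g) z) :
    ‖DB (fun y => vec S γ fun g => f g y) z‖ ^ 2 ≤ ∑ g ∈ S, ‖DB (f g) z‖ ^ 2 := by
  have h : ‖DB (fun y => vec S γ fun g => f g y) z‖ ≤ Real.sqrt (∑ g ∈ S, ‖DB (f g) z‖ ^ 2) := by
    refine ContinuousLinearMap.opNorm_le_bound _ (Real.sqrt_nonneg _) fun t => ?_
    rw [vec_DB γ hf]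
    refine le_of_sq_le_sq ?_ (by positivity)
    rw [norm_vec, mul_pow, Real.sq_sqrt (Finset.sum_nonneg fun g _ => sq_nonneg _),
      Finset.sum_mul]
    refine Finset.sum_le_sum fun g _ => ?_
    rw [← mul_pow]
    exact pow_le_pow_left₀ (norm_nonneg _) (ContinuousLinearMap.le_opNorm _ _) 2
  calc ‖DB (fun y => vec S γ fun g => f g y) z‖ ^ 2
      ≤ (Real.sqrt (∑ g ∈ S, ‖DB (f g) z‖ ^ 2)) ^ 2 := pow_le_pow_left₀ (norm_nonneg _) h 2
    _ = _ := Real.sq_sqrt (Finset.sum_nonneg fun g _ => sq_nonneg _)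

end deriv

end

end Vale.Agent.P284.H366
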