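import Vale.Agent.P284.H366.LS0
import Vale.Agent.P284.H366.WD

/-!
# Limits of almost holomorphic sequences of Hilbert valued forms of type `(p,0)`
-/

open scoped ContDiff Topology ComplexConjugate
open MeasureTheory Set Filter Metric

noncomputable section

set_option linter.unusedSectionVars false

namespace Vale.Agent.P284.H366

open Vale.Agent.P272.K Vale.Agent.P272.K.INT Vale.Agent.P284.H513.V Vale.Agent.P284.H894
  Vale.Agent.P284.H894.V

variable {n p : ℕ}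

section mv
variable {E : Type*} [NormedAddCommGroup E] [NormedSpace ℂ E] [CompleteSpace E]
  {c : Cm n} {R r δ : ℝ} {η Θ : Cm n → ℝ}

lemma mv_integrable (m : Mol δ η Θ) (hR : r + δ ≤ R) {z : Cm n} (hz : z ∈ ball c r) {F : Cm n → E}
    (hF : ContinuousOn F (ball c R)) : Integrable fun t => η t • F (z + t) := by
  have h1 : ContinuousOn (fun t => η t • F (z + t)) (closedBall 0 δ) := by
    refine m.smooth.continuous.continuousOn.smul (hF.comp (by fun_prop) fun t ht => ?_)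
    rw [mem_ball, dist_eq_norm]
    rw [mem_closedBall, dist_zero_right] at ht
    rw [mem_ball, dist_eq_norm] at hz
    calc ‖z + t - c‖ = ‖(z - c) + t‖ := by congr 1; abel
      _ ≤ ‖z - c‖ + ‖t‖ := norm_add_le _ _
      _ < R := by linarith
  have h2 := h1.integrableOn_compact (μ := volume) (isCompact_closedBall 0 δ)
  rwa [integrableOn_iff_integrable_of_support_subset] at h2
  intro t ht
  rw [mem_closedBall, dist_zero_right]
  by_contra hc
  push Not at hc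
  exact ht (by simp [m.zero t hc.le])

lemma mv_sum (m : Mol δ η Θ) (hR : r + δ ≤ R) {z : Cm n} (hz : z ∈ ball c r) {ι : Type*}
    (s : Finset ι) {F : ι → Cm n → E} (hF : ∀ i ∈ s, ContinuousOn (F i) (ball c R)) :
    mv η (fun y => ∑ i ∈ s, F i y) z = ∑ i ∈ s, mv η (F i) z := by
  unfold mv
  rw [← integral_finsetSum s fun i hi => mv_integrable m hR hz (hF i hi)]
  refine integral_congr_ae (Eventually.of_forall fun t => ?_)
  simp only [Finset.smul_sum]

lemma mv_smul (a : ℂ) (F : Cm n → E) (z : Cm n) :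
    mv η (fun y => a • F y) z = a • mv η F z := by
  unfold mv
  rw [← integral_smul]
  refine integral_congr_ae (Eventually.of_forall fun t => ?_)
  simp only [smul_comm a]

lemma mv_add (m : Mol δ η Θ) (hR : r + δ ≤ R) {z : Cm n} (hz : z ∈ ball c r) {F G : Cm n → E}
    (hF : ContinuousOn F (ball c R)) (hG : ContinuousOn G (ball c R)) :
    mv η (fun y => F y + G y) z = mv η F z + mv η G z := by
  unfold mv
  rw [← integral_add (mv_integrable m hR hz hF) (mv_integrable m hR hz hG)]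
  refine integral_congr_ae (Eventually.of_forall fun t => ?_)
  simp only [smul_add]

lemma mv_zero_on (m : Mol δ η Θ) (hR : r + δ ≤ R) {z : Cm n} (hz : z ∈ ball c r) {F : Cm n → E}
    (hF : ∀ y ∈ ball c R, F y = 0) : mv η F z = 0 := by
  have := mv_congr (g := F) (g' := fun _ => 0) m.zero (ball_subset_closedBall hz) hR hF
  rw [this]
  simp [mv]

end mv

variable {H : ℕ → Type} [∀ k, NormedAddCommGroup (H k)] [∀ k, InnerProductSpace ℂ (H k)]
  [∀ k, CompleteSpace (H k)] {U : Ultrafilter ℕ} {c : Cm n} {R r δ : ℝ} {η Θ : Cm n → ℝ}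

/-- a sequence of forms of type `(p,0)` on a ball, almost holomorphic and bounded in `L²` -/
def FSeq (U : Ultrafilter ℕ) (c : Cm n) (R : ℝ) (φ : ∀ k, Cm n → (Cm n [⋀^Fin p]→ₗ[ℂ] H k)) : Prop :=
  ∀ ξ, LSeq U c R fun k z => φ k z ξ

/-- the limit of a sequence of forms -/
def SF (U : Ultrafilter ℕ) (η : Cm n → ℝ) (φ : ∀ k, Cm n → (Cm n [⋀^Fin p]→ₗ[ℂ] H k)) (z : Cm n) :
    Cm n [⋀^Fin p]→L[ℂ] UP H U :=
  AF fun J => slim U η (fun k y => φ k y (eJ J)) z

section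
variable {φ : ∀ k, Cm n → (Cm n [⋀^Fin p]→ₗ[ℂ] H k)}

/-- linear combinations with coefficients of class `C¹` -/
lemma slim_comb (h : FSeq U c R φ) (m : Mol δ η Θ) (hδ : 0 ≤ δ) (hR : r + δ ≤ R) {z : Cm n}
    (hz : z ∈ ball c r) {ι : Type*} (s : Finset ι) (a : ι → Cm n → ℂ) (ξ : ι → Fin p → Cm n)
    (ha : ∀ i ∈ s, ContDiffAt ℝ 1 (a i) z) :
    Appr U z (fun k y => ∑ i ∈ s, a i y • mv η (fun y => φ k y (ξ i)) y)
      (fun k y => ∑ i ∈ s, a i y • φ k y (ξ i)) :=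
  Appr.sum s fun i hi => ((h (ξ i)).appr m hδ hR hz).smul (ha i hi)

lemma slim_bd (h : FSeq U c R φ) (m : Mol δ η Θ) (hδ : 0 ≤ δ) (hR : r + δ ≤ R) {z : Cm n}
    (hz : z ∈ ball c r) (ξ : Fin p → Cm n) : Bd fun k => mv η (fun y => φ k y ξ) z :=
  ((h ξ).appr m hδ hR hz).bdd

lemma mk_comb (h : FSeq U c R φ) (m : Mol δ η Θ) (hδ : 0 ≤ δ) (hR : r + δ ≤ R) {z : Cm n}
    (hz : z ∈ ball c r) {ι : Type*} (s : Finset ι) (a : ι → ℂ) (ξ : ι → Fin p → Cm n) :
    mk U (fun k => ∑ i ∈ s, a i • mv η (fun y => φ k y (ξ i)) z) =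
      ∑ i ∈ s, a i • slim U η (fun k y => φ k y (ξ i)) z := by
  have e : (fun k => ∑ i ∈ s, a i • mv η (fun y => φ k y (ξ i)) z) =
      ∑ i ∈ s, a i • fun k => mv η (fun y => φ k y (ξ i)) z := by
    funext k
    simp
  rw [e, mk_sum s fun i _ => (slim_bd h m hδ hR hz (ξ i)).smul (a i)]
  exact Finset.sum_congr rfl fun i _ => mk_smul _ (slim_bd h m hδ hR hz (ξ i))

/-- the value of the limit -/
lemma SF_apply (h : FSeq U c R φ) (m : Mol δ η Θ) (hδ : 0 ≤ δ) (hR : r + δ ≤ R) {z : Cm n}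
    (hz : z ∈ ball c r) (ξ : Fin p → Cm n) :
    SF U η φ z ξ = slim U η (fun k y => φ k y ξ) z := by
  rw [SF, AF_apply', ← mk_comb h m hδ hR hz Finset.univ (cJ ξ) eJ]
  have h1 := slim_comb h m hδ hR hz Finset.univ (fun (J : Fin p → Fin n) _ => cJ ξ J) eJ
    (fun J _ => contDiffAt_const)
  simp only [expandA] at h1
  exact h1.mk_eq ((h ξ).appr m hδ hR hz)

/-- the limit is holomorphic -/
lemma SF_analyticAt (h : FSeq U c R φ) (m : Mol δ η Θ) (hR : r + δ ≤ R) {z : Cm n}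
    (hz : z ∈ ball c r) : AnalyticAt ℂ (SF U η φ) z := by
  refine AF_analyticAt fun J => ?_
  obtain ⟨C, hv⟩ := (h (eJ J)).vb m hR
  exact hv.analyticAt hz

lemma SF_fderiv (h : FSeq U c R φ) (m : Mol δ η Θ) (hδ : 0 ≤ δ) (hR : r + δ ≤ R) {z : Cm n}
    (hz : z ∈ ball c r) (ξ : Fin p → Cm n) (t : Cm n) :
    fderiv ℂ (fun y => SF U η φ y ξ) z t =
      mk U fun k => fderiv ℝ (mv η fun y => φ k y ξ) z t := by
  have e : (fun y => SF U η φ y ξ) =ᶠ[𝓝 z] fun y => mk U fun k => mv η (fun y => φ k y ξ) y :=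
    mem_of_superset (isOpen_ball.mem_nhds hz) fun y hy => SF_apply h m hδ hR hy ξ
  rw [e.fderiv_eq]
  obtain ⟨C, hv⟩ := (h ξ).vb m hR
  exact hv.fderiv hz t

/-- the limit of closed forms is closed -/
lemma SF_closed (h : FSeq U c R φ) (m : Mol δ η Θ) (hδ : 0 ≤ δ) (hR : r + δ ≤ R)
    (hcl : ∀ k, ∀ y ∈ ball c R, ∀ ξ : Fin (p + 1) → Cm n,
      ∑ i : Fin (p + 1), (-1 : ℂ) ^ (i : ℕ) • DH (fun y => φ k y (i.removeNth ξ)) y (ξ i) = 0)
    {z : Cm n} (hz : z ∈ ball c r) : extDeriv (SF U η φ) z = 0 := by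
  ext ξ
  rw [extDeriv_apply (SF_analyticAt h m hR hz).differentiableAt]
  simp only [SF_fderiv h m hδ hR hz]
  -- the mollified functions
  set v : Fin (p + 1) → ∀ k, Cm n → H k := fun i k => mv η fun y => φ k y (i.removeNth ξ) with hv
  have hvb : ∀ i, ∃ C, VB U c r C (v i) := fun i => (h (i.removeNth ξ)).vb m hR
  choose C hC using hvb
  have hsum : ∑ i : Fin (p + 1), (-1 : ℤ) ^ (i : ℕ) • mk U (fun k => fderiv ℝ (v i k) z (ξ i)) =
      mk U (fun k => ∑ i : Fin (p + 1), (-1 : ℂ) ^ (i : ℕ) • fderiv ℝ (v i k) z (ξ i)) := by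
    have e : (fun k => ∑ i : Fin (p + 1), (-1 : ℂ) ^ (i : ℕ) • fderiv ℝ (v i k) z (ξ i)) =
        ∑ i : Fin (p + 1), (-1 : ℂ) ^ (i : ℕ) • fun k => fderiv ℝ (v i k) z (ξ i) := by
      funext k
      simp
    rw [e, mk_sum _ fun i _ => ((hC i).dbdd hz (ξ i)).smul _]
    refine Finset.sum_congr rfl fun i _ => ?_
    rw [mk_smul _ ((hC i).dbdd hz (ξ i)), ← Int.cast_smul_eq_zsmul ℂ]
    simp
  rw [hsum]
  show _ = (0 : UP H U)
  have hbd : Bd (fun k => ∑ i : Fin (p + 1), (-1 : ℂ) ^ (i : ℕ) • fderiv ℝ (v i k) z (ξ i)) := by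
    have e : (fun k => ∑ i : Fin (p + 1), (-1 : ℂ) ^ (i : ℕ) • fderiv ℝ (v i k) z (ξ i)) =
        ∑ i : Fin (p + 1), (-1 : ℂ) ^ (i : ℕ) • fun k => fderiv ℝ (v i k) z (ξ i) := by
      funext k
      simp
    rw [e]
    exact Bd.sum _ fun i _ => ((hC i).dbdd hz (ξ i)).smul _
  rw [mk_eq_zero_iff hbd]
  -- the holomorphic part vanishes
  have hH : ∀ k, ∑ i : Fin (p + 1), (-1 : ℂ) ^ (i : ℕ) • DH (v i k) z (ξ i) = 0 := by
    intro k
    have cf : ∀ (i : Fin (p + 1)) (t : Cm n),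
        ContinuousOn (fun y => fderiv ℝ (fun y => φ k y (i.removeNth ξ)) y t) (ball c R) := by
      intro i t y hy
      have h1 := (h (i.removeNth ξ)).smooth k y (ball_subset_closedBall hy)
      have h2 : ContinuousAt (fderiv ℝ (fun y => φ k y (i.removeNth ξ))) y :=
        (h1.fderiv_right (m := 0) (by simp)).continuousAt
      exact (h2.clm_apply continuousAt_const).continuousWithinAt
    have e1 : ∀ i, DH (v i k) z (ξ i) =
        mv η (fun y => DH (fun y => φ k y (i.removeNth ξ)) y (ξ i)) z := by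
      intro i
      have e2 : (fun y => DH (fun y => φ k y (i.removeNth ξ)) y (ξ i)) = fun y =>
          (1 / 2 : ℂ) • (fderiv ℝ (fun y => φ k y (i.removeNth ξ)) y (ξ i) +
            (-Complex.I) • fderiv ℝ (fun y => φ k y (i.removeNth ξ)) y (Complex.I • ξ i)) := by
        funext y
        rw [DH, neg_smul, sub_eq_add_neg]
      have e4 := mv_add m hR hz (cf i (ξ i)) (G := fun y => (-Complex.I) •
        fderiv ℝ (fun y => φ k y (i.removeNth ξ)) y (Complex.I • ξ i)) ((cf i _).const_smul _)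
      rw [e2, mv_smul, e4, mv_smul]
      simp only [hv]
      rw [DH, (h (i.removeNth ξ)).fderiv_mv m hR k hz, (h (i.removeNth ξ)).fderiv_mv m hR k hz,
        neg_smul, sub_eq_add_neg]
    simp only [e1]
    have cD : ∀ i : Fin (p + 1), ContinuousOn (fun y => (-1 : ℂ) ^ (i : ℕ) •
        DH (fun y => φ k y (i.removeNth ξ)) y (ξ i)) (ball c R) := fun i =>
      (((cf i _).sub ((cf i _).const_smul Complex.I)).const_smul (1 / 2 : ℂ)).const_smul _
    have e3 : ∀ i : Fin (p + 1), (-1 : ℂ) ^ (i : ℕ) •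
        mv η (fun y => DH (fun y => φ k y (i.removeNth ξ)) y (ξ i)) z =
        mv η (fun y => (-1 : ℂ) ^ (i : ℕ) • DH (fun y => φ k y (i.removeNth ξ)) y (ξ i)) z :=
      fun i => (mv_smul _ _ _).symm
    simp only [e3]
    rw [← mv_sum m hR hz Finset.univ fun i _ => cD i]
    exact mv_zero_on m hR hz fun y hy => hcl k y hy ξ
  have e4 : ∀ k, ∑ i : Fin (p + 1), (-1 : ℂ) ^ (i : ℕ) • fderiv ℝ (v i k) z (ξ i) =
      ∑ i : Fin (p + 1), (-1 : ℂ) ^ (i : ℕ) • DB (v i k) z (ξ i) := by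
    intro k
    simp only [← DH_add_DB (v _ k) z, smul_add, Finset.sum_add_distrib]
    rw [hH k, zero_add]
  simp only [e4]
  refine squeeze_zero (fun k => norm_nonneg _) (fun k => ?_)
    (g := fun k => ∑ i : Fin (p + 1), ‖DB (v i k) z (ξ i)‖) ?_
  · refine (norm_sum_le _ _).trans (Finset.sum_le_sum fun i _ => ?_)
    rw [norm_smul]
    simp
  · have := tendsto_finsetSum (f := fun i k => ‖DB (v i k) z (ξ i)‖) (a := fun _ => (0 : ℝ))
      (x := (U : Filter ℕ)) Finset.univ fun i _ => (hC i).dbar z hz (ξ i)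
    simpa using this

/-- relations with coefficients of class `C¹` pass to the limit -/
lemma SF_rel (h : FSeq U c R φ) (m : Mol δ η Θ) (hδ : 0 ≤ δ) (hR : r + δ ≤ R) {z : Cm n}
    (hz : z ∈ ball c r) {ι : Type*} (s : Finset ι) (a : ι → Cm n → ℂ) (ξ : ι → Fin p → Cm n)
    (ha : ∀ i ∈ s, ContDiffAt ℝ 1 (a i) z)
    (hrel : ∀ᶠ y in 𝓝 z, ∀ k, ∑ i ∈ s, a i y • φ k y (ξ i) = 0) :
    ∑ i ∈ s, a i z • SF U η φ z (ξ i) = 0 := by
  have h1 := (slim_comb h m hδ hR hz s a ξ ha).congr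
    (v' := fun k y => ∑ i ∈ s, a i y • mv η (fun y => φ k y (ξ i)) y) (φ' := fun _ _ => 0)
    (Eventually.of_forall fun y k => rfl) hrel
  have h2 := h1.mk_eq_zero
  rw [mk_comb h m hδ hR hz s (fun i => a i z) ξ] at h2
  simp only [SF_apply h m hδ hR hz]
  exact h2

/-- relations for frames of class `C¹` pass to the limit -/
lemma SF_rel_frame (h : FSeq U c R φ) (m : Mol δ η Θ) (hδ : 0 ≤ δ) (hR : r + δ ≤ R) {z : Cm n}
    (hz : z ∈ ball c r) (ξ : Fin p → Cm n → Cm n) (hξ : ∀ i, ContDiffAt ℝ 1 (ξ i) z)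
    (hrel : ∀ᶠ y in 𝓝 z, ∀ k, φ k y (fun i => ξ i y) = 0) :
    SF U η φ z (fun i => ξ i z) = 0 := by
  rw [← expandL]
  refine SF_rel h m hδ hR hz Finset.univ (fun J y => cJ (fun i => ξ i y) J) eJ
    (fun J _ => contDiffAt_cJ hξ J) ?_
  filter_upwards [hrel] with y hy k
  rw [expandA]
  exact hy k

/-- change of charts -/
lemma SF_change {Γ : Type} [Group Γ] (C : Coc n Γ) {a b : C.I} {c' : Cm n} {R' r' : ℝ}
    {ψ : ∀ k, Cm n → (Cm n [⋀^Fin p]→ₗ[ℂ] H k)} (h : FSeq U c R φ) (h' : FSeq U c' R' ψ)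
    (m : Mol δ η Θ) (hδ : 0 ≤ δ) (hR : r + δ ≤ R) (hR' : r' + δ ≤ R') {z : Cm n}
    (hz : z ∈ ball c r) (hO : z ∈ C.O a b) (ha : z ∈ C.V a) (hb : C.T a b z ∈ C.V b)
    (hz' : C.T a b z ∈ ball c' r')
    (hrel : ∀ᶠ y in 𝓝 z, ∀ k ξ, φ k y ξ = ψ k (C.T a b y) fun i => fderiv ℂ (C.T a b) y (ξ i)) :
    SF U η φ z = (SF U η ψ (C.T a b z)).compContinuousLinearMap (fderiv ℂ (C.T a b) z) := by
  ext ξ
  rw [ContinuousAlternatingMap.compContinuousLinearMap_apply, SF_apply h m hδ hR hz]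
  have hT : AnalyticAt ℂ (C.T a b) z :=
    Vale.Agent.P281.MF.analyticAt_of_differentiableOn (C.O_open a b) (C.T_holo a b) hO
  have hT1 : ContDiffAt ℝ 1 (fderiv ℂ (C.T a b)) z := (hT.fderiv.contDiffAt).restrict_scalars ℝ
  have h0 : ∀ i, ContDiffAt ℝ 1 (fun y => fderiv ℂ (C.T a b) y (ξ i)) z := by
    intro i
    have := ((ContinuousLinearMap.apply ℂ (Cm n) (ξ i)).restrictScalars ℝ).contDiff.contDiffAt
      (n := 1) (x := fderiv ℂ (C.T a b) z)
    exact this.comp z hT1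
  have hAc : ∀ J, ContDiffAt ℝ 1 (fun y => cJ (fun i => fderiv ℂ (C.T a b) y (ξ i)) J) z :=
    fun J => contDiffAt_cJ h0 J
  have h1 := Appr.sum (U := U) (z₀ := z) Finset.univ
    (v := fun J k y => cJ (fun i => fderiv ℂ (C.T a b) y (ξ i)) J •
      mv η (fun y => ψ k y (eJ J)) (C.T a b y))
    (φ := fun J k y => cJ (fun i => fderiv ℂ (C.T a b) y (ξ i)) J • ψ k (C.T a b y) (eJ J))
    fun J _ => (((h' (eJ J)).appr m hδ hR' hz').comp_T C hO ha hb).smul (hAc J)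
  simp only [expandA] at h1
  have h2 : Appr U z (fun k y => ∑ J, cJ (fun i => fderiv ℂ (C.T a b) y (ξ i)) J •
      mv η (fun y => ψ k y (eJ J)) (C.T a b y)) (fun k y => φ k y ξ) := by
    refine h1.congr (Eventually.of_forall fun y k => rfl) ?_
    filter_upwards [hrel] with y hy k
    exact (hy k ξ).symm
  have h4 := ((h ξ).appr m hδ hR hz).mk_eq h2
  rw [slim, h4, mk_comb h' m hδ hR' hz' Finset.univ
    (cJ fun i => fderiv ℂ (C.T a b) z (ξ i)) eJ]
  rw [← expandL (SF U η ψ (C.T a b z))]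
  exact Finset.sum_congr rfl fun J _ => by rw [SF_apply h' m hδ hR' hz']; rfl

end

end Vale.Agent.P284.H366
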