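import Mathlib.Analysis.InnerProductSpace.Completion
import Mathlib.Analysis.InnerProductSpace.LinearMap
import Mathlib.Analysis.Normed.Operator.Extend
import Mathlib.Order.Filter.Ultrafilter.Basic
import Mathlib.Topology.MetricSpace.ProperSpace

/-!
# Ultraproducts of Hilbert spaces

`UP H U`: the ultraproduct along the ultrafilter `U` of the complex inner product spaces `H k`
(completion of the bounded sequences with the semi-inner product `lim_U ⟨x k, y k⟩`). `mk U x` is the
class of the bounded sequence `x` (and `0` if `x` is not bounded).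
-/

open Filter Topology UniformSpace

noncomputable section

namespace Vale.Agent.P284.H366

/-- the limit of a bounded sequence of complex numbers along an ultrafilter -/
def ulim (U : Ultrafilter ℕ) (f : ℕ → ℂ) : ℂ := limUnder (U : Filter ℕ) f

lemma exists_tendsto {X : Type*} [PseudoMetricSpace X] [ProperSpace X] (U : Ultrafilter ℕ)
    (f : ℕ → X) (x₀ : X) (hf : ∃ C : ℝ, ∀ k, dist (f k) x₀ ≤ C) :
    ∃ c, Tendsto f U (𝓝 c) := by
  obtain ⟨C, hC⟩ := hf
  obtain ⟨c, -, hc⟩ := (isCompact_closedBall x₀ C).ultrafilter_le_nhds (U.map f) (by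
    rw [Ultrafilter.coe_map]
    refine le_principal_iff.2 ?_
    exact mem_map.2 (Filter.univ_mem' fun k => by simpa using hC k))
  exact ⟨c, by simpa [Tendsto, Ultrafilter.coe_map] using hc⟩

lemma tendsto_ulim {U : Ultrafilter ℕ} {f : ℕ → ℂ} (hf : ∃ C : ℝ, ∀ k, ‖f k‖ ≤ C) :
    Tendsto f U (𝓝 (ulim U f)) :=
  tendsto_nhds_limUnder (exists_tendsto U f 0 (by simpa [dist_eq_norm] using hf))

lemma ulim_eq {U : Ultrafilter ℕ} {f : ℕ → ℂ} {c : ℂ} (h : Tendsto f U (𝓝 c)) : ulim U f = c :=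
  h.limUnder_eq

section
variable {H : ℕ → Type} [∀ k, NormedAddCommGroup (H k)]

/-- bounded sequence -/
def Bd (x : ∀ k, H k) : Prop := ∃ C : ℝ, ∀ k, ‖x k‖ ≤ C

lemma Bd.add {x y : ∀ k, H k} (hx : Bd x) (hy : Bd y) : Bd (x + y) := by
  obtain ⟨C, hC⟩ := hx
  obtain ⟨D, hD⟩ := hy
  exact ⟨C + D, fun k => (norm_add_le _ _).trans (add_le_add (hC k) (hD k))⟩

lemma Bd.neg {x : ∀ k, H k} (hx : Bd x) : Bd (-x) := by
  obtain ⟨C, hC⟩ := hx
  exact ⟨C, fun k => by simpa using hC k⟩

lemma Bd.sub {x y : ∀ k, H k} (hx : Bd x) (hy : Bd y) : Bd (x - y) := by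
  rw [sub_eq_add_neg]
  exact hx.add hy.neg

lemma Bd.zero : Bd (0 : ∀ k, H k) := ⟨0, fun k => by simp⟩

variable [∀ k, InnerProductSpace ℂ (H k)]

lemma Bd.smul {x : ∀ k, H k} (c : ℂ) (hx : Bd x) : Bd (c • x) := by
  obtain ⟨C, hC⟩ := hx
  refine ⟨‖c‖ * C, fun k => ?_⟩
  rw [Pi.smul_apply, norm_smul]
  exact mul_le_mul_of_nonneg_left (hC k) (norm_nonneg _)

omit [∀ k, InnerProductSpace ℂ (H k)] in
lemma Bd.sum {ι : Type*} (s : Finset ι) {x : ι → ∀ k, H k} (hx : ∀ i ∈ s, Bd (x i)) :
    Bd (∑ i ∈ s, x i) := by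
  classical
  induction s using Finset.induction_on with
  | empty => simpa using Bd.zero
  | insert i s hi ih =>
    rw [Finset.sum_insert hi]
    exact (hx i (by simp)).add (ih fun j hj => hx j (by simp [hj]))

lemma Bd.inner {x y : ∀ k, H k} (hx : Bd x) (hy : Bd y) :
    ∃ C : ℝ, ∀ k, ‖inner ℂ (x k) (y k)‖ ≤ C := by
  obtain ⟨C, hC⟩ := hx
  obtain ⟨D, hD⟩ := hy
  exact ⟨C * D, fun k => (norm_inner_le_norm _ _).trans
    (mul_le_mul (hC k) (hD k) (norm_nonneg _) ((norm_nonneg _).trans (hC k)))⟩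

end

section
variable (H : ℕ → Type) [∀ k, NormedAddCommGroup (H k)] [∀ k, InnerProductSpace ℂ (H k)]
  (U : Ultrafilter ℕ)

/-- the bounded sequences -/
def bsub : Submodule ℂ (∀ k, H k) where
  carrier := {x | Bd x}
  add_mem' hx hy := hx.add hy
  zero_mem' := Bd.zero
  smul_mem' c _ hx := hx.smul c

/-- the bounded sequences, with the semi-inner product of the ultrafilter -/
def BS : Type := (fun _ : Ultrafilter ℕ => bsub H) U

instance : AddCommGroup (BS H U) := inferInstanceAs (AddCommGroup (bsub H))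
instance : Module ℂ (BS H U) := inferInstanceAs (Module ℂ (bsub H))

/-- the semi-inner product -/
@[reducible] def core : PreInnerProductSpace.Core ℂ (BS H U) where
  inner x y := ulim U fun k => inner ℂ (x.1 k) (y.1 k)
  conj_inner_symm x y := by
    have h := (Complex.continuous_conj.tendsto _).comp (tendsto_ulim (U := U) (y.2.inner x.2))
    refine (ulim_eq (U := U) ?_).symm
    refine h.congr fun k => ?_
    simp [inner_conj_symm]
  re_inner_nonneg x := by
    have h := (Complex.continuous_re.tendsto _).comp (tendsto_ulim (U := U) (x.2.inner x.2))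
    exact ge_of_tendsto' h fun k => by
      simpa using inner_self_nonneg (𝕜 := ℂ) (x := x.1 k)
  add_left x y z := by
    refine ulim_eq (U := U) ?_
    refine ((tendsto_ulim (U := U) (x.2.inner z.2)).add
      (tendsto_ulim (U := U) (y.2.inner z.2))).congr fun k => ?_
    exact (inner_add_left _ _ _).symm
  smul_left x y r := by
    refine ulim_eq (U := U) ?_
    refine ((tendsto_ulim (U := U) (x.2.inner y.2)).const_mul _).congr fun k => ?_
    exact (inner_smul_left _ _ _).symm

instance : SeminormedAddCommGroup (BS H U) :=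
  @InnerProductSpace.Core.toSeminormedAddCommGroup ℂ (BS H U) _ _ _ (core H U)

instance : InnerProductSpace ℂ (BS H U) := InnerProductSpace.ofCore (core H U)

/-- **The ultraproduct** of the spaces `H k`. -/
def UP : Type := Completion (BS H U)

instance : NormedAddCommGroup (UP H U) := inferInstanceAs (NormedAddCommGroup (Completion (BS H U)))
instance : InnerProductSpace ℂ (UP H U) :=
  inferInstanceAs (InnerProductSpace ℂ (Completion (BS H U)))
instance : CompleteSpace (UP H U) := inferInstanceAs (CompleteSpace (Completion (BS H U)))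

variable {H}

/-- a bounded sequence, in the space of bounded sequences -/
def toBS (x : ∀ k, H k) (hx : Bd x) : BS H U := ⟨x, hx⟩

variable {U} in
/-- the class of an element of `BS` -/
def cl (x : BS H U) : UP H U := (x : Completion (BS H U))

open Classical in
/-- the class of a bounded sequence -/
def mk (x : ∀ k, H k) : UP H U := if hx : Bd x then cl (toBS U x hx) else 0

variable {U}

lemma mk_of_bd {x : ∀ k, H k} (hx : Bd x) : mk U x = cl (toBS U x hx) :=
  dif_pos hx

lemma inner_mk {x y : ∀ k, H k} (hx : Bd x) (hy : Bd y) :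
    Tendsto (fun k => inner ℂ (x k) (y k)) U (𝓝 (inner ℂ (mk U x) (mk U y))) := by
  have h : inner ℂ (mk U x) (mk U y) = ulim U fun k => inner ℂ (x k) (y k) := by
    rw [mk_of_bd hx, mk_of_bd hy]
    exact Completion.inner_coe (toBS U x hx) (toBS U y hy)
  rw [h]
  exact tendsto_ulim (hx.inner hy)

lemma norm_mk {x : ∀ k, H k} (hx : Bd x) : Tendsto (fun k => ‖x k‖) U (𝓝 ‖mk U x‖) := by
  have h := (Complex.continuous_re.tendsto _).comp (inner_mk (U := U) hx hx)
  have h1 : Tendsto (fun k => ‖x k‖ ^ 2) U (𝓝 (‖mk U x‖ ^ 2)) := by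
    have e : ∀ {K : Type} [NormedAddCommGroup K] [InnerProductSpace ℂ K] (v : K),
        (inner ℂ v v).re = ‖v‖ ^ 2 := fun v => inner_self_eq_norm_sq (𝕜 := ℂ) v
    rw [← e]
    exact h.congr fun k => e _
  have h2 := (Real.continuous_sqrt.tendsto _).comp h1
  simpa [Function.comp_def, Real.sqrt_sq (norm_nonneg _)] using h2

lemma mk_add {x y : ∀ k, H k} (hx : Bd x) (hy : Bd y) : mk U (x + y) = mk U x + mk U y := by
  rw [mk_of_bd hx, mk_of_bd hy, mk_of_bd (hx.add hy)]
  exact Completion.coe_add (toBS U x hx) (toBS U y hy)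

lemma mk_smul {x : ∀ k, H k} (c : ℂ) (hx : Bd x) : mk U (c • x) = c • mk U x := by
  rw [mk_of_bd hx, mk_of_bd (hx.smul c)]
  exact Completion.coe_smul c (toBS U x hx)

lemma mk_zero : mk U (0 : ∀ k, H k) = 0 := by
  rw [mk_of_bd Bd.zero]
  exact Completion.coe_zero (α := BS H U)

lemma mk_neg {x : ∀ k, H k} (hx : Bd x) : mk U (-x) = -mk U x := by
  have h := mk_smul (U := U) (-1) hx
  simpa using h

lemma mk_sub {x y : ∀ k, H k} (hx : Bd x) (hy : Bd y) : mk U (x - y) = mk U x - mk U y := by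
  rw [sub_eq_add_neg, mk_add hx hy.neg, mk_neg hy, sub_eq_add_neg]

lemma mk_sum {ι : Type*} (s : Finset ι) {x : ι → ∀ k, H k} (hx : ∀ i ∈ s, Bd (x i)) :
    mk U (∑ i ∈ s, x i) = ∑ i ∈ s, mk U (x i) := by
  classical
  induction s using Finset.induction_on with
  | empty => simpa using mk_zero
  | insert i s hi ih =>
    rw [Finset.sum_insert hi, Finset.sum_insert hi,
      mk_add (hx i (by simp)) (Bd.sum s fun j hj => hx j (by simp [hj])),
      ih fun j hj => hx j (by simp [hj])]

lemma norm_mk_le {x : ∀ k, H k} {C : ℝ} (hx : ∀ k, ‖x k‖ ≤ C) : ‖mk U x‖ ≤ C :=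
  le_of_tendsto' (norm_mk (U := U) ⟨C, hx⟩) hx

lemma norm_mk_le_of_eventually {x : ∀ k, H k} {C : ℝ} (hb : Bd x)
    (hx : ∀ᶠ k in U, ‖x k‖ ≤ C) : ‖mk U x‖ ≤ C :=
  le_of_tendsto (norm_mk (U := U) hb) hx

lemma mk_eq_zero_iff {x : ∀ k, H k} (hx : Bd x) :
    mk U x = 0 ↔ Tendsto (fun k => ‖x k‖) U (𝓝 0) := by
  constructor
  · intro h
    have := norm_mk (U := U) hx
    rwa [h, norm_zero] at this
  · intro h
    exact norm_eq_zero.1 (tendsto_nhds_unique (norm_mk (U := U) hx) h)

lemma mk_eq_iff {x y : ∀ k, H k} (hx : Bd x) (hy : Bd y) :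
    mk U x = mk U y ↔ Tendsto (fun k => ‖x k - y k‖) U (𝓝 0) := by
  rw [← sub_eq_zero, ← mk_sub hx hy, mk_eq_zero_iff (hx.sub hy)]
  rfl

lemma dense_mk (p : UP H U → Prop) (hp : IsClosed {w | p w}) (h : ∀ x : ∀ k, H k, Bd x → p (mk U x))
    (w : UP H U) : p w := by
  refine Completion.induction_on (α := BS H U) w hp fun x => ?_
  have := h x.1 x.2
  rwa [mk_of_bd (U := U) x.2] at this

end

/-! ### Operators -/

section
variable {H H' : ℕ → Type} [∀ k, NormedAddCommGroup (H k)] [∀ k, InnerProductSpace ℂ (H k)]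
  [∀ k, NormedAddCommGroup (H' k)] [∀ k, InnerProductSpace ℂ (H' k)] {U : Ultrafilter ℕ}
  {σ : ℂ →+* ℂ} [RingHomIsometric σ]

lemma Bd.map {A : ∀ k, H k →SL[σ] H' k} (hA : ∃ C : ℝ, ∀ k, ‖A k‖ ≤ C) {x : ∀ k, H k} (hx : Bd x) :
    Bd (fun k => A k (x k)) := by
  obtain ⟨C, hC⟩ := hA
  obtain ⟨D, hD⟩ := hx
  exact ⟨C * D, fun k => (ContinuousLinearMap.le_opNorm _ _).trans
    (mul_le_mul (hC k) (hD k) (norm_nonneg _) ((norm_nonneg _).trans (hC k)))⟩

/-- a bounded family of operators, on the bounded sequences -/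
def mapBS (U : Ultrafilter ℕ) (A : ∀ k, H k →SL[σ] H' k) (hA : ∃ C : ℝ, ∀ k, ‖A k‖ ≤ C) :
    BS H U →SL[σ] UP H' U :=
  LinearMap.mkContinuous
    { toFun := fun x => mk U fun k => A k (x.1 k)
      map_add' := fun x y => by
        rw [← mk_add (Bd.map hA x.2) (Bd.map hA y.2)]
        congr 1
        funext k
        exact map_add (A k) _ _
      map_smul' := fun c x => by
        rw [← mk_smul _ (Bd.map hA x.2)]
        congr 1
        funext k
        exact map_smulₛₗ (A k) _ _ }
    hA.choose fun x => by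
      have h1 : Tendsto (fun k => ‖x.1 k‖) U (𝓝 ‖x‖) := by
        have := norm_mk (U := U) x.2
        rw [mk_of_bd x.2] at this
        have h2 : ‖cl (toBS U x.1 x.2)‖ = ‖x‖ := Completion.norm_coe x
        rwa [h2] at this
      refine le_of_tendsto_of_tendsto' (norm_mk (U := U) (Bd.map hA x.2)) (h1.const_mul _) fun k => ?_
      exact (ContinuousLinearMap.le_opNorm _ _).trans
        (mul_le_mul_of_nonneg_right (hA.choose_spec k) (norm_nonneg _))

/-- the operator on ultraproducts defined by a bounded family of (semi)linear operators -/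
def upMap (U : Ultrafilter ℕ) (A : ∀ k, H k →SL[σ] H' k) (hA : ∃ C : ℝ, ∀ k, ‖A k‖ ≤ C) :
    UP H U →SL[σ] UP H' U :=
  (mapBS U A hA).extend (Completion.toComplL (𝕜 := ℂ) (E := BS H U))

lemma upMap_mk {A : ∀ k, H k →SL[σ] H' k} (hA : ∃ C : ℝ, ∀ k, ‖A k‖ ≤ C) {x : ∀ k, H k}
    (hx : Bd x) : upMap U A hA (mk U x) = mk U fun k => A k (x k) := by
  rw [mk_of_bd hx, upMap]
  exact (mapBS U A hA).extend_eq (Completion.denseRange_coe (α := BS H U))
    (Completion.isUniformInducing_coe _) (toBS U x hx)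

end

section
variable {H : ℕ → Type} [∀ k, NormedAddCommGroup (H k)] [∀ k, InnerProductSpace ℂ (H k)]
  {U : Ultrafilter ℕ}

/-- the ultraproduct of unitary operators -/
def upIso (U : Ultrafilter ℕ) (A : ∀ k, H k ≃ₗᵢ[ℂ] H k) : UP H U ≃ₗᵢ[ℂ] UP H U :=
  have hb : ∀ B : ∀ k, H k ≃ₗᵢ[ℂ] H k,
      ∃ C : ℝ, ∀ k, ‖((B k).toContinuousLinearEquiv : H k →L[ℂ] H k)‖ ≤ C := fun B =>
    ⟨1, fun k => ContinuousLinearMap.opNorm_le_bound _ zero_le_one fun x => by simp⟩
  have key : ∀ B D : ∀ k, H k ≃ₗᵢ[ℂ] H k, (∀ k x, D k (B k x) = x) → ∀ w : UP H U,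
      upMap U (fun k => ((D k).toContinuousLinearEquiv : H k →L[ℂ] H k)) (hb D)
        (upMap U (fun k => ((B k).toContinuousLinearEquiv : H k →L[ℂ] H k)) (hb B) w) = w := by
    intro B D hBD w
    refine dense_mk (fun w => upMap U _ (hb D) (upMap U _ (hb B) w) = w)
      (isClosed_eq (by fun_prop) continuous_id) (fun x hx => ?_) w
    rw [upMap_mk (hb B) hx, upMap_mk (hb D) (Bd.map (hb B) hx)]
    congr 1
    funext k
    exact hBD k _
  { toLinearEquiv :=
      { toFun := upMap U (fun k => ((A k).toContinuousLinearEquiv : H k →L[ℂ] H k)) (hb A)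
        invFun := upMap U (fun k => ((A k).symm.toContinuousLinearEquiv : H k →L[ℂ] H k))
          (hb fun k => (A k).symm)
        map_add' := map_add _
        map_smul' := map_smul _
        left_inv := key A (fun k => (A k).symm) fun k x => (A k).symm_apply_apply x
        right_inv := key (fun k => (A k).symm) A fun k x => (A k).apply_symm_apply x }
    norm_map' := fun w => by
      refine dense_mk (fun w => ‖upMap U (fun k =>
        ((A k).toContinuousLinearEquiv : H k →L[ℂ] H k)) (hb A) w‖ = ‖w‖)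
        (isClosed_eq (by fun_prop) continuous_norm) (fun x hx => ?_) w
      rw [upMap_mk (hb A) hx]
      refine tendsto_nhds_unique (norm_mk (U := U) (Bd.map (hb A) hx)) ?_
      refine (norm_mk (U := U) hx).congr fun k => ?_
      exact ((A k).norm_map (x k)).symm }

lemma upIso_mk (A : ∀ k, H k ≃ₗᵢ[ℂ] H k) {x : ∀ k, H k} (hx : Bd x) :
    upIso U A (mk U x) = mk U fun k => A k (x k) :=
  upMap_mk _ hx

lemma Bd.iso (A : ∀ k, H k ≃ₗᵢ[ℂ] H k) {x : ∀ k, H k} (hx : Bd x) : Bd (fun k => A k (x k)) := by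
  obtain ⟨C, hC⟩ := hx
  exact ⟨C, fun k => by simpa using hC k⟩

/-- the ultraproduct of unitary representations -/
def upRep {G : Type*} [Group G] (U : Ultrafilter ℕ) (ρ : ∀ k, G →* (H k ≃ₗᵢ[ℂ] H k)) :
    G →* (UP H U ≃ₗᵢ[ℂ] UP H U) where
  toFun g := upIso U fun k => ρ k g
  map_one' := by
    ext w
    refine dense_mk (fun w => upIso U (fun k => ρ k 1) w = w)
      (isClosed_eq (LinearIsometryEquiv.continuous _) continuous_id) (fun x hx => ?_) w
    rw [upIso_mk _ hx]
    congr 1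
    funext k
    simp
  map_mul' g h := by
    ext w
    refine dense_mk (fun w => upIso U (fun k => ρ k (g * h)) w =
      upIso U (fun k => ρ k g) (upIso U (fun k => ρ k h) w))
      (isClosed_eq (LinearIsometryEquiv.continuous _)
        ((LinearIsometryEquiv.continuous _).comp (LinearIsometryEquiv.continuous _)))
      (fun x hx => ?_) w
    rw [upIso_mk _ hx, upIso_mk _ hx, upIso_mk _ (Bd.iso _ hx)]
    congr 1
    funext k
    simp

lemma upRep_mk {G : Type*} [Group G] (ρ : ∀ k, G →* (H k ≃ₗᵢ[ℂ] H k)) (g : G) {x : ∀ k, H k}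
    (hx : Bd x) : upRep U ρ g (mk U x) = mk U fun k => ρ k g (x k) :=
  upIso_mk _ hx

end

end Vale.Agent.P284.H366
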