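import Vale.Agent.P284.H366.SL1
import Vale.Agent.P284.H366.UP
import Vale.Agent.P281.MF.Hol

/-!
# Limits of almost holomorphic sequences of Hilbert valued functions
-/

open scoped ContDiff Topology ComplexConjugate
open MeasureTheory Set Filter Metric

noncomputable section

namespace Vale.Agent.P284.H366

open Vale.Agent.P272.K Vale.Agent.P272.K.INT Vale.Agent.P284.H513.V

variable {n : ℕ}

section
variable {E : Type*} [NormedAddCommGroup E] [NormedSpace ℝ E]

lemma exists_extE {c : Cm n} {R : ℝ} (hR : 0 < R) {f : Cm n → E}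
    (hf : ∀ z ∈ closedBall c R, ContDiffAt ℝ ∞ f z) :
    ∃ g : Cm n → E, ContDiff ℝ 4 g ∧ HasCompactSupport g ∧ ∀ z ∈ closedBall c R, f =ᶠ[𝓝 z] g := by
  have hU : IsOpen {z | ContDiffAt ℝ 4 f z} := by
    rw [isOpen_iff_mem_nhds]
    intro z hz
    exact ContDiffAt.eventually hz (by norm_num)
  have hsub : closedBall c R ⊆ {z | ContDiffAt ℝ 4 f z} := by
    intro z hz
    have h4 : (4 : WithTop ℕ∞) ≤ ∞ := by norm_cast
    exact (hf z hz).of_le h4
  obtain ⟨ε, hε, h⟩ := (isCompact_closedBall c R).exists_cthickening_subset_open hU hsub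
  rw [cthickening_closedBall hε.le hR.le] at h
  let χ : ContDiffBump c := ⟨R + ε / 2, R + ε, by linarith, by linarith⟩
  have hsup : tsupport (χ : Cm n → ℝ) = closedBall c (R + ε) := χ.tsupport_eq
  refine ⟨fun z => χ z • f z, ?_, ?_, ?_⟩
  · rw [contDiff_iff_contDiffAt]
    intro z
    by_cases hz : z ∈ closedBall c (R + ε)
    · have h1 : z ∈ closedBall c (ε + R) := by rwa [add_comm]
      exact (χ.contDiff.contDiffAt).smul (h h1)
    · have h0 : (fun z => χ z • f z) =ᶠ[𝓝 z] fun _ => 0 := by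
        rw [← hsup] at hz
        filter_upwards [(isClosed_tsupport _).isOpen_compl.mem_nhds hz] with y hy
        rw [image_eq_zero_of_notMem_tsupport hy, zero_smul]
      exact contDiffAt_const.congr_of_eventuallyEq h0
  · exact χ.hasCompactSupport.smul_right
  · intro z hz
    have h1 : z ∈ ball c (R + ε / 2) := by
      rw [mem_closedBall] at hz; rw [mem_ball]; linarith
    filter_upwards [isOpen_ball.mem_nhds h1] with y hy
    rw [χ.one_of_mem_closedBall (ball_subset_closedBall hy), one_smul]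

lemma mv_congr {δ : ℝ} {κ : Cm n → ℝ} (hκ : ∀ t, δ ≤ ‖t‖ → κ t = 0) {g g' : Cm n → E} {c z : Cm n}
    {r R : ℝ} (hz : z ∈ closedBall c r) (hR : r + δ ≤ R) (h : ∀ y ∈ ball c R, g y = g' y) :
    mv κ g z = mv κ g' z := by
  unfold mv
  refine integral_congr_ae (Eventually.of_forall fun t => ?_)
  simp only
  by_cases ht : δ ≤ ‖t‖
  · rw [hκ t ht, zero_smul, zero_smul]
  · push Not at ht
    rw [h]
    rw [mem_closedBall] at hz
    rw [mem_ball]
    calc dist (z + t) c ≤ dist (z + t) z + dist z c := dist_triangle _ _ _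
      _ < δ + r := by rw [dist_eq_norm (z + t), add_sub_cancel_left]; linarith
      _ ≤ R := by linarith

lemma mv_shift (κ : Cm n → ℝ) (g : Cm n → E) (z : Cm n) :
    mv κ g z = ∫ y, κ (y - z) • g y := by
  have := integral_add_left_eq_self (μ := (volume : Measure (Cm n)))
    (fun y => κ (y - z) • g y) z
  simpa [mv] using this

lemma kz {δ : ℝ} {κ : Cm n → ℝ} (hκ : ∀ t, δ ≤ ‖t‖ → κ t = 0) {c z : Cm n}
    {r R : ℝ} (hz : z ∈ closedBall c r) (hR : r + δ ≤ R) (y : Cm n) (hy : y ∉ ball c R) :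
    κ (y - z) = 0 := by
  refine hκ _ ?_
  by_contra hc
  push Not at hc
  apply hy
  rw [mem_closedBall] at hz
  rw [mem_ball]
  calc dist y c ≤ dist y z + dist z c := dist_triangle _ _ _
    _ < δ + r := by rw [dist_eq_norm y z]; linarith
    _ ≤ R := by linarith

lemma norm_mv_le {δ : ℝ} {κ : Cm n → ℝ} (hκ : ∀ t, δ ≤ ‖t‖ → κ t = 0) {K : ℝ}
    (hK : ∀ t, |κ t| ≤ K) {g : Cm n → E} (hg : Continuous g) {c z : Cm n} {r R : ℝ}
    (hz : z ∈ closedBall c r) (hR : r + δ ≤ R) :
    ‖mv κ g z‖ ≤ K * ∫ y in ball c R, ‖g y‖ := by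
  have hK0 : 0 ≤ K := (abs_nonneg _).trans (hK 0)
  have hi : IntegrableOn (fun y => K * ‖g y‖) (ball c R) :=
    ((continuous_const.mul hg.norm).continuousOn.integrableOn_compact
      (isCompact_closedBall c R)).mono_set ball_subset_closedBall
  rw [mv_shift, ← setIntegral_eq_integral_of_forall_compl_eq_zero (s := ball c R) (fun y hy => by
    rw [kz hκ hz hR y hy, zero_smul]), ← integral_const_mul]
  refine norm_integral_le_of_norm_le hi (Eventually.of_forall fun y => ?_)
  rw [norm_smul, Real.norm_eq_abs]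
  exact mul_le_mul_of_nonneg_right (hK _) (norm_nonneg _)

lemma norm_mv_sub_le {δ : ℝ} {κ : Cm n → ℝ} (hκ : ∀ t, δ ≤ ‖t‖ → κ t = 0) (hκc : Continuous κ)
    {L : ℝ} (hL : ∀ t t', |κ t - κ t'| ≤ L * ‖t - t'‖) {g : Cm n → E} (hg : Continuous g)
    {c z z' : Cm n} {r R : ℝ} (hz : z ∈ closedBall c r) (hz' : z' ∈ closedBall c r)
    (hR : r + δ ≤ R) :
    ‖mv κ g z - mv κ g z'‖ ≤ L * ‖z - z'‖ * ∫ y in ball c R, ‖g y‖ := by
  have hi : IntegrableOn (fun y => L * ‖z - z'‖ * ‖g y‖) (ball c R) :=
    ((continuous_const.mul hg.norm).continuousOn.integrableOn_compact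
      (isCompact_closedBall c R)).mono_set ball_subset_closedBall
  have ix : ∀ x : Cm n, IntegrableOn (fun y => κ (y - x) • g y) (ball c R) := fun x =>
    (((hκc.comp (by fun_prop)).smul hg).continuousOn.integrableOn_compact
      (isCompact_closedBall c R)).mono_set ball_subset_closedBall
  have e1 : mv κ g z = ∫ y in ball c R, κ (y - z) • g y := by
    rw [mv_shift]
    exact (setIntegral_eq_integral_of_forall_compl_eq_zero (s := ball c R)
      (fun y hy => by rw [kz hκ hz hR y hy, zero_smul])).symm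
  have e2 : mv κ g z' = ∫ y in ball c R, κ (y - z') • g y := by
    rw [mv_shift]
    exact (setIntegral_eq_integral_of_forall_compl_eq_zero (s := ball c R)
      (fun y hy => by rw [kz hκ hz' hR y hy, zero_smul])).symm
  rw [e1, e2, ← integral_sub (ix z) (ix z'), ← integral_const_mul]
  refine norm_integral_le_of_norm_le hi (Eventually.of_forall fun y => ?_)
  rw [← sub_smul, norm_smul, Real.norm_eq_abs]
  refine mul_le_mul_of_nonneg_right ((hL _ _).trans (le_of_eq ?_)) (norm_nonneg _)
  rw [sub_sub_sub_cancel_left, norm_sub_rev]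

/-- `L¹` norm and `L²` norm on a ball -/
lemma int_norm_le {g : Cm n → E} (hg : Continuous g) (c : Cm n) (R : ℝ) :
    (∫ y in ball c R, ‖g y‖) ^ 2 ≤ volume.real (ball c R) * ∫ y in ball c R, ‖g y‖ ^ 2 := by
  have i1 : IntegrableOn (fun y => ‖g y‖) (ball c R) :=
    (hg.norm.continuousOn.integrableOn_compact
      (isCompact_closedBall c R)).mono_set ball_subset_closedBall
  have i2 : IntegrableOn (fun y => ‖g y‖ ^ 2) (ball c R) :=
    ((hg.norm.pow 2).continuousOn.integrableOn_compact
      (isCompact_closedBall c R)).mono_set ball_subset_closedBall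
  have h := wcs (volume.restrict (ball c R)) (fun _ => 1) (fun y => ‖g y‖) (fun _ => zero_le_one)
    (integrableOn_const measure_ball_lt_top.ne) (by simpa [IntegrableOn] using i1)
    (by simpa [IntegrableOn] using i2)
  simpa [Measure.real] using h

end

section
variable {E : Type*} [NormedAddCommGroup E] [NormedSpace ℂ E] [CompleteSpace E]
variable {δ : ℝ} {η Θ : Cm n → ℝ}

/-- the kernel of the derivative -/
def dk (η : Cm n → ℝ) (v : Cm n) (t : Cm n) : ℝ := -fderiv ℝ η t v

lemma fderiv_mv_eq (m : Mol δ η Θ) {g : Cm n → E} (hg : ContDiff ℝ 4 g) (hgc : HasCompactSupport g)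
    (z v : Cm n) : fderiv ℝ (mv η g) z v = mv (dk η v) g z := by
  have hη : ContDiff ℝ 1 η := m.smooth.of_le (by norm_cast)
  have hg1 : ContDiff ℝ 1 g := hg.of_le (by norm_num)
  have cd : Continuous fun t => fderiv ℝ η t v :=
    (hη.continuous_fderiv (by norm_num)).clm_apply continuous_const
  have cg : Continuous fun t => fderiv ℝ g t v :=
    (hg1.continuous_fderiv (by norm_num)).clm_apply continuous_const
  have hcd : HasCompactSupport fun t => fderiv ℝ η t v := by
    refine (m.hcs.fderiv (𝕜 := ℝ)).comp_left (g := fun L : Cm n →L[ℝ] ℝ => L v) ?_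
    simp
  rw [mv_fderiv m.smooth.continuous m.hcs hg1 hgc]
  have e1 : mv η (fun y => fderiv ℝ g y v) z = ∫ t, η t • fderiv ℝ (fun t => g (z + t)) t v := by
    unfold mv
    refine integral_congr_ae (Eventually.of_forall fun t => ?_)
    simp only
    rw [fderiv_comp_add_left]
  rw [e1, integral_smul_fderiv_eq_neg_fderiv_smul_of_integrable]
  · unfold mv dk
    rw [← integral_neg]
    refine integral_congr_ae (Eventually.of_forall fun t => ?_)
    simp only [neg_smul]
  · exact (cd.smul (hg.continuous.comp (by fun_prop))).integrable_of_hasCompactSupport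
      hcd.smul_right
  · simp only [fderiv_comp_add_left]
    exact (hη.continuous.smul (cg.comp (by fun_prop))).integrable_of_hasCompactSupport
      m.hcs.smul_right
  · exact (hη.continuous.smul (hg.continuous.comp (by fun_prop))).integrable_of_hasCompactSupport
      m.hcs.smul_right
  · exact fun x _ => hη.differentiable (by norm_num) x
  · exact fun x _ => (hg1.differentiable (by norm_num) _).comp x
      ((differentiableAt_const z).add differentiableAt_id)

/-- constants of a mollifier -/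
structure MolC (δ : ℝ) (η : Cm n → ℝ) (K : ℝ) : Prop where
  nn : 0 ≤ K
  b0 : ∀ t, |η t| ≤ K
  l0 : ∀ t t', |η t - η t'| ≤ K * ‖t - t'‖
  b1 : ∀ v t, |dk η v t| ≤ K * ‖v‖
  l1 : ∀ v t t', |dk η v t - dk η v t'| ≤ K * ‖v‖ * ‖t - t'‖
  z1 : ∀ v t, δ ≤ ‖t‖ → dk η v t = 0
  c1 : ∀ v, Continuous (dk η v)

lemma exists_molC (m : Mol δ η Θ) : ∃ K, MolC δ η K := by
  have h0 : ContDiff ℝ 2 η := m.smooth.of_le (by norm_cast)
  have h1 : ContDiff ℝ 1 (fderiv ℝ η) := h0.fderiv_right (by norm_num)
  have hc1 : HasCompactSupport (fderiv ℝ η) := m.hcs.fderiv (𝕜 := ℝ)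
  obtain ⟨K0, hK0⟩ := m.smooth.continuous.bounded_above_of_compact_support m.hcs
  obtain ⟨L0, hL0⟩ := (h0.of_le (by norm_num : (1 : WithTop ℕ∞) ≤ 2)).lipschitzWith_of_hasCompactSupport
    m.hcs (by norm_num)
  obtain ⟨L1, hL1⟩ := h1.lipschitzWith_of_hasCompactSupport hc1 (by norm_num)
  obtain ⟨K1, hK1⟩ := h1.continuous.bounded_above_of_compact_support hc1
  have hk0 : 0 ≤ K0 := (norm_nonneg _).trans (hK0 0)
  have hk1 : 0 ≤ K1 := (norm_nonneg _).trans (hK1 0)
  refine ⟨K0 + L0 + L1 + K1, by positivity, fun t => ?_, fun t t' => ?_, fun v t => ?_,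
    fun v t t' => ?_, fun v t ht => ?_, fun v => ?_⟩
  · have := hK0 t
    rw [Real.norm_eq_abs] at this
    have := L0.2
    have := L1.2
    linarith
  · have := hL0.dist_le_mul t t'
    rw [Real.dist_eq, dist_eq_norm] at this
    refine this.trans (mul_le_mul_of_nonneg_right ?_ (norm_nonneg _))
    have := L1.2
    linarith
  · have h := (ContinuousLinearMap.le_opNorm (fderiv ℝ η t) v)
    rw [dk, abs_neg, ← Real.norm_eq_abs]
    refine h.trans (mul_le_mul_of_nonneg_right ?_ (norm_nonneg _))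
    have := hK1 t
    have := L0.2
    have := L1.2
    linarith
  · have h := (ContinuousLinearMap.le_opNorm (fderiv ℝ η t - fderiv ℝ η t') v)
    have h2 := hL1.dist_le_mul t t'
    rw [dist_eq_norm, dist_eq_norm] at h2
    have e : dk η v t - dk η v t' = -((fderiv ℝ η t - fderiv ℝ η t') v) := by
      simp [dk]; ring
    rw [e, abs_neg, ← Real.norm_eq_abs]
    refine h.trans ?_
    have h3 : ‖fderiv ℝ η t - fderiv ℝ η t'‖ ≤ (K0 + L0 + L1 + K1) * ‖t - t'‖ := by
      refine h2.trans (mul_le_mul_of_nonneg_right ?_ (norm_nonneg _))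
      have := L0.2
      linarith
    calc ‖fderiv ℝ η t - fderiv ℝ η t'‖ * ‖v‖ ≤ ((K0 + L0 + L1 + K1) * ‖t - t'‖) * ‖v‖ :=
          mul_le_mul_of_nonneg_right h3 (norm_nonneg _)
      _ = _ := by ring
  · -- `η` vanishes on the closed set `{δ ≤ ‖t‖}`; its derivative too
    have hmin : IsLocalMin η t := Eventually.of_forall fun y => by
      rw [m.zero t ht]; exact m.nonneg y
    rw [dk, hmin.fderiv_eq_zero]
    simp
  · exact ((h1.continuous).clm_apply continuous_const).neg

end

end Vale.Agent.P284.H366
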