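import Vale.Agent.P284.H366.SL2

/-!
# Limits of almost holomorphic sequences of Hilbert valued functions: the limit is holomorphic
-/

open scoped ContDiff Topology ComplexConjugate
open MeasureTheory Set Filter Metric

noncomputable section

namespace Vale.Agent.P284.H366

open Vale.Agent.P272.K Vale.Agent.P272.K.INT Vale.Agent.P284.H513.V

variable {n : ℕ} {H : ℕ → Type} [∀ k, NormedAddCommGroup (H k)] [∀ k, InnerProductSpace ℂ (H k)]
  [∀ k, CompleteSpace (H k)] {U : Ultrafilter ℕ}

/-- An almost holomorphic sequence, bounded in `L²`, on a ball. -/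
structure LSeq (U : Ultrafilter ℕ) (c : Cm n) (R : ℝ) (φ : ∀ k, Cm n → H k) : Prop where
  pos : 0 < R
  smooth : ∀ k, ∀ z ∈ closedBall c R, ContDiffAt ℝ ∞ (φ k) z
  bd : ∃ B : ℝ, ∀ k, ∫ z in ball c R, ‖φ k z‖ ^ 2 ≤ B
  dbar : Tendsto (fun k => ∫ z in ball c R, ‖DB (φ k) z‖ ^ 2) U (𝓝 0)

/-- the limit of a sequence of Hilbert valued functions (`η` is a mollifier) -/
def slim (U : Ultrafilter ℕ) (η : Cm n → ℝ) (φ : ∀ k, Cm n → H k) (z : Cm n) : UP H U :=
  mk U fun k => mv η (φ k) z

section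
variable {c : Cm n} {R r δ K : ℝ} {η Θ : Cm n → ℝ} {φ : ∀ k, Cm n → H k}

/-- global models of the functions of the sequence -/
lemma LSeq.ext (h : LSeq U c R φ) : ∃ g : ∀ k, Cm n → H k, (∀ k, ContDiff ℝ 4 (g k)) ∧
    (∀ k, HasCompactSupport (g k)) ∧ (∀ k, ∀ z ∈ closedBall c R, φ k =ᶠ[𝓝 z] g k) ∧
    (∃ B : ℝ, 0 ≤ B ∧ ∀ k, ∫ z in ball c R, ‖g k z‖ ≤ B) ∧
    Tendsto (fun k => ∫ z in ball c R, ‖DB (g k) z‖ ^ 2) U (𝓝 0) := by
  choose g h1 h2 h3 using fun k => exists_extE h.pos (h.smooth k)
  refine ⟨g, h1, h2, h3, ?_, ?_⟩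
  · obtain ⟨B, hB⟩ := h.bd
    have hv : 0 ≤ volume.real (ball c R) := measureReal_nonneg
    refine ⟨Real.sqrt (volume.real (ball c R) * |B|), Real.sqrt_nonneg _, fun k => ?_⟩
    refine Real.le_sqrt_of_sq_le ((int_norm_le (h1 k).continuous c R).trans ?_)
    refine mul_le_mul_of_nonneg_left (le_trans (le_of_eq ?_) ((hB k).trans (le_abs_self B))) hv
    refine setIntegral_congr_fun measurableSet_ball fun z hz => ?_
    rw [(h3 k z (ball_subset_closedBall hz)).eq_of_nhds]
  · refine h.dbar.congr fun k => ?_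
    refine setIntegral_congr_fun measurableSet_ball fun z hz => ?_
    rw [DB_congr (h3 k z (ball_subset_closedBall hz))]

lemma mv_eq_of_ext {κ : Cm n → ℝ} (hκ : ∀ t, δ ≤ ‖t‖ → κ t = 0)
    {E : Type*} [NormedAddCommGroup E] [NormedSpace ℝ E] {f g : Cm n → E}
    (h : ∀ z ∈ closedBall c R, f =ᶠ[𝓝 z] g) (hR : r + δ ≤ R) {z : Cm n}
    (hz : z ∈ closedBall c r) : mv κ f z = mv κ g z :=
  mv_congr hκ hz hR fun y hy => (h y (ball_subset_closedBall hy)).eq_of_nhds

/-- All the uniform bounds for the mollified functions. -/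
structure VB (U : Ultrafilter ℕ) (c : Cm n) (r C : ℝ) (v : ∀ k, Cm n → H k) : Prop where
  nn : 0 ≤ C
  bd : ∀ k, ∀ z ∈ closedBall c r, ‖v k z‖ ≤ C
  lip : ∀ k, ∀ z ∈ closedBall c r, ∀ z' ∈ closedBall c r, ‖v k z - v k z'‖ ≤ C * ‖z - z'‖
  diff : ∀ k, ∀ z ∈ ball c r, DifferentiableAt ℝ (v k) z
  dbd : ∀ k, ∀ z ∈ ball c r, ‖fderiv ℝ (v k) z‖ ≤ C
  dlip : ∀ k, ∀ z ∈ ball c r, ∀ z' ∈ ball c r,
    ‖fderiv ℝ (v k) z - fderiv ℝ (v k) z'‖ ≤ C * ‖z - z'‖
  dbar : ∀ z ∈ ball c r, ∀ t, Tendsto (fun k => ‖DB (v k) z t‖) U (𝓝 0)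

lemma LSeq.vb (h : LSeq U c R φ) (m : Mol δ η Θ) (hR : r + δ ≤ R) :
    ∃ C, VB U c r C (fun k => mv η (φ k)) := by
  obtain ⟨g, h1, h2, h3, ⟨B, hB0, hB⟩, h5⟩ := h.ext
  obtain ⟨K, hK⟩ := exists_molC m
  have e0 : ∀ k, ∀ z ∈ closedBall c r, mv η (φ k) z = mv η (g k) z := fun k z hz =>
    mv_eq_of_ext m.zero (h3 k) hR hz
  have e1 : ∀ k, ∀ z ∈ ball c r, mv η (φ k) =ᶠ[𝓝 z] mv η (g k) := fun k z hz =>
    mem_of_superset (isOpen_ball.mem_nhds hz) fun y hy => e0 k y (ball_subset_closedBall hy)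
  have d1 : ∀ k z, DifferentiableAt ℝ (mv η (g k)) z := fun k z =>
    (mv_hasFDerivAt m.smooth.continuous m.hcs ((h1 k).of_le (by norm_num)) (h2 k) z).differentiableAt
  have c1 : ∀ k, Continuous (g k) := fun k => (h1 k).continuous
  refine ⟨K * B, mul_nonneg hK.nn hB0, fun k z hz => ?_, fun k z hz z' hz' => ?_,
    fun k z hz => ?_, fun k z hz => ?_, fun k z hz z' hz' => ?_, fun z hz t => ?_⟩
  · rw [e0 k z hz]
    exact (norm_mv_le m.zero hK.b0 (c1 k) hz hR).trans (mul_le_mul_of_nonneg_left (hB k) hK.nn)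
  · rw [e0 k z hz, e0 k z' hz']
    refine (norm_mv_sub_le m.zero m.smooth.continuous hK.l0 (c1 k) hz hz' hR).trans ?_
    calc K * ‖z - z'‖ * ∫ y in ball c R, ‖g k y‖ ≤ K * ‖z - z'‖ * B :=
          mul_le_mul_of_nonneg_left (hB k) (mul_nonneg hK.nn (norm_nonneg _))
      _ = _ := by ring
  · exact (d1 k z).congr_of_eventuallyEq (e1 k z hz)
  · rw [(e1 k z hz).fderiv_eq]
    refine ContinuousLinearMap.opNorm_le_bound _ (mul_nonneg hK.nn hB0) fun v => ?_
    rw [fderiv_mv_eq m (h1 k) (h2 k)]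
    refine (norm_mv_le (hK.z1 v) (hK.b1 v) (c1 k) (ball_subset_closedBall hz) hR).trans ?_
    calc K * ‖v‖ * ∫ y in ball c R, ‖g k y‖ ≤ K * ‖v‖ * B :=
          mul_le_mul_of_nonneg_left (hB k) (mul_nonneg hK.nn (norm_nonneg _))
      _ = _ := by ring
  · rw [(e1 k z hz).fderiv_eq, (e1 k z' hz').fderiv_eq]
    refine ContinuousLinearMap.opNorm_le_bound _
      (mul_nonneg (mul_nonneg hK.nn hB0) (norm_nonneg _)) fun v => ?_
    rw [ContinuousLinearMap.sub_apply, fderiv_mv_eq m (h1 k) (h2 k),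
      fderiv_mv_eq m (h1 k) (h2 k)]
    refine (norm_mv_sub_le (hK.z1 v) (hK.c1 v) (hK.l1 v) (c1 k) (ball_subset_closedBall hz)
      (ball_subset_closedBall hz') hR).trans ?_
    calc K * ‖v‖ * ‖z - z'‖ * ∫ y in ball c R, ‖g k y‖ ≤ K * ‖v‖ * ‖z - z'‖ * B :=
          mul_le_mul_of_nonneg_left (hB k)
            (mul_nonneg (mul_nonneg hK.nn (norm_nonneg _)) (norm_nonneg _))
      _ = _ := by ring
  · -- the antilinear part
    obtain ⟨M, hM⟩ : ∃ M, ∀ t, η t ≤ M := ⟨K, fun t => (le_abs_self _).trans (hK.b0 t)⟩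
    have hM0 : 0 ≤ M := (m.nonneg 0).trans (hM 0)
    have key : ∀ k, ‖DB (mv η (φ k)) z t‖ ^ 2 ≤
        (M * ‖t‖ ^ 2) * ∫ y in ball c R, ‖DB (g k) y‖ ^ 2 := by
      intro k
      have hg1 : ContDiff ℝ 1 (g k) := (h1 k).of_le (by norm_num)
      have cf : ∀ v, Continuous fun y => fderiv ℝ (g k) y v := fun v =>
        (hg1.continuous_fderiv (by norm_num)).clm_apply continuous_const
      have ci : ∀ v, Integrable fun s => η s • fderiv ℝ (g k) (z + s) v := fun v =>
        (m.smooth.continuous.smul ((cf v).comp (by fun_prop))).integrable_of_hasCompactSupport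
          m.hcs.smul_right
      have e2 : DB (mv η (φ k)) z t = mv η (fun y => DB (g k) y t) z := by
        rw [DB_congr (e1 k z hz), DB_apply, mv_fderiv m.smooth.continuous m.hcs hg1 (h2 k),
          mv_fderiv m.smooth.continuous m.hcs hg1 (h2 k)]
        unfold mv
        have cj : Integrable fun s => Complex.I • η s • fderiv ℝ (g k) (z + s) (Complex.I • t) :=
          (ci (Complex.I • t)).smul Complex.I
        rw [← integral_smul, ← integral_add (ci t) cj, ← integral_smul]
        refine integral_congr_ae (Eventually.of_forall fun s => ?_)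
        simp only [DB_apply]
        rw [smul_comm Complex.I (η s), ← smul_add, smul_comm (1 / 2 : ℂ) (η s)]
      rw [e2]
      have cD := continuous_DB hg1
      refine (sq_mv_le m hM (cD.clm_apply continuous_const) hz hR).trans ?_
      have i1 : IntegrableOn (fun y => ‖DB (g k) y t‖ ^ 2) (ball c R) :=
        (((cD.clm_apply continuous_const).norm.pow 2).continuousOn.integrableOn_compact
          (isCompact_closedBall c R)).mono_set ball_subset_closedBall
      have i2 : IntegrableOn (fun y => ‖t‖ ^ 2 * ‖DB (g k) y‖ ^ 2) (ball c R) :=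
        ((continuous_const.mul (cD.norm.pow 2)).continuousOn.integrableOn_compact
          (isCompact_closedBall c R)).mono_set ball_subset_closedBall
      rw [mul_assoc]
      refine mul_le_mul_of_nonneg_left ?_ hM0
      rw [← integral_const_mul]
      refine setIntegral_mono_on i1 i2 measurableSet_ball fun y _ => ?_
      rw [← mul_pow, mul_comm ‖t‖]
      exact pow_le_pow_left₀ (norm_nonneg _) (ContinuousLinearMap.le_opNorm _ _) 2
    have h6 : Tendsto (fun k => ‖DB (mv η (φ k)) z t‖ ^ 2) U (𝓝 0) :=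
      squeeze_zero (fun k => sq_nonneg _) key (by simpa using h5.const_mul (M * ‖t‖ ^ 2))
    have h7 := (Real.continuous_sqrt.tendsto _).comp h6
    simpa [Function.comp_def, Real.sqrt_sq (norm_nonneg _)] using h7

/-- the sequence is close to the mollified one -/
lemma LSeq.close (h : LSeq U c R φ) (m : Mol δ η Θ) (hR : r + δ ≤ R) :
    Tendsto (fun k => ∫ z in ball c r, ‖mv η (φ k) z - φ k z‖ ^ 2) U (𝓝 0) := by
  obtain ⟨g, h1, h2, h3, -, h5⟩ := h.ext
  have hr : ball c r ⊆ closedBall c R := fun z hz => by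
    have hd : 0 ≤ δ := by
      by_contra hc
      push Not at hc
      have : ∫ t, η t = 0 := by
        rw [integral_congr_ae (g := fun _ => 0) (Eventually.of_forall fun t =>
          m.zero t (hc.le.trans (norm_nonneg t)))]
        simp
      rw [m.one] at this
      exact one_ne_zero this
    rw [mem_ball] at hz
    rw [mem_closedBall]
    linarith
  refine squeeze_zero (fun k => integral_nonneg fun z => sq_nonneg _) (fun k => ?_)
    (by simpa using h5.const_mul ((∫ p in KK n δ, η p.2) ^ 2 * (4 * δ ^ 2)))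
  refine le_trans (le_of_eq ?_) (dist_mol m ((h1 k).of_le (by norm_num)) hR)
  refine setIntegral_congr_fun measurableSet_ball fun z hz => ?_
  rw [(h3 k z (hr hz)).eq_of_nhds, mv_eq_of_ext m.zero (h3 k) hR (ball_subset_closedBall hz)]

end

/-! ### The limit of a sequence with uniform bounds -/

section
variable {c : Cm n} {r C : ℝ} {v : ∀ k, Cm n → H k}

omit [∀ k, CompleteSpace (H k)]

lemma VB.bdd (h : VB U c r C v) {z : Cm n} (hz : z ∈ closedBall c r) : Bd fun k => v k z :=
  ⟨C, fun k => h.bd k z hz⟩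

lemma VB.dbdd (h : VB U c r C v) {z : Cm n} (hz : z ∈ ball c r) (t : Cm n) :
    Bd fun k => fderiv ℝ (v k) z t :=
  ⟨C * ‖t‖, fun k => (ContinuousLinearMap.le_opNorm _ _).trans
    (mul_le_mul_of_nonneg_right (h.dbd k z hz) (norm_nonneg _))⟩

/-- the differential of the limit -/
def VB.D (h : VB U c r C v) {z : Cm n} (hz : z ∈ ball c r) : Cm n →L[ℂ] UP H U :=
  LinearMap.mkContinuous
    { toFun := fun t => H366.mk U fun k => fderiv ℝ (v k) z t
      map_add' := fun s t => by
        rw [← mk_add (h.dbdd hz s) (h.dbdd hz t)]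
        congr 1
        funext k
        exact map_add _ _ _
      map_smul' := by
        have hI : ∀ t, H366.mk U (fun k => fderiv ℝ (v k) z (Complex.I • t)) =
            Complex.I • H366.mk U (fun k => fderiv ℝ (v k) z t) := by
          intro t
          rw [← mk_smul Complex.I (h.dbdd hz t), mk_eq_iff (h.dbdd hz _) ((h.dbdd hz t).smul _)]
          have h1 := (h.dbar z hz t).const_mul 2
          rw [mul_zero] at h1
          refine h1.congr fun k => ?_
          have e : fderiv ℝ (v k) z (Complex.I • t) - Complex.I • fderiv ℝ (v k) z t =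
              (-(2 * Complex.I)) • DB (v k) z t := by
            rw [DB_apply, smul_smul, smul_add, smul_smul]
            have : -(2 * Complex.I) * (1 / 2) = -Complex.I := by ring
            rw [this, neg_smul, neg_mul, Complex.I_mul_I, neg_neg, one_smul]
            abel
          rw [Pi.smul_apply, e, norm_smul]
          simp
        intro a t
        have e1 : a • t = (a.re : ℂ) • t + Complex.I • ((a.im : ℂ) • t) := by
          rw [smul_smul, ← add_smul, mul_comm Complex.I, Complex.re_add_im]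
        have hr : ∀ (x : ℝ) t, H366.mk U (fun k => fderiv ℝ (v k) z ((x : ℂ) • t)) =
            (x : ℂ) • H366.mk U (fun k => fderiv ℝ (v k) z t) := by
          intro x t
          rw [← mk_smul _ (h.dbdd hz t)]
          congr 1
          funext k
          have : (x : ℂ) • t = x • t := by ext i; simp
          rw [this, map_smul]
          exact (Complex.coe_smul x _).symm
        have e2 : (fun k => fderiv ℝ (v k) z (a • t)) =
            (fun k => fderiv ℝ (v k) z ((a.re : ℂ) • t)) +
              fun k => fderiv ℝ (v k) z (Complex.I • ((a.im : ℂ) • t)) := by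
          funext k
          rw [Pi.add_apply, ← map_add, ← e1]
        rw [e2, mk_add (h.dbdd hz _) (h.dbdd hz _), hr, hI, hr, smul_smul, ← add_smul,
          mul_comm Complex.I, Complex.re_add_im]
        rfl }
    C fun t => norm_mk_le fun k => (ContinuousLinearMap.le_opNorm _ _).trans
      (mul_le_mul_of_nonneg_right (h.dbd k z hz) (norm_nonneg _))

lemma VB.D_apply (h : VB U c r C v) {z : Cm n} (hz : z ∈ ball c r) (t : Cm n) :
    h.D hz t = H366.mk U fun k => fderiv ℝ (v k) z t := rfl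

/-- **the limit is holomorphic** -/
lemma VB.hasFDerivAt (h : VB U c r C v) {z : Cm n} (hz : z ∈ ball c r) :
    HasFDerivAt (𝕜 := ℂ) (fun y => H366.mk U fun k => v k y) (h.D hz) z := by
  have key : ∀ y ∈ ball c r, ‖(H366.mk U fun k => v k y) - (H366.mk U fun k => v k z) - h.D hz (y - z)‖ ≤
      C * ‖y - z‖ ^ 2 := by
    intro y hy
    have b1 := h.bdd (ball_subset_closedBall hy)
    have b2 := h.bdd (ball_subset_closedBall hz)
    rw [h.D_apply, ← mk_sub b1 b2, ← mk_sub (b1.sub b2) (h.dbdd hz _)]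
    refine norm_mk_le fun k => ?_
    simp only [Pi.sub_apply]
    have hseg : segment ℝ z y ⊆ ball c r := (convex_ball c r).segment_subset hz hy
    have := (convex_segment z y).norm_image_sub_le_of_norm_hasFDerivWithin_le'
      (f := v k) (f' := fun x => fderiv ℝ (v k) x) (φ := fderiv ℝ (v k) z) (C := C * ‖y - z‖)
      (fun x hx => (h.diff k x (hseg hx)).hasFDerivAt.hasFDerivWithinAt)
      (fun x hx => (h.dlip k x (hseg hx) z hz).trans (mul_le_mul_of_nonneg_left ?_ h.nn))
      (left_mem_segment ℝ z y) (right_mem_segment ℝ z y)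
    · refine this.trans (le_of_eq (by ring))
    · obtain ⟨a, b, ha, hb, hab, rfl⟩ := hx
      have e : a • z + b • y - z = b • (y - z) := by
        have : a = 1 - b := by linarith
        rw [this, sub_smul, one_smul, smul_sub]; abel
      rw [e, norm_smul, Real.norm_of_nonneg hb]
      exact mul_le_of_le_one_left (norm_nonneg _) (by linarith)
  rw [hasFDerivAt_iff_isLittleO]
  refine Asymptotics.IsBigO.trans_isLittleO (g := fun y => ‖y - z‖ ^ 2) ?_ ?_
  · refine Asymptotics.IsBigO.of_bound C ?_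
    filter_upwards [isOpen_ball.mem_nhds hz] with y hy
    have := key y hy
    rwa [Real.norm_of_nonneg (by positivity)]
  · have h1 : Tendsto (fun y : Cm n => y - z) (𝓝 z) (𝓝 0) := by
      have : Continuous fun y : Cm n => y - z := by fun_prop
      simpa using this.tendsto z
    have h2 := (Asymptotics.isLittleO_norm_pow_id (E' := Cm n) one_lt_two).comp_tendsto h1
    simpa [Function.comp_def] using h2

lemma VB.analyticAt (h : VB U c r C v) {z : Cm n} (hz : z ∈ ball c r) :
    AnalyticAt ℂ (fun y => H366.mk U fun k => v k y) z :=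
  Vale.Agent.P281.MF.analyticAt_of_differentiableOn isOpen_ball
    (fun _ hy => (h.hasFDerivAt hy).differentiableAt.differentiableWithinAt) hz

lemma VB.fderiv (h : VB U c r C v) {z : Cm n} (hz : z ∈ ball c r) (t : Cm n) :
    _root_.fderiv ℂ (fun y => H366.mk U fun k => v k y) z t = H366.mk U fun k => _root_.fderiv ℝ (v k) z t := by
  rw [(h.hasFDerivAt hz).fderiv]
  rfl

end

end Vale.Agent.P284.H366
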