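import Vale.Agent.P284.H366.SL3
import Vale.Agent.P284.H35.Chg

/-!
# Limits of almost holomorphic sequences: uniqueness, quadratic convergence, change of charts
-/

open scoped ContDiff Topology ComplexConjugate
open MeasureTheory Set Filter Metric

noncomputable section

namespace Vale.Agent.P284.H366

open Vale.Agent.P272.K Vale.Agent.P272.K.INT Vale.Agent.P284.H513.V

/-- Cauchy–Schwarz -/
lemma cs2 {α : Type*} [MeasurableSpace α] {μ : Measure α} {f g : α → ℝ}
    (hf : Integrable (fun x => f x ^ 2) μ) (hg : Integrable (fun x => g x ^ 2) μ)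
    (hfg : Integrable (fun x => f x * g x) μ) :
    (∫ x, f x * g x ∂μ) ^ 2 ≤ (∫ x, f x ^ 2 ∂μ) * ∫ x, g x ^ 2 ∂μ := by
  have key : ∀ a : ℝ, 0 ≤ (∫ x, f x ^ 2 ∂μ) * (a * a) + (2 * ∫ x, f x * g x ∂μ) * a +
      ∫ x, g x ^ 2 ∂μ := by
    intro a
    have e : (∫ x, f x ^ 2 ∂μ) * (a * a) + (2 * ∫ x, f x * g x ∂μ) * a + ∫ x, g x ^ 2 ∂μ
        = ∫ x, (a * f x + g x) ^ 2 ∂μ := by
      have e1 : ∀ x, (a * f x + g x) ^ 2 = (a * a) * f x ^ 2 + (2 * a) * (f x * g x) + g x ^ 2 :=
        fun x => by ring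
      have A : Integrable (fun x => (a * a) * f x ^ 2) μ := hf.const_mul _
      have B : Integrable (fun x => (2 * a) * (f x * g x)) μ := hfg.const_mul _
      have AB : Integrable (fun x => (a * a) * f x ^ 2 + (2 * a) * (f x * g x)) μ := A.add B
      simp only [e1]
      rw [integral_add AB hg, integral_add A B, integral_const_mul, integral_const_mul]
      ring
    rw [e]
    exact integral_nonneg fun x => sq_nonneg _
  have := discrim_le_zero key
  unfold discrim at this
  nlinarith

/-- pointwise convergence of equi-Lipschitz functions on a compact set is uniform -/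
lemma unif {U : Ultrafilter ℕ} {X : Type*} [PseudoMetricSpace X] {S : Set X} (hS : IsCompact S)
    {F : ℕ → X → ℂ} {G : X → ℂ} {C : ℝ} (hC : 0 ≤ C)
    (hL : ∀ k, ∀ x ∈ S, ∀ y ∈ S, ‖F k x - F k y‖ ≤ C * dist x y)
    (hG : ∀ x ∈ S, Tendsto (fun k => F k x) U (𝓝 (G x))) {ε : ℝ} (hε : 0 < ε) :
    ∀ᶠ k in (U : Filter ℕ), ∀ x ∈ S, ‖F k x - G x‖ ≤ ε := by
  have hGL : ∀ x ∈ S, ∀ y ∈ S, ‖G x - G y‖ ≤ C * dist x y := fun x hx y hy =>
    le_of_tendsto' ((hG x hx).sub (hG y hy)).norm fun k => hL k x hx y hy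
  set ρ := ε / (3 * (C + 1)) with hρ
  have hρ0 : 0 < ρ := by positivity
  have hCρ : C * ρ ≤ ε / 3 := by
    rw [hρ]
    calc C * (ε / (3 * (C + 1))) ≤ (C + 1) * (ε / (3 * (C + 1))) :=
          mul_le_mul_of_nonneg_right (by linarith) hρ0.le
      _ = ε / 3 := by field_simp
  obtain ⟨t, htS, htf, htc⟩ := hS.finite_cover_balls hρ0
  have h1 : ∀ᶠ k in (U : Filter ℕ), ∀ x ∈ t, ‖F k x - G x‖ ≤ ε / 3 := by
    refine (eventually_all_finite htf).2 fun x hx => ?_
    have h2 := ((hG x (htS hx)).sub_const (G x)).norm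
    rw [sub_self, norm_zero] at h2
    exact h2.eventually (ge_mem_nhds (by positivity))
  filter_upwards [h1] with k hk x hx
  obtain ⟨y, hy, hxy⟩ := mem_iUnion₂.1 (htc hx)
  have hd : dist x y ≤ ρ := (mem_ball.1 hxy).le
  have h3 : ‖F k x - F k y‖ ≤ ε / 3 :=
    (hL k x hx y (htS hy)).trans ((mul_le_mul_of_nonneg_left hd hC).trans hCρ)
  have h4 : ‖G x - G y‖ ≤ ε / 3 :=
    (hGL x hx y (htS hy)).trans ((mul_le_mul_of_nonneg_left hd hC).trans hCρ)
  have h5 := hk y hy
  calc ‖F k x - G x‖ = ‖(F k x - F k y) + (F k y - G y) - (G x - G y)‖ := by congr 1; abel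
    _ ≤ ‖F k x - F k y‖ + ‖F k y - G y‖ + ‖G x - G y‖ :=
        (norm_sub_le _ _).trans (add_le_add_left (norm_add_le _ _) _)
    _ ≤ ε := by linarith

variable {n : ℕ} {H : ℕ → Type} [∀ k, NormedAddCommGroup (H k)] [∀ k, InnerProductSpace ℂ (H k)]
  {U : Ultrafilter ℕ}

/-- a Lipschitz function which is small in `L²` is small at the centre -/
lemma uniq {D : ∀ k, Cm n → H k} {z₀ : Cm n} {ρ C : ℝ} (hρ : 0 < ρ)
    (hL : ∀ k, ∀ z ∈ ball z₀ ρ, ‖D k z - D k z₀‖ ≤ C * ‖z - z₀‖)
    (hc : ∀ k, IntegrableOn (fun z => ‖D k z‖ ^ 2) (ball z₀ ρ))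
    (hi : Tendsto (fun k => ∫ z in ball z₀ ρ, ‖D k z‖ ^ 2) U (𝓝 0)) :
    Tendsto (fun k => ‖D k z₀‖) U (𝓝 0) := by
  rw [Metric.tendsto_nhds]
  intro ε hε
  set ρ' := min ρ (ε / (2 * (|C| + 1))) with hρ'
  have hρ0 : 0 < ρ' := lt_min hρ (by positivity)
  have hsub : ball z₀ ρ' ⊆ ball z₀ ρ := ball_subset_ball (min_le_left _ _)
  have hCρ : |C| * ρ' ≤ ε / 2 := by
    calc |C| * ρ' ≤ (|C| + 1) * (ε / (2 * (|C| + 1))) :=
          mul_le_mul (by linarith) (min_le_right _ _) hρ0.le (by positivity)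
      _ = ε / 2 := by field_simp
  set vv := (volume : Measure (Cm n)).real (ball z₀ ρ') with hvv
  have hv : 0 < vv := by
    rw [hvv, measureReal_def]
    exact ENNReal.toReal_pos (measure_ball_pos _ _ hρ0).ne' measure_ball_lt_top.ne
  have h1 := hi.eventually (gt_mem_nhds (show (0 : ℝ) < vv * (ε / 2) ^ 2 by positivity))
  filter_upwards [h1] with k hk
  rw [Real.dist_eq, sub_zero, abs_of_nonneg (norm_nonneg _)]
  by_contra hcon
  push Not at hcon
  have h2 : ∫ z in ball z₀ ρ', (ε / 2) ^ 2 ≤ ∫ z in ball z₀ ρ', ‖D k z‖ ^ 2 := by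
    refine setIntegral_mono_on (integrableOn_const measure_ball_lt_top.ne) ((hc k).mono_set hsub)
      measurableSet_ball fun z hz => ?_
    refine pow_le_pow_left₀ (by positivity) ?_ 2
    have h3 := hL k z (hsub hz)
    have h4 : C * ‖z - z₀‖ ≤ ε / 2 := by
      have h5 : ‖z - z₀‖ ≤ ρ' := by rw [← dist_eq_norm]; exact (mem_ball.1 hz).le
      calc C * ‖z - z₀‖ ≤ |C| * ‖z - z₀‖ := mul_le_mul_of_nonneg_right (le_abs_self _) (norm_nonneg _)
        _ ≤ |C| * ρ' := mul_le_mul_of_nonneg_left h5 (abs_nonneg _)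
        _ ≤ ε / 2 := hCρ
    have h6 : ‖D k z₀‖ ≤ ‖D k z‖ + ‖D k z - D k z₀‖ := by
      rw [norm_sub_rev]
      calc ‖D k z₀‖ = ‖D k z + (D k z₀ - D k z)‖ := by congr 1; abel
        _ ≤ _ := norm_add_le _ _
    linarith
  rw [setIntegral_const, smul_eq_mul] at h2
  have h3 : ∫ z in ball z₀ ρ', ‖D k z‖ ^ 2 ≤ ∫ z in ball z₀ ρ, ‖D k z‖ ^ 2 :=
    setIntegral_mono_set (hc k) (Eventually.of_forall fun z => sq_nonneg _) hsub.eventuallyLE
  have : (volume : Measure (Cm n)).real (ball z₀ ρ') * (ε / 2) ^ 2 = vv * (ε / 2) ^ 2 := rfl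
  linarith

section quad

variable [∀ k, CompleteSpace (H k)] {c : Cm n} {R r δ : ℝ} {η Θ : Cm n → ℝ} {φ φ' : ∀ k, Cm n → H k}

lemma LSeq.contOn (h : LSeq U c R φ) (k : ℕ) : ContinuousOn (φ k) (closedBall c R) :=
  fun z hz => (h.smooth k z hz).continuousAt.continuousWithinAt

omit [∀ k, CompleteSpace (H k)] in
lemma VB.contOn {C : ℝ} {v : ∀ k, Cm n → H k} (h : VB U c r C v) (k : ℕ) :
    ContinuousOn (v k) (closedBall c r) := by
  have hl : LipschitzOnWith (Real.toNNReal C) (v k) (closedBall c r) :=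
    LipschitzOnWith.of_dist_le_mul fun z hz z' hz' => by
      rw [dist_eq_norm, dist_eq_norm, Real.coe_toNNReal _ h.nn]
      exact h.lip k z hz z' hz'
  exact hl.continuousOn

lemma intOn {f : Cm n → ℝ} (hf : ContinuousOn f (closedBall c r)) : IntegrableOn f (ball c r) :=
  (hf.integrableOn_compact (isCompact_closedBall c r)).mono_set ball_subset_closedBall

/-- **quadratic convergence** -/
lemma quad (h : LSeq U c R φ) (h' : LSeq U c R φ') (m : Mol δ η Θ) (hδ : 0 ≤ δ) (hR : r + δ ≤ R)
    {ψ : Cm n → ℂ} (hψ : ContinuousOn ψ (closedBall c r)) :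
    Tendsto (fun k => ∫ z in ball c r, ψ z * inner ℂ (φ k z) (φ' k z)) U
      (𝓝 (∫ z in ball c r, ψ z * inner ℂ (slim U η φ z) (slim U η φ' z))) := by
  obtain ⟨C, hv⟩ := h.vb m hR
  obtain ⟨C', hv'⟩ := h'.vb m hR
  obtain ⟨M, hM⟩ := (isCompact_closedBall c r).exists_bound_of_continuousOn hψ
  have hrR : closedBall c r ⊆ closedBall c R := closedBall_subset_closedBall (by linarith)
  set v : ∀ k, Cm n → H k := fun k => mv η (φ k) with hvdef
  set v' : ∀ k, Cm n → H k := fun k => mv η (φ' k) with hv'def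
  have cφ : ∀ k, ContinuousOn (φ k) (closedBall c r) := fun k => (h.contOn k).mono hrR
  have cφ' : ∀ k, ContinuousOn (φ' k) (closedBall c r) := fun k => (h'.contOn k).mono hrR
  have cv : ∀ k, ContinuousOn (v k) (closedBall c r) := fun k => hv.contOn k
  have cv' : ∀ k, ContinuousOn (v' k) (closedBall c r) := fun k => hv'.contOn k
  have hM0 : 0 ≤ |M| := abs_nonneg M
  have hMψ : ∀ z ∈ closedBall c r, ‖ψ z‖ ≤ |M| := fun z hz => (hM z hz).trans (le_abs_self M)
  obtain ⟨B', hB'⟩ := h'.bd
  have hB'' : ∀ k, ∫ z in ball c r, ‖φ' k z‖ ^ 2 ≤ |B'| := fun k => by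
    refine le_trans (setIntegral_mono_set (intOn ((h'.contOn k).norm.pow 2))
      (Eventually.of_forall fun z => sq_nonneg _) ?_) ((hB' k).trans (le_abs_self _))
    exact (ball_subset_ball (by linarith)).eventuallyLE
  set V := (volume : Measure (Cm n)).real (ball c r) with hV
  have hV0 : 0 ≤ V := measureReal_nonneg
  -- first step: replace `φ` by `v`
  have s1 : Tendsto (fun k => (∫ z in ball c r, ψ z * inner ℂ (φ k z) (φ' k z)) -
      ∫ z in ball c r, ψ z * inner ℂ (v k z) (v' k z)) U (𝓝 0) := by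
    set a : ℕ → ℝ := fun k => ∫ z in ball c r, ‖v k z - φ k z‖ ^ 2 with ha
    set a' : ℕ → ℝ := fun k => ∫ z in ball c r, ‖v' k z - φ' k z‖ ^ 2 with ha'
    have ta : Tendsto a U (𝓝 0) := h.close m hR
    have ta' : Tendsto a' U (𝓝 0) := h'.close m hR
    have hbound : ∀ k, ‖(∫ z in ball c r, ψ z * inner ℂ (φ k z) (φ' k z)) -
        ∫ z in ball c r, ψ z * inner ℂ (v k z) (v' k z)‖ ≤
        |M| * (Real.sqrt (a k * |B'|) + Real.sqrt (V * C ^ 2 * a' k)) := by
      intro k
      have c1 : ContinuousOn (fun z => inner ℂ (φ k z) (φ' k z)) (closedBall c r) :=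
        (cφ k).inner (cφ' k)
      have c2 : ContinuousOn (fun z => inner ℂ (v k z) (v' k z)) (closedBall c r) :=
        (cv k).inner (cv' k)
      have i1 : IntegrableOn (fun z => ψ z * inner ℂ (φ k z) (φ' k z)) (ball c r) :=
        ((hψ.mul c1).integrableOn_compact (isCompact_closedBall c r)).mono_set
          ball_subset_closedBall
      have i2 : IntegrableOn (fun z => ψ z * inner ℂ (v k z) (v' k z)) (ball c r) :=
        ((hψ.mul c2).integrableOn_compact (isCompact_closedBall c r)).mono_set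
          ball_subset_closedBall
      have j1 : IntegrableOn (fun z => ‖v k z - φ k z‖ * ‖φ' k z‖) (ball c r) :=
        intOn (((cv k).sub (cφ k)).norm.mul (cφ' k).norm)
      have j2 : IntegrableOn (fun z => ‖v k z‖ * ‖v' k z - φ' k z‖) (ball c r) :=
        intOn ((cv k).norm.mul ((cv' k).sub (cφ' k)).norm)
      rw [← integral_sub i1 i2]
      have e1 : ‖∫ z in ball c r, (ψ z * inner ℂ (φ k z) (φ' k z) -
          ψ z * inner ℂ (v k z) (v' k z))‖ ≤
          ∫ z in ball c r, |M| * (‖v k z - φ k z‖ * ‖φ' k z‖ + ‖v k z‖ * ‖v' k z - φ' k z‖) := by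
        refine norm_integral_le_of_norm_le ((j1.add j2).const_mul _) ?_
        filter_upwards [ae_restrict_mem measurableSet_ball] with z hz
        rw [← mul_sub, norm_mul]
        have e2 : inner ℂ (φ k z) (φ' k z) - inner ℂ (v k z) (v' k z) =
            -inner ℂ (v k z - φ k z) (φ' k z) - inner ℂ (v k z) (v' k z - φ' k z) := by
          rw [inner_sub_left, inner_sub_right]; ring
        refine mul_le_mul (hMψ z (ball_subset_closedBall hz)) ?_ (norm_nonneg _) hM0
        rw [e2]
        refine (norm_sub_le _ _).trans ?_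
        rw [norm_neg]
        exact add_le_add (norm_inner_le_norm _ _) (norm_inner_le_norm _ _)
      refine e1.trans ?_
      rw [integral_const_mul, integral_add j1 j2]
      refine mul_le_mul_of_nonneg_left (add_le_add ?_ ?_) hM0
      · refine Real.le_sqrt_of_sq_le ?_
        refine (cs2 (intOn (((cv k).sub (cφ k)).norm.pow 2)) (intOn ((cφ' k).norm.pow 2)) j1).trans
          ?_
        exact mul_le_mul_of_nonneg_left (hB'' k) (integral_nonneg fun z => sq_nonneg _)
      · refine Real.le_sqrt_of_sq_le ?_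
        refine (cs2 (intOn ((cv k).norm.pow 2)) (intOn (((cv' k).sub (cφ' k)).norm.pow 2)) j2).trans
          ?_
        refine mul_le_mul_of_nonneg_right ?_ (integral_nonneg fun z => sq_nonneg _)
        have : ∫ z in ball c r, ‖v k z‖ ^ 2 ≤ ∫ z in ball c r, C ^ 2 :=
          setIntegral_mono_on (intOn ((cv k).norm.pow 2))
            (integrableOn_const measure_ball_lt_top.ne) measurableSet_ball fun z hz =>
              pow_le_pow_left₀ (norm_nonneg _) (hv.bd k z (ball_subset_closedBall hz)) 2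
        rwa [setIntegral_const, smul_eq_mul] at this
    rw [tendsto_zero_iff_norm_tendsto_zero]
    refine squeeze_zero (fun k => norm_nonneg _) hbound ?_
    have t1 : Tendsto (fun k => Real.sqrt (a k * |B'|)) U (𝓝 0) := by
      have := (Real.continuous_sqrt.tendsto _).comp (ta.mul_const |B'|)
      simpa [Function.comp_def] using this
    have t2 : Tendsto (fun k => Real.sqrt (V * C ^ 2 * a' k)) U (𝓝 0) := by
      have := (Real.continuous_sqrt.tendsto _).comp (ta'.const_mul (V * C ^ 2))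
      simpa [Function.comp_def] using this
    simpa using (t1.add t2).const_mul |M|
  -- second step: uniform convergence
  have s2 : Tendsto (fun k => ∫ z in ball c r, ψ z * inner ℂ (v k z) (v' k z)) U
      (𝓝 (∫ z in ball c r, ψ z * inner ℂ (slim U η φ z) (slim U η φ' z))) := by
    have hL : ∀ k, ∀ x ∈ closedBall c r, ∀ y ∈ closedBall c r,
        ‖inner ℂ (v k x) (v' k x) - inner ℂ (v k y) (v' k y)‖ ≤ (2 * C * C') * dist x y := by
      intro k x hx y hy
      have e2 : inner ℂ (v k x) (v' k x) - inner ℂ (v k y) (v' k y) =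
          inner ℂ (v k x - v k y) (v' k x) + inner ℂ (v k y) (v' k x - v' k y) := by
        rw [inner_sub_left, inner_sub_right]; ring
      rw [e2, dist_eq_norm]
      refine (norm_add_le _ _).trans ?_
      have a1 : ‖inner ℂ (v k x - v k y) (v' k x)‖ ≤ (C * ‖x - y‖) * C' :=
        (norm_inner_le_norm _ _).trans (mul_le_mul (hv.lip k x hx y hy) (hv'.bd k x hx)
          (norm_nonneg _) (mul_nonneg hv.nn (norm_nonneg _)))
      have a2 : ‖inner ℂ (v k y) (v' k x - v' k y)‖ ≤ C * (C' * ‖x - y‖) :=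
        (norm_inner_le_norm _ _).trans (mul_le_mul (hv.bd k y hy) (hv'.lip k x hx y hy)
          (norm_nonneg _) hv.nn)
      linarith
    have hG : ∀ x ∈ closedBall c r, Tendsto (fun k => inner ℂ (v k x) (v' k x)) U
        (𝓝 (inner ℂ (slim U η φ x) (slim U η φ' x))) := fun x hx =>
      inner_mk (hv.bdd hx) (hv'.bdd hx)
    have hCC : 0 ≤ 2 * C * C' := mul_nonneg (mul_nonneg zero_le_two hv.nn) hv'.nn
    have hGc : ContinuousOn (fun x => inner ℂ (slim U η φ x) (slim U η φ' x)) (closedBall c r) := by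
      have hl : LipschitzOnWith (Real.toNNReal (2 * C * C'))
          (fun x => inner ℂ (slim U η φ x) (slim U η φ' x)) (closedBall c r) :=
        LipschitzOnWith.of_dist_le_mul fun x hx y hy => by
          rw [dist_eq_norm, Real.coe_toNNReal _ hCC]
          exact le_of_tendsto' ((hG x hx).sub (hG y hy)).norm fun k => hL k x hx y hy
      exact hl.continuousOn
    rw [Metric.tendsto_nhds]
    intro ε hε
    set ε' := ε / (2 * (|M| * V + 1)) with hε'
    have hε0 : 0 < ε' := by positivity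
    filter_upwards [unif (isCompact_closedBall c r) hCC hL hG hε0] with k hk
    have i1 : IntegrableOn (fun z => ψ z * inner ℂ (v k z) (v' k z)) (ball c r) :=
      ((hψ.mul ((cv k).inner (cv' k))).integrableOn_compact (isCompact_closedBall c r)).mono_set
        ball_subset_closedBall
    have i2 : IntegrableOn (fun z => ψ z * inner ℂ (slim U η φ z) (slim U η φ' z)) (ball c r) :=
      ((hψ.mul hGc).integrableOn_compact (isCompact_closedBall c r)).mono_set
        ball_subset_closedBall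
    rw [dist_eq_norm, ← integral_sub i1 i2]
    have e1 : ‖∫ z in ball c r, (ψ z * inner ℂ (v k z) (v' k z) -
        ψ z * inner ℂ (slim U η φ z) (slim U η φ' z))‖ ≤ ∫ z in ball c r, |M| * ε' := by
      refine norm_integral_le_of_norm_le (integrableOn_const measure_ball_lt_top.ne) ?_
      filter_upwards [ae_restrict_mem measurableSet_ball] with z hz
      rw [← mul_sub, norm_mul]
      exact mul_le_mul (hMψ z (ball_subset_closedBall hz)) (hk z (ball_subset_closedBall hz))
        (norm_nonneg _) hM0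
    rw [setIntegral_const, smul_eq_mul] at e1
    refine lt_of_le_of_lt e1 ?_
    have e3 : V * (|M| * ε') < ε := by
      have : V * (|M| * ε') ≤ (|M| * V + 1) * ε' := by nlinarith
      refine lt_of_le_of_lt this ?_
      rw [hε']
      have : (|M| * V + 1) * (ε / (2 * (|M| * V + 1))) = ε / 2 := by field_simp
      rw [this]
      linarith
    exact e3
  have := s1.add s2
  simpa using this

/-- if the limit vanishes, the sequence tends to `0` in `L²` -/
lemma tendsto_zero_of_slim (h : LSeq U c R φ) (m : Mol δ η Θ) (hδ : 0 ≤ δ) (hR : r + δ ≤ R)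
    (h0 : ∀ z ∈ ball c r, slim U η φ z = 0) :
    Tendsto (fun k => ∫ z in ball c r, ‖φ k z‖ ^ 2) U (𝓝 0) := by
  have h1 := quad h h m hδ hR (ψ := fun _ => 1) continuousOn_const
  have e0 : ∫ z in ball c r, (1 : ℂ) * inner ℂ (slim U η φ z) (slim U η φ z) = 0 := by
    rw [setIntegral_congr_fun (g := fun _ => (0 : ℂ)) measurableSet_ball fun z hz => by
      simp only [h0 z hz]; simp]
    simp
  rw [e0] at h1
  have h2 := (Complex.continuous_re.tendsto _).comp h1
  rw [Complex.zero_re] at h2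
  refine h2.congr fun k => ?_
  have hrR : closedBall c r ⊆ closedBall c R := closedBall_subset_closedBall (by linarith)
  have c1 : ContinuousOn (fun z => (1 : ℂ) * inner ℂ (φ k z) (φ k z)) (closedBall c r) :=
    continuousOn_const.mul (((h.contOn k).mono hrR).inner ((h.contOn k).mono hrR))
  have i1 : IntegrableOn (fun z => (1 : ℂ) * inner ℂ (φ k z) (φ k z)) (ball c r) :=
    (c1.integrableOn_compact (isCompact_closedBall c r)).mono_set ball_subset_closedBall
  have e1 := integral_re (𝕜 := ℂ) i1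
  simp only [Function.comp_apply]
  rw [← RCLike.re_eq_complex_re, ← e1]
  refine setIntegral_congr_fun measurableSet_ball fun z _ => ?_
  simp only [one_mul]
  exact inner_self_eq_norm_sq (𝕜 := ℂ) _

end quad

end Vale.Agent.P284.H366
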