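import Vale.Agent.P284.H501.Core.Spec
import Vale.Agent.P284.H501.ExtE

/-!
# The relative form `Θ` of `S = O ∧ Θ`, canonically on the covering

`ThE p F S y e v = S y e (u_1, …, u_q, v)` with `dF u_i = e_i`.
-/

open scoped Manifold ContDiff Topology InnerProductSpace ComplexConjugate
open Filter Set

noncomputable section

set_option linter.unusedSectionVars false

namespace Vale.Agent.P284.H366

open Vale.Agent.P272.K Vale.Agent.P284.H894 Vale.Agent.P284.H894.G Vale.Agent.P284.H894.V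
  Vale.Agent.P284.H894.W Vale.Agent.P284.H501 Vale.Agent.P284.H501.Core Vale.Agent.P284.H619

section
variable {n q : ℕ} {X E : Type} [TopologicalSpace X] [ChartedSpace (Cm n) X]
  [TopologicalSpace E] {p : E → X} {F : E → Cm q} {W : Type} [NormedAddCommGroup W]
  [NormedSpace ℂ W]

open Classical in
/-- the derivative of `F` at `y` in the chart `e` -/
def dFe (p : E → X) (F : E → Cm q) (y : E) (e : Chart n X) : Cm n →L[ℂ] Cm q :=
  if h : ∃ f : Cm n → Cm q, ∀ᶠ y' in 𝓝 y, F y' = f (e (p y')) then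
    fderiv ℂ h.choose (e (p y)) else 0

theorem dFe_eq (hp : IsCoveringMap p) {y : E} {e : Chart n X} (he : At e (p y))
    {f : Cm n → Cm q} (hf : ∀ᶠ y' in 𝓝 y, F y' = f (e (p y'))) :
    dFe p F y e = fderiv ℂ f (e (p y)) := by
  have h : ∃ f : Cm n → Cm q, ∀ᶠ y' in 𝓝 y, F y' = f (e (p y')) := ⟨f, hf⟩
  rw [dFe, dif_pos h]
  have h1 : h.choose =ᶠ[𝓝 (e (p y))] f := by
    rw [Filter.EventuallyEq, ← ev_iff hp he]
    filter_upwards [hf, h.choose_spec] with y' h1 h2
    rw [← h1, ← h2]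
  exact h1.fderiv_eq

theorem dFe_near (hp : IsCoveringMap p) {y : E} {e : Chart n X} (he : At e (p y))
    {f : Cm n → Cm q} (hf : ∀ᶠ y' in 𝓝 y, F y' = f (e (p y'))) :
    ∀ᶠ y' in 𝓝 y, dFe p F y' e = fderiv ℂ f (e (p y')) := by
  filter_upwards [hf.eventually_nhds, at_ev hp he] with y' h1 h2
  exact dFe_eq hp h2 h1

theorem mem_VS_iff (hp : IsCoveringMap p) (hF : HolE n p F) {y : E} {e : Chart n X}
    (he : At e (p y)) {ξ : Cm n} : ξ ∈ VS p F y e ↔ dFe p F y e ξ = 0 := by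
  obtain ⟨f, hf, -⟩ := hF y e he
  rw [mem_VS hp he hf, dFe_eq hp he hf]

theorem reg_dFe (hp : IsCoveringMap p) (hF : HolE n p F) {y : E} {e : Chart n X}
    (he : At e (p y)) (h : Reg (n := n) p F y) : Function.Surjective (dFe p F y e) := by
  obtain ⟨f, hf, -⟩ := hF y e he
  rw [dFe_eq hp he hf]
  exact h e f he hf

open Classical in
/-- vectors `u_i` with `L u_i = e_i` -/
def rinv (L : Cm n →L[ℂ] Cm q) : Fin q → Cm n :=
  if h : Function.Surjective L then fun i => (h (Pi.single i 1)).choose else 0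

theorem L_rinv {L : Cm n →L[ℂ] Cm q} (h : Function.Surjective L) (i : Fin q) :
    L (rinv L i) = Pi.single i 1 := by
  rw [rinv, dif_pos h]
  exact (h (Pi.single i 1)).choose_spec

theorem dL_one {L : Cm n →L[ℂ] Cm q} {u : Fin q → Cm n} (hu : ∀ i, L (u i) = Pi.single i 1) :
    dL L u = 1 := by
  rw [← dL_eq]
  have : (Matrix.of fun i j : Fin q => L (u i) j) = 1 := by
    ext i j
    rw [Matrix.of_apply, hu, Matrix.one_apply, Pi.single_apply]
    simp [eq_comm]
  rw [this, Matrix.det_one]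

/-- the values of `S` on `(u, v)`, `v` vertical, `L u_i = e_i`, do not depend on `u` -/
theorem snoc_eq {L : Cm n →L[ℂ] Cm q} {S : Cm n [⋀^Fin (q + 1)]→L[ℂ] W} (hS : RelP L S)
    (hL : Function.Surjective L) {u : Fin q → Cm n} (hu : ∀ i, L (u i) = Pi.single i 1)
    {v : Cm n} (hv : L v = 0) :
    S (Fin.snoc (α := fun _ => Cm n) u v) = sl S (rinv L) v := by
  obtain ⟨Θ, hΘ⟩ := exists_isW hS hL
  rw [sl_apply, hΘ.snoc u hv, hΘ.snoc (rinv L) hv, dL_one hu, dL_one (L_rinv hL)]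

/-- **the relative form** -/
def ThE (p : E → X) (F : E → Cm q) (S : E → Chart n X → Cm n [⋀^Fin (q + 1)]→L[ℂ] W) (y : E)
    (e : Chart n X) : Cm n →L[ℂ] W := sl (S y e) (rinv (dFe p F y e))

variable {S : E → Chart n X → Cm n [⋀^Fin (q + 1)]→L[ℂ] W}

/-- the relation at the points where `dF` is onto (field `rel` of `RelS`) -/
def RelE (p : E → X) (F : E → Cm q) (S : E → Chart n X → Cm n [⋀^Fin (q + 1)]→L[ℂ] W) : Prop :=
  ∀ y e, At e (p y) → Function.Surjective (dFe p F y e) → RelP (dFe p F y e) (S y e)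

theorem relE_of (hp : IsCoveringMap p)
    (hF : HolE n p F) (h : ∀ y e f, At e (p y) → Rep p F y e f →
    Function.Surjective (fderiv ℂ f (e (p y))) →
    ∀ (ξ : Fin (q + 1) → Cm n) (i j : Fin (q + 1)), i ≠ j → fderiv ℂ f (e (p y)) (ξ i) = 0 →
    fderiv ℂ f (e (p y)) (ξ j) = 0 → S y e ξ = 0) : RelE p F S := by
  intro y e he hs
  obtain ⟨f, hf, hfa⟩ := hF y e he
  rw [dFe_eq hp he hf] at hs ⊢
  exact fun ξ i j hij hi hj => h y e f he ⟨hfa, hf⟩ hs ξ i j hij hi hj

/-- the values of `ThE` on vertical vectors -/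
theorem ThE_snoc (hS : RelE p F S) {y : E} {e : Chart n X}
    (he : At e (p y)) (hr : Function.Surjective (dFe p F y e)) {u : Fin q → Cm n}
    (hu : ∀ i, dFe p F y e (u i) = Pi.single i 1) {v : Cm n} (hv : dFe p F y e v = 0) :
    ThE p F S y e v = S y e (Fin.snoc (α := fun _ => Cm n) u v) :=
  (snoc_eq (hS y e he hr) hr hu hv).symm

theorem ThE_dL (hS : RelE p F S) {y : E} {e : Chart n X}
    (he : At e (p y)) (hr : Function.Surjective (dFe p F y e)) {w : Fin q → Cm n} {v : Cm n}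
    (hv : dFe p F y e v = 0) :
    S y e (Fin.snoc (α := fun _ => Cm n) w v) = dL (dFe p F y e) w • ThE p F S y e v := by
  obtain ⟨Θ, hΘ⟩ := exists_isW (hS y e he hr) hr
  rw [ThE, sl_apply, hΘ.snoc w hv, hΘ.snoc _ hv, dL_one (L_rinv hr), one_smul]

/-- local holomorphic expression on vertical vectors -/
theorem ThE_hol (hp : IsCoveringMap p) (hF : HolE n p F) (hS : RelE p F S) (hform : FormE p S)
    {y : E} {e : Chart n X} (he : At e (p y)) (hr : Function.Surjective (dFe p F y e)) :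
    ∃ A : Cm n → (Cm n →L[ℂ] W), AnalyticAt ℂ A (e (p y)) ∧
      ∀ᶠ y' in 𝓝 y, ∀ ξ ∈ VS p F y' e, ThE p F S y' e ξ = A (e (p y')) ξ := by
  obtain ⟨f, hf, hfa⟩ := hF y e he
  obtain ⟨s, hs, hsy⟩ := hform.holo y e he
  rw [dFe_eq hp he hf] at hr
  obtain ⟨J, hJ⟩ := dL_ne hr
  set u : Fin q → Cm n := fun i => Pi.single (J i) 1
  have h1 : AnalyticAt ℂ (fun z => dL (fderiv ℂ f z) u) (e (p y)) := an_dL hfa.fderiv u
  refine ⟨fun z => (dL (fderiv ℂ f z) u)⁻¹ • sl (s z) u, (h1.inv hJ).smul (an_sl hs u), ?_⟩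
  have h2 : ∀ᶠ y' in 𝓝 y, dL (fderiv ℂ f (e (p y'))) u ≠ 0 :=
    (ev_iff hp he (Q := fun z => dL (fderiv ℂ f z) u ≠ 0)).2 (h1.continuousAt.eventually_ne hJ)
  filter_upwards [hsy, h2, dFe_near hp he hf, at_ev hp he] with y' g1 g2 g3 g4 ξ hξ
  have hr' : Function.Surjective (dFe p F y' e) := by
    rw [g3]
    by_contra hcon
    exact g2 (dL_not_surj hcon u)
  have hv := (mem_VS_iff hp hF g4).1 hξ
  have h5 := ThE_dL hS g4 hr' (w := u) hv
  rw [g3] at h5
  show ThE p F S y' e ξ = (dL (fderiv ℂ f (e (p y'))) u)⁻¹ • sl (s (e (p y'))) u ξ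
  rw [sl_apply, ← g1, h5, smul_smul, inv_mul_cancel₀ g2, one_smul]

/-- change of charts: the derivative of `F` -/
theorem dFe_change [IsManifold 𝓘(ℂ, Cm n) ω X] (hp : IsCoveringMap p) (hF : HolE n p F) {y : E}
    {e e' : Chart n X} (he : At e (p y)) (he' : At e' (p y)) :
    dFe p F y e = (dFe p F y e').comp (fderiv ℂ (fun z => e' (e.symm z)) (e (p y))) := by
  obtain ⟨f', hf', hfa'⟩ := hF y e' he'
  have h1 : ∀ᶠ y' in 𝓝 y, F y' = (fun z => f' (e' (e.symm z))) (e (p y')) := by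
    filter_upwards [hf', at_ev hp he] with y' h1 h2
    show F y' = f' (e' (e.symm (e (p y'))))
    rw [e.left_inv h2.2, h1]
  rw [dFe_eq (f := fun z => f' (e' (e.symm z))) hp he h1, dFe_eq hp he' hf']
  have h2 : e' (e.symm (e (p y))) = e' (p y) := by rw [e.left_inv he.2]
  have h3 : DifferentiableAt ℂ f' ((fun z => e' (e.symm z)) (e (p y))) := by
    show DifferentiableAt ℂ f' (e' (e.symm (e (p y))))
    rw [h2]
    exact hfa'.differentiableAt
  have h4 := fderiv_comp (g := f') (f := fun z => e' (e.symm z)) (e (p y)) h3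
    (transition_differentiableAt he he')
  simp only [h2] at h4
  exact h4

theorem ThE_change [IsManifold 𝓘(ℂ, Cm n) ω X] (hp : IsCoveringMap p) (hF : HolE n p F)
    (hS : RelE p F S) (hform : FormE p S) {y : E} {e e' : Chart n X} (he : At e (p y))
    (he' : At e' (p y)) (hr : Reg (n := n) p F y) {ξ : Cm n} (hξ : ξ ∈ VS p F y e) :
    ThE p F S y e ξ = ThE p F S y e' (fderiv ℂ (fun z => e' (e.symm z)) (e (p y)) ξ) := by
  set T := fderiv ℂ (fun z => e' (e.symm z)) (e (p y)) with hT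
  have h1 : dFe p F y e = (dFe p F y e').comp T := dFe_change hp hF he he'
  have hs := reg_dFe hp hF he hr
  have hs' := reg_dFe hp hF he' hr
  have hv := (mem_VS_iff hp hF he).1 hξ
  have hv' : dFe p F y e' (T ξ) = 0 := by
    have := hv
    rwa [h1] at this
  rw [ThE_snoc hS he hs (L_rinv hs) hv, hform.change y e e' he he']
  have hu : ∀ i, dFe p F y e' (T (rinv (dFe p F y e) i)) = Pi.single i 1 := by
    intro i
    have h5 := L_rinv hs i
    have h6 : ∀ v, dFe p F y e v = dFe p F y e' (T v) := fun v => by rw [h1]; rfl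
    rw [h6] at h5
    exact h5
  rw [ThE_snoc hS he' hs' (u := fun i => T (rinv (dFe p F y e) i)) hu hv']
  congr 1
  funext i
  refine Fin.lastCases ?_ (fun i => ?_) i
  · simp only [Fin.snoc_last]
    rfl
  · simp only [Fin.snoc_castSucc]
    rfl

/-- the derivative is invariant -/
theorem dFe_smul {Γ : Type} [Group Γ] [MulAction Γ E] (hG : IsGalois Γ p) (hF : HolE n p F)
    {c : Γ → Cm q} (hc : ∀ g y, F (g • y) = F y + c g) (g : Γ) {y : E} {e : Chart n X}
    (he : At e (p y)) : dFe p F (g • y) e = dFe p F y e := by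
  obtain ⟨f, hf, hfa⟩ := hF y e he
  have hpg : ∀ y', p (g • y') = p y' := fun y' => ((hG.orb _ _).2 ⟨g, rfl⟩).symm
  have h1 : ∀ᶠ y' in 𝓝 (g • y), F y' = (fun z => f z + c g) (e (p y')) := by
    have h2 : Tendsto (fun y' => g⁻¹ • y') (𝓝 (g • y)) (𝓝 y) := by
      have := (hG.cont g⁻¹).tendsto (g • y)
      rwa [inv_smul_smul] at this
    filter_upwards [h2.eventually hf] with y' h3
    have h4 := hc g (g⁻¹ • y')
    rw [smul_inv_smul] at h4
    have h5 := hpg (g⁻¹ • y')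
    rw [smul_inv_smul] at h5
    show F y' = f (e (p y')) + c g
    rw [h4, h3, h5]
  have he' : At e (p (g • y)) := by rw [hpg]; exact he
  rw [dFe_eq (f := fun z => f z + c g) hG.cov he' h1, dFe_eq hG.cov he hf, hpg]
  simp only [fderiv_add_const]

end

section
variable {n q : ℕ} {X E Γ W : Type} [TopologicalSpace X] [ChartedSpace (Cm n) X]
  [TopologicalSpace E] [Group Γ] [MulAction Γ E] {p : E → X} {F : E → Cm q}
  [NormedAddCommGroup W] [InnerProductSpace ℂ W]
  {S : E → Chart n X → Cm n [⋀^Fin (q + 1)]→L[ℂ] W}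

theorem ThE_isTh (hp : IsCoveringMap p) : IsTh p F S (ThE p F S) := by
  intro y e f he hf hs Θ' hΘ' ξ hξ
  have e1 := dFe_eq hp he hf.2
  rw [← e1] at hs hΘ' hξ
  rw [ThE, sl_apply, hΘ'.snoc _ hξ, dL_one (L_rinv hs), one_smul]

/-- equivariance -/
theorem ThE_equi (hG : IsGalois Γ p) (hF : HolE n p F) {c : Γ → Cm q}
    (hc : ∀ g y, F (g • y) = F y + c g) {π : Γ →* (W ≃ₗᵢ[ℂ] W)}
    (hS : ∀ (g : Γ) y e, At e (p y) → ∀ ξ, S (g • y) e ξ = π g (S y e ξ)) (g : Γ) {y : E}
    {e : Chart n X} (he : At e (p y)) (ξ : Cm n) :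
    ThE p F S (g • y) e ξ = π g (ThE p F S y e ξ) := by
  rw [ThE, ThE, dFe_smul hG hF hc g he, sl_apply, sl_apply, hS g y e he]

end

end Vale.Agent.P284.H366
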